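import Vale.Agent.P189.Cost

/-!
Fixed price, as in the problem: all essentially free measure preserving actions of the group on
standard probability spaces have the same cost.
-/

namespace Vale.Agent.P189

open MeasureTheory

/-- The group has fixed price. -/
def FixedPrice (H : Type) [Group H] : Prop :=
  ∀ (X Y : Type) [MeasurableSpace X] [StandardBorelSpace X] [MulAction H X] [MeasurableSpace Y]
    [StandardBorelSpace Y] [MulAction H Y] (μ : Measure X) (ν : Measure Y) [IsProbabilityMeasure μ]
    [IsProbabilityMeasure ν], IsPMP H μ → IsPMP H ν → IsEssFree H μ → IsEssFree H ν →
      cost H μ = cost H ν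

end Vale.Agent.P189
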