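import Vale.Agent.P189.Reduce
import Vale.Agent.P189.Statement

/-!
Assembly: if no finite family of arcs of total measure at most six connects the orbits of the
Bernoulli action, then the two actions have different cost, so fixed price fails.
-/

namespace Vale.Agent.P189

open MeasureTheory
open scoped ENNReal

/-- No finite family of total measure at most six connects the Bernoulli orbits. -/
def NoSmallFamily (p : ℕ) : Prop :=
  ∀ {ι : Type} [Fintype ι] (D : ι → Set (Lab (G p))), (∀ i, MeasurableSet (D i)) →
    ∀ k : ι → G p, ∑ i, law (G p) (D i) ≤ 6 →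
      (∀ᵐ x ∂law (G p), ∀ g : G p,
        Relation.EqvGen (fun y z => ∃ i, y ∈ D i ∧ sh (k i) y = z) x (sh g x)) → False

/-- Such a group has Bernoulli cost at least four. -/
theorem four_le_cost_X {p : ℕ} (h : NoSmallFamily p) : 4 ≤ cost (G p) (μX p) := by
  by_contra hlt
  obtain ⟨n, D, k, hD, hsum, -, hgen⟩ := exists_finite_arcs (not_le.1 hlt)
  exact h D hD k (hsum.trans (by norm_num)) (Filter.Eventually.of_forall fun x g => hgen x g)

/-- The group is finitely generated, by `a`, `b` and the lamps at the origin. -/
theorem fg_G (p : ℕ) : Group.FG (G p) := by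
  refine Group.fg_iff.2 ⟨Set.range fun i : Bool ⊕ Fin p =>
    Sum.elim (fun c => (SemidirectProduct.inr (FreeGroup.of c) : G p)) T i, ?_, Set.finite_range _⟩
  set K := Subgroup.closure (Set.range fun i : Bool ⊕ Fin p =>
    Sum.elim (fun c => (SemidirectProduct.inr (FreeGroup.of c) : G p)) T i) with hK
  have hgen : ∀ i : Bool ⊕ Fin p,
      Sum.elim (fun c => (SemidirectProduct.inr (FreeGroup.of c) : G p)) T i ∈ K := fun i =>
    Subgroup.subset_closure ⟨i, rfl⟩
  refine eq_top_iff.2 fun g _ => ?_
  have hr : ∀ f : F2, (SemidirectProduct.inr f : G p) ∈ K := fun f => by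
    induction f using FreeGroup.induction_on with
    | C1 => rw [map_one]; exact K.one_mem
    | of c => exact hgen (Sum.inl c)
    | inv_of c ih => rw [map_inv]; exact K.inv_mem ih
    | mul f f' h h' => rw [map_mul]; exact K.mul_mem h h'
  have hl : ∀ n : N p, n ∈ K.comap SemidirectProduct.inl := fun n => by
    refine PresentedGroup.generated_by _ _ (fun l => ?_) n
    show (SemidirectProduct.inl (lamp (l.1, l.2)) : G p) ∈ K
    rw [inl_lamp_eq_conj]
    exact K.mul_mem (K.mul_mem (hr _) (hgen (Sum.inr l.1))) (hr _)
  rw [← SemidirectProduct.inl_left_mul_inr_right g]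
  exact K.mul_mem (hl _) (hr _)

/-- Fixed price fails as soon as no small family connects the Bernoulli orbits. -/
theorem not_fixedPrice {p : ℕ} [NeZero p] (h : NoSmallFamily p) : ¬ FixedPrice (G p) := fun hf => by
  have e := hf (X p) (Y p p) (μX p) (μY p p) (isPMP_X p) (isPMP_Y p p) (isEssFree_X p)
    (isEssFree_Y p p)
  have hY : cost (G p) (μY p p) ≤ 3 := (cost_Y_le p p).trans (le_of_eq (by
    rw [ENNReal.div_self (Nat.cast_ne_zero.2 (NeZero.ne p)) (ENNReal.natCast_ne_top p)]
    norm_num))
  exact absurd ((four_le_cost_X h).trans (e.le.trans hY)) (by norm_num)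

end Vale.Agent.P189
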