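import Mathlib

/-!
The group: lamps `t (m, g)`, indexed by a type `m` and an element `g` of the free group on two
letters, subject to one relation for each lamp, extended by the translations.
-/

namespace Vale.Agent.P189

/-- The free group on two letters. -/
abbrev F2 : Type := FreeGroup Bool

/-- The translation attached to the slot `j` of the relation of type `m`. -/
def u {p : ℕ} (m j : Fin p) : F2 :=
  FreeGroup.of false ^ (finProdFinEquiv (m, j) : ℕ) * FreeGroup.of true *
    (FreeGroup.of false ^ (finProdFinEquiv (m, j) : ℕ))⁻¹

/-- A lamp: a type and a position. -/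
abbrev Lamp (p : ℕ) : Type := Fin p × F2

/-- The right hand side of the relation of the lamp `(m, g)`. -/
def rhs {p : ℕ} (l : Lamp p) : List (Lamp p) :=
  (List.finRange p).map fun j => (j, l.2 * u l.1 j)

/-- The relator of the lamp `(m, g)`. -/
def relator {p : ℕ} (l : Lamp p) : FreeGroup (Lamp p) :=
  (FreeGroup.of l)⁻¹ * ((rhs l).map FreeGroup.of).prod

/-- The lamp group. -/
abbrev N (p : ℕ) : Type := PresentedGroup (Set.range (relator (p := p)))

/-- The generator of the lamp group. -/
def lamp {p : ℕ} (l : Lamp p) : N p := PresentedGroup.of l

/-- Translation of lamps by an element of the free group. -/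
def translateHom (p : ℕ) (f : F2) : N p →* N p :=
  PresentedGroup.toGroup (f := fun l => lamp (l.1, f * l.2)) (by
    rintro _ ⟨l, rfl⟩
    have h : PresentedGroup.mk (Set.range (relator (p := p))) (relator (l.1, f * l.2)) = 1 :=
      PresentedGroup.one_of_mem ⟨_, rfl⟩
    rw [← h]
    simp only [relator, map_mul, map_inv, map_list_prod, List.map_map, FreeGroup.lift_apply_of,
      rhs, lamp, PresentedGroup.of]
    refine congrArg₂ (· * ·) rfl (congrArg List.prod (List.map_congr_left fun j _ => ?_))
    simp [Function.comp, mul_assoc])

lemma translateHom_lamp {p : ℕ} (f : F2) (l : Lamp p) :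
    translateHom p f (lamp l) = lamp (l.1, f * l.2) :=
  PresentedGroup.toGroup.of _

lemma translateHom_one (p : ℕ) : translateHom p 1 = MonoidHom.id (N p) := by
  refine PresentedGroup.ext fun l => ?_
  show translateHom p 1 (lamp l) = lamp l
  simp [translateHom_lamp]

lemma translateHom_mul (p : ℕ) (f f' : F2) :
    translateHom p (f * f') = (translateHom p f).comp (translateHom p f') := by
  refine PresentedGroup.ext fun l => ?_
  show translateHom p (f * f') (lamp l) = translateHom p f (translateHom p f' (lamp l))
  simp [translateHom_lamp, mul_assoc]

/-- Translations act by automorphisms of the lamp group. -/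
def translate (p : ℕ) : F2 →* MulAut (N p) where
  toFun f := MonoidHom.toMulEquiv (translateHom p f) (translateHom p f⁻¹)
    (by rw [← translateHom_mul, inv_mul_cancel, translateHom_one])
    (by rw [← translateHom_mul, mul_inv_cancel, translateHom_one])
  map_one' := by
    ext n
    simp [translateHom_one]
  map_mul' f f' := by
    ext n
    simp [translateHom_mul]

/-- The group. -/
abbrev G (p : ℕ) : Type := N p ⋊[translate p] F2

/-- The lamp of type `m` at the origin, in the group. -/
def T {p : ℕ} (m : Fin p) : G p := SemidirectProduct.inl (lamp (m, 1))

/-- The position of the origin of the edge of slot `j` in the cell of type `m` at `1`. -/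
def q {p : ℕ} (m j : Fin p) : G p :=
  ⟨((List.finRange p).take j.val |>.map fun i => lamp (i, u m i)).prod, u m j⟩

instance instCountableG (p : ℕ) : Countable (G p) := by
  haveI : Countable (N p) := (QuotientGroup.mk'_surjective _).countable
  exact Function.Injective.countable (f := fun g : G p => (g.left, g.right))
    fun a b h => SemidirectProduct.ext (congrArg Prod.fst h) (congrArg Prod.snd h)

end Vale.Agent.P189
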