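import Mathlib

/-!
Invariant random weights on a countable group indexed by independent uniform labels, their
densities, and the mass transport principle.
-/

namespace Vale.Agent.P189

open MeasureTheory Function
open scoped ENNReal unitInterval

section

variable {H : Type*}

/-- The label space. -/
abbrev Lab (H : Type*) : Type _ := H → I

/-- The law of independent uniform labels. -/
noncomputable abbrev law (H : Type*) : Measure (Lab H) :=
  Measure.infinitePi fun _ : H => (volume : Measure I)

variable [Group H]

/-- The labels translated by `h`. -/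
def sh (h : H) (x : Lab H) : Lab H := fun g => x (h⁻¹ * g)

@[simp] lemma sh_one (x : Lab H) : sh 1 x = x := by funext g; simp [sh]

lemma sh_mul (h h' : H) (x : Lab H) : sh (h * h') x = sh h (sh h' x) := by
  funext g; simp [sh, mul_assoc]

lemma measurable_sh (h : H) : Measurable (sh (H := H) h) :=
  measurable_pi_lambda _ fun _ => measurable_pi_apply _

lemma map_sh (h : H) : (law H).map (sh h) = law H := by
  classical
  refine Measure.eq_infinitePi _ fun s t ht => ?_
  rw [Measure.map_apply (measurable_sh h) (.pi s.countable_toSet fun _ _ => ht _)]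
  have : sh h ⁻¹' Set.pi (s : Set H) t =
      Set.pi ((s.image (h⁻¹ * ·) : Finset H) : Set H) fun g => t (h * g) := by
    ext ω
    simp only [Set.mem_preimage, Set.mem_pi, Finset.mem_coe, Finset.mem_image, sh]
    constructor
    · rintro hω _ ⟨g, hg, rfl⟩
      simpa using hω g hg
    · intro hω g hg
      simpa using hω (h⁻¹ * g) ⟨g, hg, rfl⟩
  rw [this, Measure.infinitePi_pi _ fun g _ => ht _,
    Finset.prod_image (mul_right_injective h⁻¹).injOn]
  simp

lemma lintegral_sh (h : H) {f : Lab H → ℝ≥0∞} (hf : Measurable f) :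
    ∫⁻ x, f (sh h x) ∂law H = ∫⁻ x, f x ∂law H := by
  conv_rhs => rw [← map_sh h]
  rw [lintegral_map hf (measurable_sh h)]

variable {S T : Type*}

/-- Translation of an indexed element. -/
def tr (h : H) (a : H × S) : H × S := (h * a.1, a.2)

/-- An invariant random weight on `H × S`. -/
structure IsWeight (f : Lab H → H × S → ℝ≥0∞) : Prop where
  meas : ∀ a, Measurable fun x => f x a
  equiv : ∀ h x a, f (sh h x) (tr h a) = f x a

/-- The expected total weight per group element. -/
noncomputable def dens (f : Lab H → H × S → ℝ≥0∞) : ℝ≥0∞ :=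
  ∫⁻ x, ∑' s, f x (1, s) ∂law H

/-- An invariant random transport from `H × S` to `H × T`. -/
structure IsKernel (k : Lab H → H × S → H × T → ℝ≥0∞) : Prop where
  meas : ∀ a b, Measurable fun x => k x a b
  equiv : ∀ h x a b, k (sh h x) (tr h a) (tr h b) = k x a b

variable [Countable H] [Countable S] [Countable T]

omit [Countable S] in
lemma IsKernel.out {k : Lab H → H × S → H × T → ℝ≥0∞} (hk : IsKernel k) :
    IsWeight fun x a => ∑' b, k x a b := by
  refine ⟨fun a => Measurable.tsum fun b => hk.meas a b, fun h x a => ?_⟩
  rw [← ((Equiv.mulLeft h).prodCongr (Equiv.refl T)).tsum_eq]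
  exact tsum_congr fun b => hk.equiv h x a b

omit [Countable H] [Countable S] [Countable T] in
lemma IsKernel.symm {k : Lab H → H × S → H × T → ℝ≥0∞} (hk : IsKernel k) :
    IsKernel fun x b a => k x a b :=
  ⟨fun b a => hk.meas a b, fun h x b a => hk.equiv h x a b⟩

/-- The mass transport principle. -/
theorem mass_transport {k : Lab H → H × S → H × T → ℝ≥0∞} (hk : IsKernel k) :
    dens (fun x a => ∑' b, k x a b) = dens (fun x b => ∑' a, k x a b) := by
  have key : ∀ s t (g : H), ∫⁻ x, k x (1, s) (g, t) ∂law H =
      ∫⁻ x, k x (g⁻¹, s) (1, t) ∂law H := by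
    intro s t g
    rw [← lintegral_sh g⁻¹ (hk.meas (g⁻¹, s) (1, t))]
    refine lintegral_congr fun x => ?_
    have := hk.equiv g⁻¹ x (1, s) (g, t)
    simp only [tr, mul_one, inv_mul_cancel] at this
    exact this.symm
  calc dens (fun x a => ∑' b, k x a b)
      = ∑' (s : S) (b : H × T), ∫⁻ x, k x (1, s) b ∂law H := by
        rw [dens, lintegral_tsum fun s => (Measurable.tsum fun b => hk.meas _ b).aemeasurable]
        exact tsum_congr fun s => lintegral_tsum fun b => (hk.meas _ b).aemeasurable
    _ = ∑' (s : S) (t : T) (g : H), ∫⁻ x, k x (g⁻¹, s) (1, t) ∂law H := by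
        refine tsum_congr fun s => ?_
        rw [ENNReal.tsum_prod', ENNReal.tsum_comm]
        exact tsum_congr fun t => tsum_congr fun g => key s t g
    _ = ∑' (t : T) (a : H × S), ∫⁻ x, k x a (1, t) ∂law H := by
        rw [ENNReal.tsum_comm]
        refine tsum_congr fun t => ?_
        rw [ENNReal.tsum_prod']
        rw [← (Equiv.inv H).tsum_eq (fun g => ∑' s, ∫⁻ x, k x (g, s) (1, t) ∂law H),
          ENNReal.tsum_comm]
        simp
    _ = dens (fun x b => ∑' a, k x a b) := by
        rw [dens, lintegral_tsum fun t => (Measurable.tsum fun a => hk.meas a _).aemeasurable]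
        exact tsum_congr fun t => (lintegral_tsum fun a => (hk.meas a _).aemeasurable).symm

omit [Countable H] [Countable S] in
lemma dens_mono {f f' : Lab H → H × S → ℝ≥0∞} (h : ∀ x a, f x a ≤ f' x a) : dens f ≤ dens f' :=
  lintegral_mono fun x => ENNReal.tsum_le_tsum fun _ => h x _

/-- Comparison through a transport that loses at most and supplies at most the given weights. -/
lemma dens_le_of_kernel {f : Lab H → H × S → ℝ≥0∞} {f' : Lab H → H × T → ℝ≥0∞}
    {k : Lab H → H × S → H × T → ℝ≥0∞} (hk : IsKernel k)
    (hout : ∀ x a, f x a ≤ ∑' b, k x a b) (hin : ∀ x b, ∑' a, k x a b ≤ f' x b) :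
    dens f ≤ dens f' :=
  (dens_mono hout).trans ((mass_transport hk).trans_le (dens_mono hin))

/-- A finite density forces finite sums at almost every point. -/
lemma ae_forall_of_dens {f : Lab H → H × S → ℝ≥0∞} (hf : IsWeight f) (hfin : dens f ≠ ∞) :
    ∀ᵐ x ∂law H, ∀ g : H, ∑' s, f x (g, s) < ∞ := by
  have h1 : ∀ᵐ x ∂law H, ∑' s, f x (1, s) < ∞ :=
    ae_lt_top (Measurable.tsum fun s => hf.meas _) hfin
  rw [ae_all_iff]
  intro g
  have h2 : ∀ᵐ x ∂law H, ∑' s, f (sh g⁻¹ x) (1, s) < ∞ := by
    rw [← map_sh g⁻¹] at h1
    exact ae_of_ae_map (measurable_sh g⁻¹).aemeasurable h1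
  filter_upwards [h2] with x hx
  refine lt_of_eq_of_lt (tsum_congr fun s => ?_) hx
  have := hf.equiv g⁻¹ x (g, s)
  simp only [tr, inv_mul_cancel] at this
  exact this.symm

omit [Group H] [Countable S] [Countable T] in
/-- Almost surely the labels of distinct elements differ. -/
lemma ae_injective : ∀ᵐ x ∂law H, Injective x := by
  classical
  have : ∀ g g' : H, g ≠ g' → ∀ᵐ x ∂law H, x g ≠ x g' := by
    intro g g' hne
    have hm : MeasurableSet {x : Lab H | x g = x g'} :=
      measurableSet_eq_fun (measurable_pi_apply g) (measurable_pi_apply g')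
    rw [ae_iff]
    simp only [not_not]
    have hp : (law H).map (fun x => (x g, x g')) = (volume : Measure I).prod volume := by
      refine (Measure.prod_eq fun A B hA hB => ?_).symm
      rw [Measure.map_apply ((measurable_pi_apply g).prodMk (measurable_pi_apply g')) (hA.prod hB)]
      have e : (fun x : Lab H => (x g, x g')) ⁻¹' A ×ˢ B =
          Set.pi (({g, g'} : Finset H) : Set H) (fun i => if i = g then A else B) := by
        ext x; simp [hne.symm]
      rw [e, Measure.infinitePi_pi _ fun i _ => by split <;> assumption,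
        Finset.prod_pair hne]
      simp [hne.symm]
    have e : {x : Lab H | x g = x g'} = (fun x => (x g, x g')) ⁻¹' {q : I × I | q.1 = q.2} := rfl
    rw [e, ← Measure.map_apply ((measurable_pi_apply g).prodMk (measurable_pi_apply g'))
      (measurableSet_eq_fun measurable_fst measurable_snd), hp,
      Measure.prod_apply (measurableSet_eq_fun measurable_fst measurable_snd)]
    simp
  have h : ∀ᵐ x ∂law H, ∀ g g' : H, g ≠ g' → x g ≠ x g' := by
    rw [ae_all_iff]; intro g
    rw [ae_all_iff]; intro g'
    by_cases hne : g = g'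
    · exact ae_of_all _ fun _ h => absurd hne h
    · filter_upwards [this g g' hne] with x hx _ using hx
  filter_upwards [h] with x hx g g' he
  by_contra hne
  exact hx g g' hne he

end

end Vale.Agent.P189
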