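import Vale.Agent.P189.Cost
import Vale.Agent.P189.Group
import Vale.Agent.P189.Process

/-!
The Bernoulli action of the group on `[0,1]^G`, `(g • x) h = x (g⁻¹ h)`: measure preserving and
essentially free.
-/

namespace Vale.Agent.P189

open MeasureTheory ProbabilityTheory
open scoped unitInterval ENNReal

/-- The Bernoulli space. -/
abbrev X (p : ℕ) : Type := Lab (G p)

/-- The law of independent uniform labels on the group. -/
noncomputable abbrev μX (p : ℕ) : Measure (X p) := law (G p)

/-- The shift. -/
instance instMulActionX (p : ℕ) : MulAction (G p) (X p) where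
  smul := sh
  one_smul := sh_one
  mul_smul := sh_mul

lemma smul_X_apply {p : ℕ} (g : G p) (x : X p) (h : G p) : (g • x) h = x (g⁻¹ * h) := rfl

lemma isPMP_X (p : ℕ) : IsPMP (G p) (μX p) := fun g => ⟨measurable_sh g, map_sh g⟩

lemma measure_eval_eq {p : ℕ} {i j : G p} (h : i ≠ j) : μX p {x | x i = x j} = 0 := by
  have hind : IndepFun (fun x : X p => x i) (fun x => x j) (μX p) :=
    (iIndepFun_infinitePi (P := fun _ : G p => (volume : Measure I)) (X := fun _ z => z)
      fun _ => measurable_id).indepFun h
  have hmap := (indepFun_iff_map_prod_eq_prod_map_map (measurable_pi_apply i).aemeasurable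
    (measurable_pi_apply j).aemeasurable).1 hind
  rw [Measure.infinitePi_map_eval, Measure.infinitePi_map_eval] at hmap
  have hd : MeasurableSet (Set.diagonal I) := measurableSet_diagonal
  have hpre : {x : X p | x i = x j} = (fun x => (x i, x j)) ⁻¹' Set.diagonal I := rfl
  rw [hpre, ← Measure.map_apply ((measurable_pi_apply i).prodMk (measurable_pi_apply j)) hd, hmap,
    Measure.prod_apply hd]
  refine lintegral_eq_zero_of_ae_eq_zero (Filter.Eventually.of_forall fun x => ?_)
  simp [show Prod.mk x ⁻¹' Set.diagonal I = {x} from Set.ext fun y => by simp [eq_comm]]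

lemma measure_fixed {p : ℕ} {g : G p} (hg : g ≠ 1) : μX p {x | g • x = x} = 0 := by
  refine measure_mono_null (fun x hx => ?_) (measure_eval_eq (i := g⁻¹) (j := 1) (by simpa using hg))
  have := congrFun hx 1
  rw [smul_X_apply, mul_one] at this
  exact this

lemma isEssFree_X (p : ℕ) : IsEssFree (G p) (μX p) := fun _ hg => measure_fixed hg

end Vale.Agent.P189
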