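import Vale.Agent.P189.State

/-!
The cells of the Cayley complex: the cell `(g, m)` has `p + 1` slots, the slot `j < p` crossing
the edge `(g * q m j, j)` forwards and the slot `p` crossing the edge `(g, m)` backwards.
-/

namespace Vale.Agent.P189

variable {p : ℕ} {S0 : Type}

/-- The edge in a slot of a cell. -/
def slotImg (C : G p × Fin p) (k : Fin (p + 1)) : G p × Fin p :=
  if h : (k : ℕ) < p then (C.1 * q C.2 ⟨k, h⟩, ⟨k, h⟩) else C

/-- Whether a slot is crossed forwards. -/
def orient (k : Fin (p + 1)) : Bool := decide ((k : ℕ) < p)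

/-- The end at which a boundary walk leaves the edge in a slot. -/
def exitEnd {H S : Type} (k : Fin (p + 1)) (e : H × S) : End H S := en e (orient k)

/-- The end at which a boundary walk enters the edge in a slot. -/
def enterEnd {H S : Type} (k : Fin (p + 1)) (e : H × S) : End H S := en e (!orient k)

/-- The cell having a given edge in a given slot. -/
def cellBase (g : G p) (hd : Fin p × Fin (p + 1)) : G p × Fin p :=
  if h : (hd.2 : ℕ) < p then (g * (q hd.1 ⟨hd.2, h⟩)⁻¹, hd.1) else (g, hd.1)

lemma slotImg_cellBase (g : G p) (hd : Fin p × Fin (p + 1)) :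
    slotImg (cellBase g hd) hd.2 =
      (g, if h : (hd.2 : ℕ) < p then ⟨hd.2, h⟩ else hd.1) := by
  by_cases h : (hd.2 : ℕ) < p <;> simp [slotImg, cellBase, h]

lemma cellBase_slotImg (C : G p × Fin p) (k : Fin (p + 1)) :
    cellBase (slotImg C k).1 (C.2, k) = C := by
  by_cases h : (k : ℕ) < p <;> simp [slotImg, cellBase, h]

lemma cellBase_tr (h g : G p) (hd : Fin p × Fin (p + 1)) :
    cellBase (h * g) hd = tr h (cellBase g hd) := by
  by_cases hk : (hd.2 : ℕ) < p <;> simp [cellBase, tr, hk, mul_assoc]

lemma slotImg_tr (h : G p) (C : G p × Fin p) (k : Fin (p + 1)) :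
    slotImg (tr h C) k = tr h (slotImg C k) := by
  by_cases hk : (k : ℕ) < p <;> simp [slotImg, tr, hk, mul_assoc]

/-- The product of the first `n` slots of the cell of type `m` at the origin. -/
def pre (m : Fin p) (n : ℕ) : N p :=
  (((List.finRange p).take n).map fun i => lamp (i, u m i)).prod

lemma pre_succ (m : Fin p) {n : ℕ} (h : n < p) :
    pre m (n + 1) = pre m n * lamp (⟨n, h⟩, u m ⟨n, h⟩) := by
  have : ((List.finRange p).take (n + 1)) = (List.finRange p).take n ++ [⟨n, h⟩] := by
    rw [List.take_add_one, List.getElem?_eq_getElem (by simpa using h)]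
    simp
  simp [pre, this]

lemma pre_self (m : Fin p) : pre m p = lamp (m, 1) := by
  have h : PresentedGroup.mk (Set.range (relator (p := p))) (relator (m, 1)) = 1 :=
    PresentedGroup.one_of_mem ⟨_, rfl⟩
  rw [relator, map_mul, map_inv, inv_mul_eq_one, map_list_prod, List.map_map] at h
  have e : ((List.finRange p).take p) = List.finRange p :=
    List.take_of_length_le (by simp)
  rw [pre, e]
  refine Eq.trans ?_ h.symm
  simp only [rhs, List.map_map, one_mul]
  rfl

lemma q_left (m j : Fin p) : (q m j).left = pre m j := rfl

lemma q_right (m j : Fin p) : (q m j).right = u m j := rfl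

lemma ipos_slot_false (C : G p × Fin p) (j : Fin p) :
    ipos (C.1 * q C.2 j, j) false = C.1.left * translate p C.1.right (pre C.2 j) := rfl

lemma ipos_slot_true (C : G p × Fin p) (j : Fin p) :
    ipos (C.1 * q C.2 j, j) true = C.1.left * translate p C.1.right (pre C.2 (j + 1)) := by
  rw [ipos_true, SemidirectProduct.mul_left, SemidirectProduct.mul_right, q_left, q_right,
    mul_assoc, pre_succ C.2 j.2, map_mul]
  congr 2

/-- Consecutive slots of a cell meet. -/
lemma ipos_slot_succ (C : G p × Fin p) (k : Fin (p + 1)) :
    ipos (slotImg C k) (orient k) = ipos (slotImg C (k + 1)) (!orient (k + 1)) := by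
  have h0 : 0 < p := C.2.pos
  by_cases hk : (k : ℕ) < p
  · have e1 : ipos (slotImg C k) (orient k) =
        C.1.left * translate p C.1.right (pre C.2 (k + 1)) := by
      rw [slotImg, dif_pos hk, show orient k = true by simp [orient, hk]]
      exact ipos_slot_true C ⟨k, hk⟩
    have hv : ((k + 1 : Fin (p + 1)) : ℕ) = k + 1 := by
      rw [Fin.val_add_one_of_lt' (by omega)]
    rw [e1]
    by_cases hk1 : (k : ℕ) + 1 < p
    · rw [slotImg, dif_pos (hv ▸ hk1), show orient (k + 1) = true by simp [orient, hv, hk1]]
      rw [show ((!true) = false) from rfl, ipos_slot_false]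
      simp [hv]
    · rw [slotImg, dif_neg (hv ▸ hk1), show orient (k + 1) = false by simp [orient, hv, hk1],
        show ((!false) = true) from rfl, ipos_true, show (k : ℕ) + 1 = p by omega, pre_self]
      congr 1
      simp [translate, translateHom_lamp]
  · have hk' : k = Fin.last p := Fin.ext (by simp [Fin.last]; omega)
    subst hk'
    rw [slotImg, dif_neg hk, show orient (Fin.last p) = false by simp [orient]]
    have hz : (Fin.last p + 1 : Fin (p + 1)) = 0 := Fin.last_add_one p
    rw [hz, slotImg, dif_pos (by simpa using h0),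
      show orient (0 : Fin (p + 1)) = true by simp [orient, h0],
      show ((!true) = false) from rfl, ipos_slot_false]
    simp [ipos_false, pre]

lemma u_ne_one (m j : Fin p) : u m j ≠ 1 := by
  intro h
  rw [u, mul_inv_eq_one, mul_eq_left] at h
  exact FreeGroup.of_ne_one _ h

/-- Different slots of a cell carry different edges. -/
lemma slotImg_injective (C : G p × Fin p) : Function.Injective (slotImg C) := by
  intro k l h
  by_cases hk : (k : ℕ) < p <;> by_cases hl : (l : ℕ) < p <;>
    simp only [slotImg, hk, hl, dif_pos, dif_neg, not_false_eq_true] at h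
  · exact Fin.ext (congrArg (fun y : G p × Fin p => (y.2 : ℕ)) h)
  · exfalso
    have h1 := congrArg (fun y : G p × Fin p => y.1.right) h
    simp [q_right] at h1
    exact u_ne_one _ _ h1
  · exfalso
    have h1 := congrArg (fun y : G p × Fin p => y.1.right) h
    simp [q_right] at h1
    exact u_ne_one _ _ h1
  · exact Fin.ext (by omega)

end Vale.Agent.P189
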