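import Vale.Agent.P189.StageProps

/-!
The cells of a stage: the lifted cells closed by the fresh edges, one for each class of lifts.
A cell is indexed by its base and the label of the least edge in its slot `0`.
-/

namespace Vale.Agent.P189

open MeasureTheory Function
open scoped ENNReal

variable {p : ℕ} {S0 : Type} [Countable S0]

/-- The labels form the lift named `a`. -/
def CellLift (Z : Gph (G p) (Fin p × Lbl p S0)) (a : CEdge p S0)
    (lab : Fin (p + 1) → Lbl p S0) : Prop :=
  IsClosed Z (img a) lab ∧ lab 0 = a.2.2 ∧ IsRep Z (liftE (img a) lab 0)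

/-- The cell named `a` has the edge class of `r` in its slot `k`. -/
def InSlot (Z : Gph (G p) (Fin p × Lbl p S0)) (a : CEdge p S0) (k : Fin (p + 1))
    (r : CEdge p S0) : Prop :=
  ∃ lab, CellLift Z a lab ∧ IsRep Z r ∧ Same Z (liftE (img a) lab k) r

/-- The fresh edge `e` closed the cell named `a`. -/
def OpOf (Z : Gph (G p) (Fin p × Lbl p S0)) (a e : CEdge p S0) : Prop :=
  ∃ hd l lab, e ∈ Z.E ∧ e.2.2.1 = hd :: l ∧ opCell e hd = img a ∧ CellLift Z a lab ∧
    Same Z (liftE (img a) lab hd.2) e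

/-- The cells. -/
def CellAt (Z : Gph (G p) (Fin p × Lbl p S0)) (a : CEdge p S0) : Prop :=
  ∃ e, OpOf Z a e

/-- The density of the cells. -/
noncomputable def cellDens (Z : Lab (G p) → Gph (G p) (Fin p × Lbl p S0)) : ℝ≥0∞ :=
  dens fun x a => ind (CellAt (Z x) a)

/-- The edges of the Cayley graph under an edge joining two marked nodes. -/
def MarkedEdge (Z : Gph (G p) (Fin p × Lbl p S0)) (y : G p × Fin p) : Prop :=
  ∃ e ∈ Z.E, img e = y ∧ Z.Mk (en e false) ∧ Z.Mk (en e true)

/-- The stages under given thresholds, as a random graph. -/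
noncomputable def clo (Ψ : Lab (G p) → Gph (G p) (Fin p × S0)) (t : ℕ → ℝ) (n : ℕ) :
    Lab (G p) → Gph (G p) (Fin p × Lbl p S0) :=
  fun x => (stage (Ψ x) x t n).Z

section

variable {Z : Gph (G p) (Fin p × Lbl p S0)} {Ψ : Gph (G p) (Fin p × S0)} {x : Lab (G p)}
  {t : ℕ → ℝ} {n : ℕ}

lemma InSlot.rep {a : CEdge p S0} {k : Fin (p + 1)} {r : CEdge p S0} (h : InSlot Z a k r) :
    IsRep Z r := h.choose_spec.2.1

lemma InSlot.img_eq {a : CEdge p S0} {k : Fin (p + 1)} {r : CEdge p S0} (h : InSlot Z a k r) :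
    img r = slotImg (img a) k := by
  obtain ⟨lab, -, -, hs⟩ := h
  rw [← hs.1, img_liftE]

lemma cellLift_unique {a : CEdge p S0} {lab lab' : Fin (p + 1) → Lbl p S0}
    (h : CellLift (stage Ψ x t n).Z a lab) (h' : CellLift (stage Ψ x t n).Z a lab')
    (k : Fin (p + 1)) :
    Same (stage Ψ x t n).Z (liftE (img a) lab k) (liftE (img a) lab' k) :=
  closed_unique h.1 h'.1 (k := 0) (by
    simp only [liftE, h.2.1, h'.2.1]; exact same_refl n _) k

lemma inSlot_unique {a : CEdge p S0} {k : Fin (p + 1)} {r r' : CEdge p S0}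
    (h : InSlot (stage Ψ x t n).Z a k r) (h' : InSlot (stage Ψ x t n).Z a k r') : r = r' := by
  obtain ⟨lab, hl, hr, hs⟩ := h
  obtain ⟨lab', hl', hr', hs'⟩ := h'
  exact rep_unique hr hr'
    (same_trans (same_symm hs) (same_trans (cellLift_unique hl hl' k) hs'))

lemma exists_inSlot {a : CEdge p S0} {lab : Fin (p + 1) → Lbl p S0}
    (h : CellLift (stage Ψ x t n).Z a lab) (k : Fin (p + 1)) :
    ∃ r, InSlot (stage Ψ x t n).Z a k r :=
  (exists_rep (h.1 k).1).imp fun _ hr => ⟨lab, h, hr.1, hr.2⟩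

/-- A cell is determined by its base and the class in one slot. -/
lemma cell_unique {a a' : CEdge p S0} (hC : img a = img a') {k : Fin (p + 1)} {r : CEdge p S0}
    (h : InSlot (stage Ψ x t n).Z a k r) (h' : InSlot (stage Ψ x t n).Z a' k r) : a = a' := by
  obtain ⟨lab, hl, -, hs⟩ := h
  obtain ⟨lab', hl', -, hs'⟩ := h'
  have hl2 : IsClosed (stage Ψ x t n).Z (img a) lab' := hC ▸ hl'.1
  have h0 := closed_unique hl.1 hl2 (k := k) (same_trans hs (same_symm (hC ▸ hs'))) 0
  have := rep_unique hl.2.2 (hC ▸ hl'.2.2) h0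
  have h2 : lab 0 = lab' 0 := congrArg (fun e : CEdge p S0 => e.2.2) this
  rw [hl.2.1, hl'.2.1] at h2
  simp only [img, Prod.mk.injEq] at hC
  exact Prod.ext hC.1 (Prod.ext hC.2 h2)

lemma OpOf.unique {a a' e : CEdge p S0} (h : OpOf (stage Ψ x t n).Z a e)
    (h' : OpOf (stage Ψ x t n).Z a' e) : a = a' := by
  obtain ⟨hd, l, lab, -, hl, hC, hc, hs⟩ := h
  obtain ⟨hd', l', lab', -, hl', hC', hc', hs'⟩ := h'
  rw [hl] at hl'
  simp only [List.cons.injEq] at hl'
  obtain ⟨rfl, rfl⟩ := hl'
  obtain ⟨r, hr, hsr⟩ := exists_rep (hc.1 hd.2).1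
  exact cell_unique (hC.symm.trans hC') ⟨lab, hc, hr, hsr⟩
    ⟨lab', hc', hr, same_trans hs' (same_trans (same_symm hs) hsr)⟩

/-- Every fresh edge closed some cell. -/
lemma exists_opOf {e : CEdge p S0} {hd : Fin p × Fin (p + 1)}
    {l : List (Fin p × Fin (p + 1))} (he : e ∈ (stage Ψ x t n).Z.E) (hl : e.2.2.1 = hd :: l) :
    ∃ a, OpOf (stage Ψ x t n).Z a e := by
  obtain ⟨m, k₀⟩ := hd
  obtain ⟨lab, hc, hle⟩ := exists_opCell he hl
  set C := opCell e (m, k₀)
  obtain ⟨r, hr, hrs⟩ := exists_rep (hc 0).1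
  let lab' := Function.update lab 0 r.2.2
  have hr0 : liftE C lab' 0 = r := by
    have := hrs.1
    rw [img_liftE] at this
    simp only [liftE, lab', Function.update_self, this]
    rfl
  have hsame : ∀ k, Same (stage Ψ x t n).Z (liftE C lab k) (liftE C lab' k) := by
    intro k
    rcases eq_or_ne k 0 with rfl | hk
    · rw [hr0]; exact hrs
    · simp only [liftE, lab', Function.update_of_ne hk]; exact same_refl n _
  have hmem : ∀ k, liftE C lab' k ∈ (stage Ψ x t n).Z.E := by
    intro k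
    rcases eq_or_ne k 0 with rfl | hk
    · rw [hr0]; exact hr.1
    · simp only [liftE, lab', Function.update_of_ne hk]; exact (hc k).1
  have hcl : IsClosed (stage Ψ x t n).Z C lab' := fun k => ⟨hmem k,
    (stage_eqv n).trans ((stage_eqv n).symm ((hsame k).ends (hc k).1 (hmem k) (orient k)))
      ((stage_eqv n).trans (hc k).2
        ((hsame (k + 1)).ends (hc (k + 1)).1 (hmem (k + 1)) _))⟩
  refine ⟨(C.1, (C.2, r.2.2)), (m, k₀), l, lab', he, hl, rfl, ⟨hcl, ?_, ?_⟩, ?_⟩
  · simp [lab']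
  · show IsRep _ (liftE C lab' 0)
    rw [hr0]; exact hr
  · show Same _ (liftE C lab' k₀) e
    have := same_symm (hsame k₀)
    rwa [hle] at this

lemma exists_cell_slot {a : CEdge p S0} (h : CellAt (stage Ψ x t n).Z a) (k : Fin (p + 1)) :
    ∃ r, InSlot (stage Ψ x t n).Z a k r := by
  obtain ⟨e, hd, l, lab, -, -, -, hc, -⟩ := h
  exact exists_inSlot hc k

lemma inSlot_slot {a : CEdge p S0} {k k' : Fin (p + 1)} {r : CEdge p S0}
    (h : InSlot Z a k r) (h' : InSlot Z a k' r) : k = k' :=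
  slotImg_injective (img a) (h.img_eq.symm.trans h'.img_eq)

end

section

variable {Ψ : Lab (G p) → Gph (G p) (Fin p × S0)} {Z : Lab (G p) → Gph (G p) (Fin p × Lbl p S0)}

omit [Countable S0] in
lemma measurable_same (hZ : IsRG Z) (e e' : CEdge p S0) :
    Measurable fun x => Same (Z x) e e' := measurable_const.and (hZ.measR _ _)

lemma measurable_isRep (hZ : IsRG Z) (e : CEdge p S0) : Measurable fun x => IsRep (Z x) e :=
  (hZ.measE e).and <| Measurable.forall fun e' =>
    (hZ.measE e').imp ((measurable_same hZ e e').imp measurable_const)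

lemma measurable_cellLift (hZ : IsRG Z) (a : CEdge p S0) (lab : Fin (p + 1) → Lbl p S0) :
    Measurable fun x => CellLift (Z x) a lab :=
  (Measurable.forall fun _ => (hZ.measE _).and (hZ.measR _ _)).and <|
    measurable_const.and (measurable_isRep hZ _)

lemma measurable_inSlot (hZ : IsRG Z) (a : CEdge p S0) (k : Fin (p + 1)) (r : CEdge p S0) :
    Measurable fun x => InSlot (Z x) a k r :=
  Measurable.exists fun _ => (measurable_cellLift hZ a _).and <|
    (measurable_isRep hZ r).and (measurable_same hZ _ r)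

lemma measurable_opOf (hZ : IsRG Z) (a e : CEdge p S0) :
    Measurable fun x => OpOf (Z x) a e :=
  Measurable.exists fun _ => Measurable.exists fun _ => Measurable.exists fun _ =>
    (hZ.measE e).and <| measurable_const.and <| measurable_const.and <|
      (measurable_cellLift hZ a _).and (measurable_same hZ _ e)

lemma measurable_cellAt (hZ : IsRG Z) (a : CEdge p S0) : Measurable fun x => CellAt (Z x) a :=
  Measurable.exists fun e => measurable_opOf hZ a e

omit [Countable S0] in
lemma same_tr (hZ : IsRG Z) (h : G p) (x : Lab (G p)) (e e' : CEdge p S0) :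
    Same (Z (sh h x)) (tr h e) (tr h e') ↔ Same (Z x) e e' :=
  and_congr (by rw [img_tr, img_tr]; exact (tr_injective h).eq_iff) (by rw [← tr_en, ← tr_en]; exact hZ.equivR h x _ _)

lemma isRep_tr (hZ : IsRG Z) (h : G p) (x : Lab (G p)) (e : CEdge p S0) :
    IsRep (Z (sh h x)) (tr h e) ↔ IsRep (Z x) e :=
  and_congr (hZ.equivE h x e) <| (trEquiv h).surjective.forall.trans <| forall_congr' fun e' => by
    rw [trEquiv_apply, hZ.equivE h x e', same_tr hZ h x e e']
    rfl

lemma cellLift_tr (hZ : IsRG Z) (h : G p) (x : Lab (G p)) (a : CEdge p S0)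
    (lab : Fin (p + 1) → Lbl p S0) :
    CellLift (Z (sh h x)) (tr h a) lab ↔ CellLift (Z x) a lab := by
  unfold CellLift IsClosed Cons exitEnd enterEnd
  rw [img_tr]
  simp only [liftE_tr, ← tr_en, hZ.equivR h x, hZ.equivE h x, isRep_tr hZ h x]
  rfl

lemma inSlot_tr (hZ : IsRG Z) (h : G p) (x : Lab (G p)) (a : CEdge p S0) (k : Fin (p + 1))
    (r : CEdge p S0) : InSlot (Z (sh h x)) (tr h a) k (tr h r) ↔ InSlot (Z x) a k r := by
  refine exists_congr fun lab => and_congr (cellLift_tr hZ h x a lab)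
    (and_congr (isRep_tr hZ h x r) ?_)
  rw [img_tr, liftE_tr]
  exact same_tr hZ h x _ r

lemma opOf_tr (hZ : IsRG Z) (h : G p) (x : Lab (G p)) (a e : CEdge p S0) :
    OpOf (Z (sh h x)) (tr h a) (tr h e) ↔ OpOf (Z x) a e := by
  refine exists_congr fun hd => exists_congr fun l => exists_congr fun lab =>
    and_congr (hZ.equivE h x e) (and_congr Iff.rfl (and_congr ?_
      (and_congr (cellLift_tr hZ h x a lab) ?_)))
  · rw [img_tr, opCell, opCell, show (tr h e).1 = h * e.1 from rfl, cellBase_tr]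
    exact (tr_injective h).eq_iff
  · rw [img_tr, liftE_tr]; exact same_tr hZ h x _ e

lemma cellAt_tr (hZ : IsRG Z) (h : G p) (x : Lab (G p)) (a : CEdge p S0) :
    CellAt (Z (sh h x)) (tr h a) ↔ CellAt (Z x) a :=
  (exists_tr h _).symm.trans (exists_congr fun e => opOf_tr hZ h x a e)

lemma cellAt_weight (hZ : IsRG Z) : IsWeight fun x a => ind (CellAt (Z x) a) :=
  ⟨fun a => Measurable.ind (measurable_cellAt hZ a),
    fun h x a => ind_congr (cellAt_tr hZ h x a)⟩

lemma clo_rg (hΨ : IsRG Ψ) (t : ℕ → ℝ) (n : ℕ) : IsRG (clo Ψ t n) := stage_rg hΨ t n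

end

end Vale.Agent.P189
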