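import Vale.Agent.P189.Cell

/-!
Cell closure in stages.

At each stage every lifted cell lacking one slot receives a fresh edge in that slot, for the
selected cells, and the result is folded. A fresh edge carries the history of the edge in the
following slot, and each of its ends is attached to one end of the previous stage.
-/

namespace Vale.Agent.P189

open MeasureTheory Function

/-- An injective numbering of a countable type. -/
noncomputable def code {α : Type*} [Countable α] (a : α) : ℕ :=
  Classical.choose (exists_injective_nat α) a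

lemma code_injective {α : Type*} [Countable α] : Injective (code (α := α)) :=
  Classical.choose_spec (exists_injective_nat α)

variable {p : ℕ} {S0 : Type}

/-- The histories labelling the edges of the closure. -/
abbrev Lbl (p : ℕ) (S0 : Type) : Type := List (Fin p × Fin (p + 1)) × S0

/-- An edge of the closure. -/
abbrev CEdge (p : ℕ) (S0 : Type) : Type := EdgeId p (Lbl p S0)

/-- An end of an edge of the closure. -/
abbrev CEnd (p : ℕ) (S0 : Type) : Type := End (G p) (Fin p × Lbl p S0)

/-- An old edge seen in the closure. -/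
def emb (e : EdgeId p S0) : CEdge p S0 := (e.1, (e.2.1, ([], e.2.2)))

/-- An old end seen in the closure. -/
def embEnd (a : End (G p) (Fin p × S0)) : CEnd p S0 := en (emb (edge a)) (side a)

/-- The edges of a cell with given labels. -/
def liftE {S : Type} (C : G p × Fin p) (lab : Fin (p + 1) → S) (k : Fin (p + 1)) : EdgeId p S :=
  ((slotImg C k).1, ((slotImg C k).2, lab k))

/-- The lifts in two consecutive slots meet. -/
def Cons {S : Type} (Z : Gph (G p) (Fin p × S)) (C : G p × Fin p) (lab : Fin (p + 1) → S)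
    (k : Fin (p + 1)) : Prop :=
  Z.R (exitEnd k (liftE C lab k)) (enterEnd (k + 1) (liftE C lab (k + 1)))

/-- The labels form a lift of a cell without the slot `k₀`. -/
def IsPath {S : Type} (Z : Gph (G p) (Fin p × S)) (C : G p × Fin p) (k₀ : Fin (p + 1))
    (lab : Fin (p + 1) → S) : Prop :=
  ∀ k, k ≠ k₀ → liftE C lab k ∈ Z.E ∧ (k + 1 ≠ k₀ → Cons Z C lab k)

/-- The labels form a lift of a cell. -/
def IsClosed {S : Type} (Z : Gph (G p) (Fin p × S)) (C : G p × Fin p) (lab : Fin (p + 1) → S) :
    Prop :=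
  ∀ k, liftE C lab k ∈ Z.E ∧ Cons Z C lab k

/-- A lift that admits the fresh edge `e`. -/
def Cand (Z : Gph (G p) (Fin p × Lbl p S0)) (e : CEdge p S0)
    (lab : Fin (p + 1) → Lbl p S0) : Prop :=
  ∃ m k₀ l, e.2.2.1 = (m, k₀) :: l ∧ liftE (cellBase e.1 (m, k₀)) lab k₀ = e ∧
    IsPath Z (cellBase e.1 (m, k₀)) k₀ lab ∧ lab (k₀ + 1) = (l, e.2.2.2)

/-- The least lift that admits the fresh edge `e`. -/
def Chosen [Countable S0] (Z : Gph (G p) (Fin p × Lbl p S0)) (e : CEdge p S0)
    (lab : Fin (p + 1) → Lbl p S0) : Prop :=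
  Cand Z e lab ∧ ∀ lab', Cand Z e lab' → code lab ≤ code lab'

/-- The end to which an end of a fresh edge is attached. -/
def AttachTo [Countable S0] (Z : Gph (G p) (Fin p × Lbl p S0)) (a c : CEnd p S0) : Prop :=
  ∃ lab m k₀ l, (edge a).2.2.1 = (m, k₀) :: l ∧ Chosen Z (edge a) lab ∧
    ((side a = orient k₀ ∧ c = enterEnd (k₀ + 1) (liftE (cellBase a.1 (m, k₀)) lab (k₀ + 1))) ∨
      (side a = !orient k₀ ∧ c = exitEnd (k₀ - 1) (liftE (cellBase a.1 (m, k₀)) lab (k₀ - 1))))

/-- A stage of the closure: the folded graph and the old end below each end. -/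
structure Stg (p : ℕ) (S0 : Type) where
  /-- The graph. -/
  Z : Gph (G p) (Fin p × Lbl p S0)
  /-- The old end below an end. -/
  rt : CEnd p S0 → End (G p) (Fin p × S0) → Prop

/-- The node relation of the old graph, between its present ends. -/
def oldRel (Ψ : Gph (G p) (Fin p × S0)) (a b : CEnd p S0) : Prop :=
  ∃ a' b', a = embEnd a' ∧ b = embEnd b' ∧ Ψ.Pres a' ∧ Ψ.Pres b' ∧ Ψ.R a' b'

/-- The marks induced by the old graph. -/
def inducedMk (Ψ : Gph (G p) (Fin p × S0)) (R : CEnd p S0 → CEnd p S0 → Prop) (a : CEnd p S0) :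
    Prop :=
  ∃ o, Ψ.Pres o ∧ Ψ.Mk o ∧ R (embEnd o) a

/-- The folded graph on given edges with given node relation. -/
def folded (Ψ : Gph (G p) (Fin p × S0)) (E : Set (CEdge p S0))
    (R : CEnd p S0 → CEnd p S0 → Prop) : Gph (G p) (Fin p × Lbl p S0) where
  E := E
  R := FoldRel ⟨E, R, fun _ => False⟩ img
  Mk := inducedMk Ψ (FoldRel ⟨E, R, fun _ => False⟩ img)

/-- The selected fresh edges. -/
def fresh (Z : Gph (G p) (Fin p × Lbl p S0)) (x : Lab (G p)) (t : ℝ) : Set (CEdge p S0) :=
  {e | e ∉ Z.E ∧ (∃ lab, Cand Z e lab) ∧ (x e.1 : ℝ) < t}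

/-- The node relation after attaching the fresh edges. -/
def attRel [Countable S0] (Z : Gph (G p) (Fin p × Lbl p S0)) (x : Lab (G p)) (t : ℝ) :
    CEnd p S0 → CEnd p S0 → Prop :=
  Relation.EqvGen fun a b => Z.R a b ∨ (edge a ∈ fresh Z x t ∧ AttachTo Z a b)

/-- The stages of the closure, the thresholds `t` selecting the fresh edges. -/
def stage [Countable S0] (Ψ : Gph (G p) (Fin p × S0)) (x : Lab (G p)) (t : ℕ → ℝ) :
    ℕ → Stg p S0
  | 0 => ⟨folded Ψ {e | ∃ e' ∈ Ψ.E, emb e' = e} (Relation.EqvGen (oldRel Ψ)),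
      fun a o => Ψ.Pres o ∧ embEnd o = a⟩
  | n + 1 =>
    let s := stage Ψ x t n
    ⟨folded Ψ (s.Z.E ∪ fresh s.Z x (t n)) (attRel s.Z x (t n)),
      fun a o => s.rt a o ∨ (edge a ∈ fresh s.Z x (t n) ∧ ∃ c, AttachTo s.Z a c ∧ s.rt c o)⟩

lemma emb_injective : Injective (emb (p := p) (S0 := S0)) := fun a b h => by
  simpa [emb, Prod.ext_iff] using h

lemma embEnd_injective : Injective (embEnd (p := p) (S0 := S0)) := fun a b h => by
  simpa [embEnd, en, emb, edge, side, Prod.ext_iff, and_assoc] using h

lemma emb_tr (h : G p) (e : EdgeId p S0) : emb (tr h e) = tr h (emb e) := rfl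

lemma embEnd_tr (h : G p) (a : End (G p) (Fin p × S0)) :
    embEnd (tr h a) = tr h (embEnd a) := rfl

@[simp] lemma img_emb (e : EdgeId p S0) : img (emb e) = img e := rfl

@[simp] lemma img_liftE {S : Type} (C : G p × Fin p) (lab : Fin (p + 1) → S) (k : Fin (p + 1)) :
    img (liftE C lab k) = slotImg C k := rfl

lemma liftE_tr {S : Type} (h : G p) (C : G p × Fin p) (lab : Fin (p + 1) → S)
    (k : Fin (p + 1)) : liftE (tr h C) lab k = tr h (liftE C lab k) := by
  simp only [liftE, slotImg_tr]
  rfl

/-- A translation as a permutation of the indices. -/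
def trEquiv {H S : Type} [Group H] (h : H) : H × S ≃ H × S :=
  (Equiv.mulLeft h).prodCongr (Equiv.refl S)

lemma trEquiv_apply {H S : Type} [Group H] (h : H) (a : H × S) : trEquiv h a = tr h a := rfl

lemma exists_tr {H S : Type} [Group H] (h : H) (P : H × S → Prop) :
    (∃ a, P (tr h a)) ↔ ∃ a, P a :=
  (trEquiv h).surjective.exists.symm

lemma tr_injective {H S : Type} [Group H] (h : H) : Injective (tr (S := S) h) :=
  (trEquiv h).injective

section

variable {x : Lab (G p)} {Z Z' : Gph (G p) (Fin p × Lbl p S0)}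

/-- Invariance of the candidates. -/
lemma cand_tr (h : G p) (hE : ∀ e, tr h e ∈ Z'.E ↔ e ∈ Z.E)
    (hR : ∀ a b, Z'.R (tr h a) (tr h b) ↔ Z.R a b) (e : CEdge p S0)
    (lab : Fin (p + 1) → Lbl p S0) : Cand Z' (tr h e) lab ↔ Cand Z e lab := by
  refine exists_congr fun m => exists_congr fun k₀ => exists_congr fun l => ?_
  have hC : cellBase (tr h e).1 (m, k₀) = tr h (cellBase e.1 (m, k₀)) := cellBase_tr h e.1 _
  rw [hC]
  refine and_congr Iff.rfl (and_congr ?_ (and_congr ?_ Iff.rfl))
  · rw [liftE_tr]; exact (tr_injective h).eq_iff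
  · refine forall_congr' fun k => imp_congr Iff.rfl (and_congr ?_ (imp_congr Iff.rfl ?_))
    · rw [liftE_tr]; exact hE _
    · rw [Cons, Cons, exitEnd, exitEnd, enterEnd, enterEnd, liftE_tr, liftE_tr, ← tr_en, ← tr_en]
      exact hR _ _

variable [Countable S0]

lemma chosen_tr (h : G p) (hE : ∀ e, tr h e ∈ Z'.E ↔ e ∈ Z.E)
    (hR : ∀ a b, Z'.R (tr h a) (tr h b) ↔ Z.R a b) (e : CEdge p S0)
    (lab : Fin (p + 1) → Lbl p S0) : Chosen Z' (tr h e) lab ↔ Chosen Z e lab :=
  and_congr (cand_tr h hE hR e lab)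
    (forall_congr' fun lab' => imp_congr (cand_tr h hE hR e lab') Iff.rfl)

lemma attachTo_tr (h : G p) (hE : ∀ e, tr h e ∈ Z'.E ↔ e ∈ Z.E)
    (hR : ∀ a b, Z'.R (tr h a) (tr h b) ↔ Z.R a b) (a c : CEnd p S0) :
    AttachTo Z' (tr h a) (tr h c) ↔ AttachTo Z a c := by
  refine exists_congr fun lab => exists_congr fun m => exists_congr fun k₀ =>
    exists_congr fun l => ?_
  have hC : cellBase (tr h a).1 (m, k₀) = tr h (cellBase a.1 (m, k₀)) := cellBase_tr h a.1 _
  rw [hC]
  refine and_congr Iff.rfl (and_congr (chosen_tr h hE hR (edge a) lab) (or_congr ?_ ?_)) <;>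
    refine and_congr Iff.rfl ?_ <;>
    simp only [enterEnd, exitEnd, liftE_tr, ← tr_en] <;> exact (tr_injective h).eq_iff

omit [Countable S0] in
lemma fresh_tr (h : G p) (hE : ∀ e, tr h e ∈ Z'.E ↔ e ∈ Z.E)
    (hR : ∀ a b, Z'.R (tr h a) (tr h b) ↔ Z.R a b) (t : ℝ) (e : CEdge p S0) :
    tr h e ∈ fresh Z' (sh h x) t ↔ e ∈ fresh Z x t := by
  refine and_congr (not_congr (hE e)) (and_congr
    (exists_congr fun lab => cand_tr h hE hR e lab) ?_)
  simp [sh, tr]

end

section

variable [Countable S0] {Ψ : Lab (G p) → Gph (G p) (Fin p × S0)} {t : ℕ → ℝ}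

omit [Countable S0] in
lemma measurable_cand {Z : Lab (G p) → Gph (G p) (Fin p × Lbl p S0)}
    (hE : ∀ e, Measurable fun x => e ∈ (Z x).E)
    (hR : ∀ a b, Measurable fun x => (Z x).R a b) (e : CEdge p S0)
    (lab : Fin (p + 1) → Lbl p S0) : Measurable fun x => Cand (Z x) e lab :=
  Measurable.exists fun _ => Measurable.exists fun _ => Measurable.exists fun _ =>
    measurable_const.and <| measurable_const.and <| (Measurable.forall fun _ =>
      measurable_const.imp <| (hE _).and <| measurable_const.imp (hR _ _)).and measurable_const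

lemma measurable_attachTo {Z : Lab (G p) → Gph (G p) (Fin p × Lbl p S0)}
    (hE : ∀ e, Measurable fun x => e ∈ (Z x).E)
    (hR : ∀ a b, Measurable fun x => (Z x).R a b) (a c : CEnd p S0) :
    Measurable fun x => AttachTo (Z x) a c :=
  Measurable.exists fun _ => Measurable.exists fun _ => Measurable.exists fun _ =>
    Measurable.exists fun _ => measurable_const.and <| ((measurable_cand hE hR _ _).and
      (Measurable.forall fun _ => (measurable_cand hE hR _ _).imp measurable_const)).and
      measurable_const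

lemma measurable_fresh {Z : Lab (G p) → Gph (G p) (Fin p × Lbl p S0)}
    (hE : ∀ e, Measurable fun x => e ∈ (Z x).E)
    (hR : ∀ a b, Measurable fun x => (Z x).R a b) (s : ℝ) (e : CEdge p S0) :
    Measurable fun x => e ∈ fresh (Z x) x s :=
  (hE e).not.and <| (Measurable.exists fun _ => measurable_cand hE hR _ _).and
    (measurableSet_setOfPred.1 (measurableSet_lt
      (f := fun x : Lab (G p) => (x e.1 : ℝ)) (g := fun _ => s)
      ((measurable_pi_apply e.1).subtype_coe) measurable_const))

/-- A folded random graph. -/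
lemma folded_rg (hΨ : IsRG Ψ) {E : Lab (G p) → Set (CEdge p S0)}
    {R : Lab (G p) → CEnd p S0 → CEnd p S0 → Prop}
    (hEm : ∀ e, Measurable fun x => e ∈ E x)
    (hEe : ∀ h x e, tr h e ∈ E (sh h x) ↔ e ∈ E x)
    (hRm : ∀ a b, Measurable fun x => R x a b)
    (hRe : ∀ h x a b, R (sh h x) (tr h a) (tr h b) ↔ R x a b)
    (hReq : ∀ x, Equivalence (R x)) :
    IsRG fun x => folded (Ψ x) (E x) (R x) := by
  have hb : IsRG fun x => (⟨E x, R x, fun _ => False⟩ : Gph (G p) (Fin p × Lbl p S0)) :=
    ⟨hEm, hRm, fun _ => measurable_const, hEe, hRe, fun _ _ _ => Iff.rfl, hReq,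
      fun _ _ _ _ h => h⟩
  have hm := measurable_foldRel (φ := fun _ => img) hb fun _ _ => measurable_const
  have he := foldRel_equiv (φ := fun _ => img) hb fun _ _ _ => rfl
  have hq := fun x => foldRel_equivalence (φ := img) (hReq x) (Γ :=
    (⟨E x, R x, fun _ => False⟩ : Gph (G p) (Fin p × Lbl p S0)))
  exact
    { measE := hEm
      measR := hm
      measMk := fun a => Measurable.exists fun o =>
        (hΨ.measPres o).and <| (hΨ.measMk o).and (hm _ a)
      equivE := hEe
      equivR := he
      equivMk := fun h x a => by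
        show (∃ o, _) ↔ ∃ o, _
        rw [← exists_tr h]
        exact exists_congr fun o => and_congr (hΨ.equivPres h x o)
          (and_congr (hΨ.equivMk h x o) (by rw [embEnd_tr]; exact he h x _ a))
      eqv := hq
      mk_congr := fun x a b hab ⟨o, h1, h2, h3⟩ => ⟨o, h1, h2, (hq x).trans h3 hab⟩ }

theorem stage_rg (hΨ : IsRG Ψ) (t : ℕ → ℝ) :
    ∀ n, IsRG fun x => (stage (Ψ x) x t n).Z
  | 0 => by
    refine folded_rg hΨ (fun e => Measurable.exists fun e' => (hΨ.measE e').and measurable_const)
      (fun h x e => ?_) (fun a b => measurable_eqvGen (fun c d => Measurable.exists fun c' =>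
        Measurable.exists fun d' => measurable_const.and <| measurable_const.and <|
          (hΨ.measPres c').and <| (hΨ.measPres d').and (hΨ.measR c' d')) a b)
      (fun h x a b => eqvGen_equiv (trEquiv h) (fun c d => ?_) a b)
      fun _ => Relation.EqvGen.is_equivalence _
    · show (∃ e', _) ↔ ∃ e', _
      rw [← exists_tr h]
      exact exists_congr fun e' => and_congr (hΨ.equivE h x e')
        (by rw [emb_tr]; exact (tr_injective h).eq_iff)
    · show (∃ c' d', _) ↔ ∃ c' d', _
      rw [← exists_tr h]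
      refine exists_congr fun c' => ?_
      rw [← exists_tr h]
      exact exists_congr fun d' => by
        rw [embEnd_tr, embEnd_tr, trEquiv_apply, trEquiv_apply, (tr_injective h).eq_iff,
          (tr_injective h).eq_iff, hΨ.equivPres h x c', hΨ.equivPres h x d', hΨ.equivR h x c' d']
  | n + 1 => by
    have ih := stage_rg hΨ t n
    exact folded_rg hΨ (fun e => (ih.measE e).or (measurable_fresh ih.measE ih.measR _ e))
      (fun h x e => or_congr (ih.equivE h x e) (fresh_tr h (ih.equivE h x) (ih.equivR h x) _ e))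
      (fun a b => measurable_eqvGen (fun c d => (ih.measR c d).or <|
        (measurable_fresh ih.measE ih.measR _ (edge c)).and
          (measurable_attachTo ih.measE ih.measR c d)) a b)
      (fun h x a b => eqvGen_equiv (trEquiv h) (fun c d => or_congr (ih.equivR h x c d)
        (and_congr (fresh_tr h (ih.equivE h x) (ih.equivR h x) _ (edge c))
          (attachTo_tr h (ih.equivE h x) (ih.equivR h x) c d))) a b)
      fun _ => Relation.EqvGen.is_equivalence _

theorem measurable_rt (hΨ : IsRG Ψ) (t : ℕ → ℝ) :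
    ∀ n a o, Measurable fun x => (stage (Ψ x) x t n).rt a o
  | 0, _, o => (hΨ.measPres o).and measurable_const
  | n + 1, a, o => (measurable_rt hΨ t n a o).or <|
      (measurable_fresh (stage_rg hΨ t n).measE (stage_rg hΨ t n).measR _ (edge a)).and <|
        Measurable.exists fun c =>
          (measurable_attachTo (stage_rg hΨ t n).measE (stage_rg hΨ t n).measR a c).and
            (measurable_rt hΨ t n c o)

theorem rt_tr (hΨ : IsRG Ψ) (t : ℕ → ℝ) (h : G p) (x : Lab (G p)) :
    ∀ n a o, (stage (Ψ (sh h x)) (sh h x) t n).rt (tr h a) (tr h o) ↔ (stage (Ψ x) x t n).rt a o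
  | 0, a, o => and_congr (hΨ.equivPres h x o) (by rw [embEnd_tr]; exact (tr_injective h).eq_iff)
  | n + 1, a, o => or_congr (rt_tr hΨ t h x n a o)
      (and_congr (fresh_tr h ((stage_rg hΨ t n).equivE h x) ((stage_rg hΨ t n).equivR h x) _
        (edge a)) (by
          rw [← exists_tr h]
          exact exists_congr fun c => and_congr
            (attachTo_tr h ((stage_rg hΨ t n).equivE h x) ((stage_rg hΨ t n).equivR h x) a c)
            (rt_tr hΨ t h x n c o)))

end

end Vale.Agent.P189
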