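import Vale.Agent.P189.Cells

/-!
Collapsing cells: in each round every remaining cell with an edge class used by no other
remaining cell deletes one such class.
-/

namespace Vale.Agent.P189

open MeasureTheory Function

variable {p : ℕ} {S0 : Type} [Countable S0]

/-- The graph of edge classes. -/
def quot (Z : Gph (G p) (Fin p × Lbl p S0)) : Gph (G p) (Fin p × Lbl p S0) :=
  ⟨{e | IsRep Z e}, Z.R, Z.Mk⟩

/-- The cell `a` alone among the cells `P` uses the class in its slot `k`. -/
def Private (Z : Gph (G p) (Fin p × Lbl p S0)) (P : CEdge p S0 → Prop) (a : CEdge p S0)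
    (k : Fin (p + 1)) : Prop :=
  ∃ r, InSlot Z a k r ∧ ∀ a', P a' → ∀ k', InSlot Z a' k' r → a' = a

/-- Two consecutive private classes of a cell meet at an unmarked node of degree two. -/
def PairSlot (Z : Gph (G p) (Fin p × Lbl p S0)) (a : CEdge p S0) (k : Fin (p + 1)) : Prop :=
  Private Z (CellAt Z) a k ∧ Private Z (CellAt Z) a (k + 1) ∧
    ∃ r, InSlot Z a k r ∧ ¬Z.Mk (exitEnd k r) ∧ (quot Z).cnt (exitEnd k r) = 2

/-- The cells left after `i` rounds. -/
def remains (Z : Gph (G p) (Fin p × Lbl p S0)) : ℕ → CEdge p S0 → Prop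
  | 0 => CellAt Z
  | i + 1 => fun a => remains Z i a ∧ ¬∃ k, Private Z (remains Z i) a k

/-- The slots a cell may delete in round `i`; the first round prefers a pair. -/
def Pref (Z : Gph (G p) (Fin p × Lbl p S0)) (i : ℕ) (a : CEdge p S0) (k : Fin (p + 1)) : Prop :=
  Private Z (remains Z i) a k ∧ (i = 0 → (∃ k', PairSlot Z a k') → PairSlot Z a k)

/-- The slot that a cell deletes in round `i`. -/
def DelSlot (Z : Gph (G p) (Fin p × Lbl p S0)) (i : ℕ) (a : CEdge p S0) (k : Fin (p + 1)) :
    Prop :=
  remains Z i a ∧ Pref Z i a k ∧ ∀ k', Pref Z i a k' → k ≤ k'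

/-- The classes deleted in the first `K` rounds. -/
def Del (Z : Gph (G p) (Fin p × Lbl p S0)) (K : ℕ) (r : CEdge p S0) : Prop :=
  ∃ i < K, ∃ a k, DelSlot Z i a k ∧ InSlot Z a k r

/-- The collapsed graph. -/
def collapsed (Z : Gph (G p) (Fin p × Lbl p S0)) (K : ℕ) : Gph (G p) (Fin p × Lbl p S0) :=
  ⟨{e | IsRep Z e ∧ ¬Del Z K e}, Z.R, Z.Mk⟩

/-- A fresh edge whose cell is left after `K` rounds. -/
def LeftOp (Z : Gph (G p) (Fin p × Lbl p S0)) (K : ℕ) (e : CEdge p S0) : Prop :=
  ∃ a, OpOf Z a e ∧ remains Z K a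

lemma remains_cellAt {Z : Gph (G p) (Fin p × Lbl p S0)} :
    ∀ {i : ℕ} {a : CEdge p S0}, remains Z i a → CellAt Z a
  | 0, _, h => h
  | _ + 1, _, h => remains_cellAt h.1

lemma remains_anti {Z : Gph (G p) (Fin p × Lbl p S0)} {i j : ℕ} (h : i ≤ j) {a : CEdge p S0}
    (ha : remains Z j a) : remains Z i a := by
  induction h with
  | refl => exact ha
  | step _ ih => exact ih ha.1

section

variable {Z : Lab (G p) → Gph (G p) (Fin p × Lbl p S0)}

lemma quot_rg (hZ : IsRG Z) : IsRG fun x => quot (Z x) :=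
  ⟨measurable_isRep hZ, hZ.measR, hZ.measMk, fun h x e => isRep_tr hZ h x e, hZ.equivR,
    hZ.equivMk, hZ.eqv, hZ.mk_congr⟩

lemma measurable_private (hZ : IsRG Z) {P : Lab (G p) → CEdge p S0 → Prop}
    (hP : ∀ a, Measurable fun x => P x a) (a : CEdge p S0) (k : Fin (p + 1)) :
    Measurable fun x => Private (Z x) (P x) a k :=
  Measurable.exists fun r => (measurable_inSlot hZ a k r).and <| Measurable.forall fun a' =>
    (hP a').imp <| Measurable.forall fun k' => (measurable_inSlot hZ a' k' r).imp measurable_const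

lemma private_tr (hZ : IsRG Z) {P : Lab (G p) → CEdge p S0 → Prop} (h : G p) (x : Lab (G p))
    (hP : ∀ a, P (sh h x) (tr h a) ↔ P x a) (a : CEdge p S0) (k : Fin (p + 1)) :
    Private (Z (sh h x)) (P (sh h x)) (tr h a) k ↔ Private (Z x) (P x) a k :=
  (exists_tr h _).symm.trans <| exists_congr fun r => and_congr (inSlot_tr hZ h x a k r) <|
    (trEquiv h).surjective.forall.trans <| forall_congr' fun a' =>
      imp_congr (hP a') <| forall_congr' fun k' =>
        imp_congr (inSlot_tr hZ h x a' k' r) (tr_injective h).eq_iff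

lemma measurable_pairSlot (hZ : IsRG Z) (a : CEdge p S0) (k : Fin (p + 1)) :
    Measurable fun x => PairSlot (Z x) a k :=
  (measurable_private hZ (measurable_cellAt hZ) a k).and <|
    (measurable_private hZ (measurable_cellAt hZ) a (k + 1)).and <| Measurable.exists fun r =>
      (measurable_inSlot hZ a k r).and <| (hZ.measMk _).not.and <|
        measurableSet_setOfPred.1 (((quot_rg hZ).measurable_cnt _) (measurableSet_singleton 2))

lemma pairSlot_tr (hZ : IsRG Z) (h : G p) (x : Lab (G p)) (a : CEdge p S0) (k : Fin (p + 1)) :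
    PairSlot (Z (sh h x)) (tr h a) k ↔ PairSlot (Z x) a k :=
  and_congr (private_tr hZ (P := fun y => CellAt (Z y)) h x (cellAt_tr hZ h x) a k) <|
    and_congr (private_tr hZ (P := fun y => CellAt (Z y)) h x (cellAt_tr hZ h x) a (k + 1)) <|
      (exists_tr h _).symm.trans <| exists_congr fun r => and_congr (inSlot_tr hZ h x a k r) <| by
        rw [exitEnd, exitEnd, ← tr_en, hZ.equivMk h x, (quot_rg hZ).cnt_equiv h x]

lemma measurable_remains (hZ : IsRG Z) :
    ∀ i a, Measurable fun x => remains (Z x) i a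
  | 0, a => measurable_cellAt hZ a
  | i + 1, a => (measurable_remains hZ i a).and <| Measurable.not <| Measurable.exists fun k =>
      measurable_private hZ (measurable_remains hZ i) a k

lemma remains_tr (hZ : IsRG Z) (h : G p) (x : Lab (G p)) :
    ∀ i a, remains (Z (sh h x)) i (tr h a) ↔ remains (Z x) i a
  | 0, a => cellAt_tr hZ h x a
  | i + 1, a => and_congr (remains_tr hZ h x i a) <| not_congr <| exists_congr fun k =>
      private_tr hZ (P := fun y => remains (Z y) i) h x (remains_tr hZ h x i) a k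

lemma measurable_delSlot (hZ : IsRG Z) (i : ℕ) (a : CEdge p S0) (k : Fin (p + 1)) :
    Measurable fun x => DelSlot (Z x) i a k :=
  have hp : ∀ k, Measurable fun x => Pref (Z x) i a k := fun k =>
    (measurable_private hZ (measurable_remains hZ i) a k).and <| measurable_const.imp <|
      (Measurable.exists fun k' => measurable_pairSlot hZ a k').imp (measurable_pairSlot hZ a k)
  (measurable_remains hZ i a).and <| (hp k).and <| Measurable.forall fun k' =>
    (hp k').imp measurable_const

lemma delSlot_tr (hZ : IsRG Z) (h : G p) (x : Lab (G p)) (i : ℕ) (a : CEdge p S0)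
    (k : Fin (p + 1)) : DelSlot (Z (sh h x)) i (tr h a) k ↔ DelSlot (Z x) i a k :=
  have hp : ∀ k, Pref (Z (sh h x)) i (tr h a) k ↔ Pref (Z x) i a k := fun k =>
    and_congr (private_tr hZ (P := fun y => remains (Z y) i) h x (remains_tr hZ h x i) a k) <| imp_congr Iff.rfl <|
      imp_congr (exists_congr fun k' => pairSlot_tr hZ h x a k') (pairSlot_tr hZ h x a k)
  and_congr (remains_tr hZ h x i a) <| and_congr (hp k) <|
    forall_congr' fun k' => imp_congr (hp k') Iff.rfl

lemma measurable_del (hZ : IsRG Z) (K : ℕ) (r : CEdge p S0) :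
    Measurable fun x => Del (Z x) K r :=
  Measurable.exists fun i => measurable_const.and <| Measurable.exists fun a =>
    Measurable.exists fun k => (measurable_delSlot hZ i a k).and (measurable_inSlot hZ a k r)

lemma del_tr (hZ : IsRG Z) (h : G p) (x : Lab (G p)) (K : ℕ) (r : CEdge p S0) :
    Del (Z (sh h x)) K (tr h r) ↔ Del (Z x) K r :=
  exists_congr fun i => and_congr Iff.rfl <| (exists_tr h _).symm.trans <|
    exists_congr fun a => exists_congr fun k =>
      and_congr (delSlot_tr hZ h x i a k) (inSlot_tr hZ h x a k r)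

lemma collapsed_rg (hZ : IsRG Z) (K : ℕ) : IsRG fun x => collapsed (Z x) K :=
  ⟨fun e => (measurable_isRep hZ e).and (measurable_del hZ K e).not, hZ.measR, hZ.measMk,
    fun h x e => and_congr (isRep_tr hZ h x e) (not_congr (del_tr hZ h x K e)), hZ.equivR,
    hZ.equivMk, hZ.eqv, hZ.mk_congr⟩

lemma measurable_leftOp (hZ : IsRG Z) (K : ℕ) (e : CEdge p S0) :
    Measurable fun x => LeftOp (Z x) K e :=
  Measurable.exists fun a => (measurable_opOf hZ a e).and (measurable_remains hZ K a)

lemma leftOp_tr (hZ : IsRG Z) (h : G p) (x : Lab (G p)) (K : ℕ) (e : CEdge p S0) :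
    LeftOp (Z (sh h x)) K (tr h e) ↔ LeftOp (Z x) K e :=
  (exists_tr h _).symm.trans <| exists_congr fun a =>
    and_congr (opOf_tr hZ h x a e) (remains_tr hZ h x K a)

end

end Vale.Agent.P189
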