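import Vale.Agent.P189.Expansion

/-!
The collapsed stage of a state is a state: every end of a stage meets a surviving class, the
expansion of an old edge is a walk between its ends, and marks come from the old graph.
-/

namespace Vale.Agent.P189

open MeasureTheory Function

variable {p : ℕ} {S0 : Type} [Countable S0]

section

variable {Ψ : Gph (G p) (Fin p × S0)} {x : Lab (G p)} {t : ℕ → ℝ} {n K : ℕ}

lemma stage_mk_iff {a : CEnd p S0} :
    (stage Ψ x t n).Z.Mk a ↔
      ∃ o, Ψ.Pres o ∧ Ψ.Mk o ∧ (stage Ψ x t n).Z.R (embEnd o) a := by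
  cases n <;> rfl

lemma stage_R_old {o o' : End (G p) (Fin p × S0)} (ho : Ψ.Pres o) (ho' : Ψ.Pres o')
    (h : Ψ.R o o') : (stage Ψ x t n).Z.R (embEnd o) (embEnd o') :=
  stage_R_mono (Nat.zero_le n)
    (FoldRel.base (Relation.EqvGen.rel _ _ ⟨o, o', rfl, rfl, ho, ho', h⟩))

omit [Countable S0] in
lemma pos_embEnd (o : End (G p) (Fin p × S0)) : pos (embEnd o) = pos o := rfl

lemma pres_embEnd {o : End (G p) (Fin p × S0)} (ho : Ψ.Pres o) :
    (stage Ψ x t n).Z.Pres (embEnd o) :=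
  mem_of_emb ho

/-- Every end of a stage lies at a node of the collapse. -/
lemma exists_collapsed_end {c : CEnd p S0} (hc : (stage Ψ x t n).Z.Pres c) :
    ∃ b, (collapsed (stage Ψ x t n).Z K).Pres b ∧ (stage Ψ x t n).Z.R c b := by
  obtain ⟨w, hw⟩ := exists_expTop (K := K) hc
  have hwalk := expTop_walk hc hw
  have hlen : 0 < w.length := List.length_pos_iff.2 (expTop_ne_nil hw)
  rcases hs : side c with _ | _
  · have hz : w[0]? = some w[0] := List.getElem?_eq_getElem hlen
    refine ⟨en w[0].1 (!w[0].2), expTop_kept hw _ (List.getElem_mem hlen), ?_⟩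
    rw [← en_edge_side c, hs]
    exact (hwalk.getElem 0 _ hz).1 rfl
  · have hlt : w.length - 1 < w.length := by omega
    have hz : w[w.length - 1]? = some w[w.length - 1] := List.getElem?_eq_getElem hlt
    refine ⟨en w[w.length - 1].1 w[w.length - 1].2, expTop_kept hw _ (List.getElem_mem hlt), ?_⟩
    rw [← en_edge_side c, hs]
    exact (stage_eqv n).symm ((hwalk.getElem _ _ hz).2.1 (by omega))

/-- A walk among the surviving classes links the classes at its two ends. -/
lemma walk_link : ∀ {w : List (CEdge p S0 × Bool)} {u v b b' : CEnd p S0},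
    Walk (stage Ψ x t n).Z.R (collapsed (stage Ψ x t n).Z K).E u w v →
    (collapsed (stage Ψ x t n).Z K).Pres b → (collapsed (stage Ψ x t n).Z K).Pres b' →
    (stage Ψ x t n).Z.R b u → (stage Ψ x t n).Z.R v b' →
    (collapsed (stage Ψ x t n).Z K).Link b b'
  | [], _, _, _, _, hw, hb, hb', hu, hv =>
    Relation.EqvGen.rel _ _ ⟨hb, hb', Or.inl ((stage_eqv n).trans hu ((stage_eqv n).trans hw hv))⟩
  | (e, d) :: w, _, _, b, b', hw, hb, hb', hu, hv => by
    have h1 : (collapsed (stage Ψ x t n).Z K).Link b (en e (!d)) :=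
      Relation.EqvGen.rel _ _ ⟨hb, hw.2.1, Or.inl ((stage_eqv n).trans hu hw.1)⟩
    have h2 : (collapsed (stage Ψ x t n).Z K).Link (en e (!d)) (en e d) :=
      Relation.EqvGen.rel _ _ ⟨hw.2.1, hw.2.1, Or.inr rfl⟩
    exact Relation.EqvGen.trans _ _ _ h1 (Relation.EqvGen.trans _ _ _ h2
      (walk_link hw.2.2 hw.2.1 hb' ((stage_eqv n).refl _) hv))

/-- Linked old ends give linked ends of the collapse. -/
lemma link_of_old {o o' : End (G p) (Fin p × S0)} (h : Ψ.Link o o') :
    (∀ b b', (collapsed (stage Ψ x t n).Z K).Pres b → (collapsed (stage Ψ x t n).Z K).Pres b' →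
      (stage Ψ x t n).Z.R (embEnd o) b → (stage Ψ x t n).Z.R (embEnd o') b' →
        (collapsed (stage Ψ x t n).Z K).Link b b') ∧
      (o = o' ∨ (Ψ.Pres o ∧ Ψ.Pres o')) := by
  induction h with
  | rel u v huv =>
    obtain ⟨hu, hv, huv⟩ := huv
    refine ⟨fun b b' hb hb' hub hvb => ?_, Or.inr ⟨hu, hv⟩⟩
    rcases huv with huv | huv
    · exact Relation.EqvGen.rel _ _ ⟨hb, hb', Or.inl ((stage_eqv n).trans ((stage_eqv n).symm hub)
        ((stage_eqv n).trans (stage_R_old hu hv huv) hvb))⟩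
    · have hue : embEnd u = en (emb (edge u)) (side u) := rfl
      have hve : embEnd v = en (emb (edge u)) (side v) := by rw [huv]; rfl
      obtain ⟨w, hw⟩ := exists_expTop (K := K) (pres_embEnd (x := x) (t := t) (n := n) hu)
      have hwalk := expTop_walk (pres_embEnd (x := x) (t := t) (n := n) hu) hw
      have hq := stage_eqv (Ψ := Ψ) (x := x) (t := t) n
      rw [hue] at hub
      rw [hve] at hvb
      cases hsu : side u <;> cases hsv : side v <;> rw [hsu] at hub <;> rw [hsv] at hvb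
      · exact Relation.EqvGen.rel _ _ ⟨hb, hb', Or.inl (hq.trans (hq.symm hub) hvb)⟩
      · exact walk_link hwalk hb hb' (hq.symm hub) hvb
      · exact Relation.EqvGen.symm _ _ (walk_link hwalk hb' hb (hq.symm hvb) hub)
      · exact Relation.EqvGen.rel _ _ ⟨hb, hb', Or.inl (hq.trans (hq.symm hub) hvb)⟩
  | refl u =>
    exact ⟨fun b b' hb hb' h1 h2 => Relation.EqvGen.rel _ _
      ⟨hb, hb', Or.inl ((stage_eqv n).trans ((stage_eqv n).symm h1) h2)⟩, Or.inl rfl⟩
  | symm u v _ ih =>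
    exact ⟨fun b b' hb hb' h1 h2 => Relation.EqvGen.symm _ _ (ih.1 b' b hb' hb h2 h1),
      ih.2.imp Eq.symm And.symm⟩
  | trans u v w _ _ ih₁ ih₂ =>
    rcases ih₁.2 with rfl | h₁
    · exact ih₂
    rcases ih₂.2 with rfl | h₂
    · exact ⟨ih₁.1, ih₁.2⟩
    refine ⟨fun b b' hb hb' hu hw => ?_, Or.inr ⟨h₁.1, h₂.2⟩⟩
    obtain ⟨c, hc, hvc⟩ := exists_collapsed_end (K := K) (pres_embEnd (x := x) (t := t) (n := n) h₁.2)
    exact Relation.EqvGen.trans _ _ _ (ih₁.1 b c hb hc hu hvc) (ih₂.1 c b' hc hb' hvc hw)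

end

/-- **The collapse of a state is a state.** -/
theorem isState_collapsed {Ψ : Lab (G p) → Gph (G p) (Fin p × S0)} (hΨ : IsState Ψ) (t : ℕ → ℝ)
    (n K : ℕ) : IsState (fun x => collapsed (clo Ψ t n x) K) where
  rg := collapsed_rg (clo_rg hΨ.rg t n) K
  pos_eq := hΨ.pos_eq.mono fun x hx a b _ _ hab => stage_R_pos ⟨hΨ.rg.eqv x, hx⟩ n hab
  mark_eq := by
    filter_upwards [hΨ.pos_eq, hΨ.mark_eq] with x hpos hmark a b _ _ ha hb hab
    obtain ⟨o, ho, hom, hoa⟩ := stage_mk_iff.1 ha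
    obtain ⟨o', ho', hom', hob⟩ := stage_mk_iff.1 hb
    have hok : OldOK (Ψ x) := ⟨hΨ.rg.eqv x, hpos⟩
    have hp : pos o = pos o' := by
      rw [← pos_embEnd o, ← pos_embEnd o', stage_R_pos hok n hoa, hab, stage_R_pos hok n hob]
    exact (stage_eqv n).trans ((stage_eqv n).symm hoa)
      ((stage_eqv n).trans (stage_R_old ho ho' (hmark o o' ho ho' hom hom' hp)) hob)
  conn := by
    filter_upwards [hΨ.conn] with x hconn a b ha hb
    have hpa : (stage (Ψ x) x t n).Z.Pres a := ha.1.1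
    have hpb : (stage (Ψ x) x t n).Z.Pres b := hb.1.1
    obtain ⟨o, ho⟩ := exists_rt hpa
    obtain ⟨o', ho'⟩ := exists_rt hpb
    exact (link_of_old (hconn o o' (rt_spec ho).2.1 (rt_spec ho').2.1)).1 a b ha hb
      ((stage_eqv n).symm (rt_spec ho).2.2) ((stage_eqv n).symm (rt_spec ho').2.2)
  marked := by
    filter_upwards [hΨ.pos_eq, hΨ.marked] with x hpos hmarked m
    obtain ⟨o, ho, hom, hop⟩ := hmarked m
    obtain ⟨b, hb, hob⟩ := exists_collapsed_end (K := K) (pres_embEnd (x := x) (t := t) (n := n) ho)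
    refine ⟨b, hb, stage_mk_iff.2 ⟨o, ho, hom, hob⟩, ?_⟩
    rw [← stage_R_pos ⟨hΨ.rg.eqv x, hpos⟩ n hob, pos_embEnd, hop]

end Vale.Agent.P189
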