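import Mathlib

/-!
Substituting a word of distinct letters for one letter of a reduced word: if no occurrence is
surrounded by almost all of the substituted word, every occurrence leaves two adjacent letters.
-/

namespace Vale.Agent.P189.WordCancel

open FreeGroup (IsReduced invRev)

variable {α : Type*}

theorem mk_cons (a : α × Bool) (L : List (α × Bool)) :
    FreeGroup.mk (a :: L) = FreeGroup.mk [a] * FreeGroup.mk L := by
  rw [FreeGroup.mul_mk]; rfl

theorem mk_invRev_cancel (A B C : List (α × Bool)) :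
    FreeGroup.mk (A ++ C) * FreeGroup.mk (invRev C ++ B) = FreeGroup.mk (A ++ B) := by
  simp only [← FreeGroup.mul_mk, ← FreeGroup.inv_mk]
  group

theorem invRev_append' (A B : List (α × Bool)) : invRev (A ++ B) = invRev B ++ invRev A := by
  simp [invRev]

/-- A piece of a reduced word is reduced. -/
theorem red_part {L M : List (α × Bool)} (h : IsReduced M) (h' : L <:+: M) : IsReduced L := by
  obtain ⟨s, t, rfl⟩ := h'
  exact (List.isChain_append.1 (List.isChain_append.1 h).1).2.1

/-- Two reduced words cancel along a suffix of the first. -/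
theorem exists_join [DecidableEq α] : ∀ (A B : List (α × Bool)), IsReduced A → IsReduced B →
    ∃ A₁ C B₁, A = A₁ ++ C ∧ B = invRev C ++ B₁ ∧ IsReduced (A₁ ++ B₁)
  | [], B, _, hB => ⟨[], [], B, rfl, rfl, hB⟩
  | a :: A, B, hA, hB => by
    obtain ⟨A₁, C, B₁, rfl, rfl, h⟩ :=
      exists_join A B (red_part hA (List.suffix_cons a A).isInfix) hB
    rcases A₁ with _ | ⟨a₁, A₁⟩
    · rcases B₁ with _ | ⟨b, B₁⟩
      · exact ⟨[a], C, [], rfl, by simp, FreeGroup.IsReduced.singleton⟩
      · by_cases hab : b = (a.1, !a.2)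
        · refine ⟨[], a :: C, B₁, rfl, ?_, ?_⟩
          · subst hab
            rw [show a :: C = [a] ++ C from rfl, invRev_append']
            simp [invRev]
          · exact red_part h (List.suffix_cons b B₁).isInfix
        · refine ⟨[a], C, b :: B₁, rfl, rfl, ?_⟩
          rw [List.singleton_append, FreeGroup.isReduced_cons_cons]
          refine ⟨fun h1 => ?_, h⟩
          obtain ⟨a1, a2⟩ := a
          obtain ⟨b1, b2⟩ := b
          cases a2 <;> cases b2 <;> simp_all
    · refine ⟨a :: a₁ :: A₁, C, B₁, rfl, rfl, ?_⟩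
      simp only [List.cons_append] at hA h ⊢
      rw [FreeGroup.isReduced_cons_cons] at hA ⊢
      exact ⟨hA.1, h⟩

theorem not_reduced_inv_append (D : List (α × Bool)) (h : IsReduced (invRev D ++ D)) : D = [] := by
  rcases D with _ | ⟨d, D⟩
  · rfl
  · exfalso
    have h2 : IsReduced [(d.1, !d.2), d] := by
      refine red_part h ⟨invRev D, D, ?_⟩
      simp [invRev]
    rw [FreeGroup.isReduced_cons_cons] at h2
    have := h2.1 rfl
    simp at this

theorem append_cons_unique {β : Type*} {L₁ L₂ M₁ M₂ : List β} {a : β}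
    (hn : (L₁ ++ a :: M₁).Nodup) (h : L₁ ++ a :: M₁ = L₂ ++ a :: M₂) : L₁ = L₂ := by
  induction L₁ generalizing L₂ with
  | nil =>
    rcases L₂ with _ | ⟨b, L₂⟩
    · rfl
    · simp only [List.nil_append, List.cons_append, List.cons.injEq] at h
      simp only [List.nil_append, List.nodup_cons] at hn
      exact absurd (h.2 ▸ List.mem_append_right L₂ List.mem_cons_self) hn.1
  | cons c L₁ ih =>
    rcases L₂ with _ | ⟨b, L₂⟩
    · simp only [List.nil_append, List.cons_append, List.cons.injEq] at h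
      simp only [List.cons_append, List.nodup_cons] at hn
      exact absurd (h.1 ▸ List.mem_append_right L₁ List.mem_cons_self) hn.1
    · simp only [List.cons_append, List.cons.injEq] at h
      simp only [List.cons_append, List.nodup_cons] at hn
      rw [h.1, ih hn.2 h.2]

theorem infix_append_cases {β : Type*} {U A B : List β} (h : U <:+: A ++ B) :
    U <:+: A ∨ U <:+: B ∨ ∃ U₁ U₂, U = U₁ ++ U₂ ∧ U₁ <:+ A ∧ U₂ <+: B := by
  obtain ⟨s, t, h⟩ := h
  rw [List.append_assoc] at h
  rcases List.append_eq_append_iff.1 h with ⟨a, ha, hb⟩ | ⟨a, ha, hb⟩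
  · rcases List.append_eq_append_iff.1 hb with ⟨b, hb1, -⟩ | ⟨b, hb1, hb2⟩
    · exact Or.inl ⟨s, b, by rw [List.append_assoc, ← hb1, ← ha]⟩
    · exact Or.inr (Or.inr ⟨a, b, hb1, ⟨s, ha.symm⟩, ⟨t, hb2.symm⟩⟩)
  · exact Or.inr (Or.inl ⟨a, t, by rw [List.append_assoc, hb]⟩)

/-- Every piece of `V` made of fixed letters is a piece of `w` up to powers of `z`. -/
def Good (Pr : α → Prop) (z : α) (V w : List (α × Bool)) : Prop :=
  ∀ U, U <:+: V → (∀ x ∈ U, ¬ Pr x.1) → ∃ (u : List (α × Bool)) (a b : ℤ), u <:+: w ∧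
    FreeGroup.mk U = FreeGroup.of z ^ a * FreeGroup.mk u * FreeGroup.of z ^ b

/-- The data and hypotheses of a substitution. -/
structure Setup (p : ℕ) (y z : α) (R : Bool → List (α × Bool)) (Pr : α → Prop)
    (σ : FreeGroup α →* FreeGroup α) : Prop where
  inv : ∀ e, R (!e) = invRev (R e)
  nodup : ∀ e, ((R e).map Prod.fst).Nodup
  len : ∀ e, (R e).length = p
  ny : ∀ e, ∀ x ∈ R e, x.1 ≠ y
  split : ∀ e, ∀ x ∈ R e, Pr x.1 ∨ x.1 = z
  fix : ∀ x, x ≠ y → σ (FreeGroup.of x) = FreeGroup.of x
  subst : ∀ e, σ (FreeGroup.mk [(y, e)]) = FreeGroup.mk (R e)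

variable {p : ℕ} {y z : α} {R : Bool → List (α × Bool)} {Pr : α → Prop}
  {σ : FreeGroup α →* FreeGroup α}

theorem Setup.red (hS : Setup p y z R Pr σ) (e : Bool) : IsReduced (R e) := by
  have hn := hS.nodup e
  rw [FreeGroup.IsReduced]
  refine (List.Pairwise.isChain ?_)
  rw [List.nodup_iff_pairwise_ne, List.pairwise_map] at hn
  exact hn.imp fun h h1 => absurd h1 h

theorem Setup.fix_mk (hS : Setup p y z R Pr σ) :
    ∀ L : List (α × Bool), (∀ x ∈ L, x.1 ≠ y) → σ (FreeGroup.mk L) = FreeGroup.mk L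
  | [], _ => by rw [← FreeGroup.one_eq_mk, map_one]
  | a :: L, h => by
    rw [mk_cons, map_mul, hS.fix_mk L fun x hx => h x (List.mem_cons_of_mem _ hx)]
    congr 1
    obtain ⟨x, _ | _⟩ := a
    · rw [show FreeGroup.mk [(x, false)] = (FreeGroup.of x)⁻¹ from rfl, map_inv,
        hS.fix x (h _ List.mem_cons_self)]
    · exact hS.fix x (h _ List.mem_cons_self)

/-- A piece of fixed letters inside the substituted word is a power of `z`. -/
theorem Setup.single (hS : Setup p y z R Pr σ) {U : List (α × Bool)} {e : Bool}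
    (hU : U <:+: R e) (hp : ∀ x ∈ U, ¬ Pr x.1) :
    ∃ a : ℤ, FreeGroup.mk U = FreeGroup.of z ^ a := by
  have hn : (U.map Prod.fst).Nodup := (hS.nodup e).sublist (hU.map Prod.fst).sublist
  have hz : ∀ x ∈ U, x.1 = z := fun x hx =>
    (hS.split e x (hU.subset hx)).resolve_left (hp x hx)
  rcases U with _ | ⟨a, _ | ⟨b, U⟩⟩
  · exact ⟨0, by simp [← FreeGroup.one_eq_mk]⟩
  · obtain ⟨x, _ | _⟩ := a
    · obtain rfl : x = z := hz _ List.mem_cons_self
      exact ⟨-1, by simp; rfl⟩
    · obtain rfl : x = z := hz _ List.mem_cons_self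
      exact ⟨1, by simp; rfl⟩
  · exfalso
    simp [hz a (by simp), hz b (by simp)] at hn

/-- The shape of the substituted word. -/
def Shape (R : Bool → List (α × Bool)) (y : α) (V w : List (α × Bool)) : Prop :=
  ((∀ x ∈ w, x.1 ≠ y) ∧ V = w) ∨
  ∃ (e : Bool) (X D rest R' T : List (α × Bool)) (m₀ m₁ : α × Bool),
    w = X ++ D ++ (y, e) :: rest ∧ R e = invRev D ++ m₀ :: m₁ :: R' ∧ V = X ++ m₀ :: m₁ :: T

/-- A prefix of fixed letters of a remnant is a power of `z`. -/
theorem Setup.head_piece (hS : Setup p y z R Pr σ) {e : Bool} {D R' T U : List (α × Bool)}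
    {m₀ m₁ : α × Bool} (hR : R e = invRev D ++ m₀ :: m₁ :: R') (hU : U <+: m₀ :: m₁ :: T)
    (hp : ∀ x ∈ U, ¬ Pr x.1) : ∃ b : ℤ, FreeGroup.mk U = FreeGroup.of z ^ b := by
  have hsub : [m₀, m₁] <:+: R e := hR ▸ ⟨invRev D, R', by simp⟩
  refine hS.single (List.IsPrefix.isInfix ?_ |>.trans hsub) hp
  rcases List.prefix_or_prefix_of_prefix hU
      (show [m₀, m₁] <+: m₀ :: m₁ :: T from ⟨T, rfl⟩) with h | h
  · exact h
  · exfalso
    have hn : ([m₀, m₁].map Prod.fst).Nodup := (hS.nodup e).sublist (hsub.map Prod.fst).sublist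
    have e0 := (hS.split e m₀ (hsub.subset (by simp))).resolve_left (hp _ (h.subset (by simp)))
    have e1 := (hS.split e m₁ (hsub.subset (by simp))).resolve_left (hp _ (h.subset (by simp)))
    simp [e0, e1] at hn

/-- A prefix of fixed letters: one original piece and a power of `z`. -/
theorem Setup.prefix_piece (hS : Setup p y z R Pr σ) {V w U : List (α × Bool)}
    (hsh : Shape R y V w) (hU : U <+: V) (hp : ∀ x ∈ U, ¬ Pr x.1) :
    ∃ (u : List (α × Bool)) (b : ℤ), u <+: w ∧
      FreeGroup.mk U = FreeGroup.mk u * FreeGroup.of z ^ b := by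
  rcases hsh with ⟨-, rfl⟩ | ⟨e, X, D, rest, R', T, m₀, m₁, rfl, hR, rfl⟩
  · exact ⟨U, 0, hU, by simp⟩
  · rcases List.prefix_or_prefix_of_prefix hU (List.prefix_append X (m₀ :: m₁ :: T)) with h | h
    · exact ⟨U, 0, h.trans (by rw [List.append_assoc]; exact List.prefix_append _ _), by simp⟩
    · obtain ⟨U₂, rfl⟩ := h
      rw [List.prefix_append_right_inj] at hU
      obtain ⟨b, hb⟩ := hS.head_piece hR hU fun x hx => hp x (List.mem_append_right _ hx)
      exact ⟨X, b, by rw [List.append_assoc]; exact List.prefix_append _ _,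
        by rw [← FreeGroup.mul_mk, hb]⟩

/-- The substituted word of a reduced word without near copies. -/
theorem Setup.main [DecidableEq α] (hS : Setup p y z R Pr σ) (hp : 2 ≤ p) :
    ∀ (w : List (α × Bool)), IsReduced w →
    (∀ e A m C, R e = A ++ m :: C → ¬ (invRev A ++ (y, e) :: invRev C <:+: w)) →
    ∃ V, IsReduced V ∧ σ (FreeGroup.mk w) = FreeGroup.mk V ∧ (∀ x ∈ V, x.1 ≠ y) ∧
      Shape R y V w ∧ Good Pr z V w := by
  intro w
  induction hlen : w.length using Nat.strong_induction_on generalizing w with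
  | _ N ih =>
  intro hred hrun
  by_cases hy : ∀ x ∈ w, x.1 ≠ y
  · exact ⟨w, hred, hS.fix_mk w hy, hy, Or.inl ⟨hy, rfl⟩,
      fun U hU _ => ⟨U, 0, 0, hU, by simp⟩⟩
  push Not at hy
  obtain ⟨X, ye, rest, hw, hXy, hye⟩ : ∃ X ye rest, w = X ++ ye :: rest ∧
      (∀ x ∈ X, x.1 ≠ y) ∧ ye.1 = y := by
    clear hlen ih hred hrun
    induction w with
    | nil => simp at hy
    | cons a w ihw =>
      by_cases ha : a.1 = y
      · exact ⟨[], a, w, rfl, by simp, ha⟩
      · obtain ⟨x, hx, hxy⟩ := hy
        rcases List.mem_cons.1 hx with rfl | hx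
        · exact absurd hxy ha
        obtain ⟨X, ye, rest, rfl, hX, hye⟩ := ihw ⟨x, hx, hxy⟩
        exact ⟨a :: X, ye, rest, rfl, by simpa [ha] using hX, hye⟩
  obtain ⟨y', e⟩ := ye
  simp only at hye
  subst hye hw
  have hrest : rest <:+: X ++ (y', e) :: rest := ⟨X ++ [(y', e)], [], by simp⟩
  obtain ⟨V₂, hV₂, hσ₂, hy₂, hsh, hgood⟩ := ih rest.length
    (by rw [← hlen]; simp; omega) rest rfl (red_part hred hrest)
    fun e' A m C hR h => hrun e' A m C hR (h.trans hrest)
  obtain ⟨A, C, B, hA, hV₂', hAB⟩ := exists_join (R e) V₂ (hS.red e) hV₂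
  -- the cancellation from the right stays inside the original word
  have hC : invRev C <+: rest := by
    rcases hsh with ⟨-, rfl⟩ | ⟨e₂, X₂, D₂, rest₂, R₂, T₂, m₀, m₁, hrest₂, hR₂, hV⟩
    · exact ⟨B, hV₂'.symm⟩
    · have h1 : invRev C <+: V₂ := ⟨B, hV₂'.symm⟩
      rw [hV] at h1
      rcases List.prefix_or_prefix_of_prefix h1 (List.prefix_append X₂ (m₀ :: m₁ :: T₂)) with h | h
      · exact h.trans ⟨D₂ ++ (y', e₂) :: rest₂, by rw [hrest₂, List.append_assoc]⟩
      · obtain ⟨Q, hQ⟩ := h
        rcases Q with _ | ⟨q, Q⟩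
        · rw [← hQ, List.append_nil]
          exact ⟨D₂ ++ (y', e₂) :: rest₂, by rw [hrest₂, List.append_assoc]⟩
        exfalso
        rw [← hQ, List.prefix_append_right_inj] at h1
        obtain rfl : q = m₀ := (List.cons_prefix_cons.1 h1).1
        by_cases he : e = e₂
        · subst he
          have hq : q ∈ R e := hR₂ ▸ by simp
          have hq' : (q.1, !q.2) ∈ R e := by
            have : q ∈ invRev C := hQ ▸ List.mem_append_right _ List.mem_cons_self
            rw [hA]
            apply List.mem_append_right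
            simp only [invRev, List.mem_reverse, List.mem_map] at this
            obtain ⟨c, hc, rfl⟩ := this
            simpa using hc
          have := List.inj_on_of_nodup_map (hS.nodup e) hq hq' rfl
          obtain ⟨q1, q2⟩ := q
          simp at this
        · have hee : e₂ = !e := by cases e <;> cases e₂ <;> simp_all
          have hR' : R e₂ = X₂ ++ q :: (Q ++ invRev A) := by
            rw [hee, hS.inv, hA, invRev_append', ← hQ]; simp
          have hn : (R e₂).Nodup := (hS.nodup e₂).of_map _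
          obtain rfl : X₂ = invRev D₂ :=
            append_cons_unique (hR' ▸ hn) (hR'.symm.trans hR₂)
          have hD : D₂ = [] := not_reduced_inv_append D₂ (red_part (red_part hred hrest)
            ⟨[], (y', e₂) :: rest₂, by rw [hrest₂]; simp⟩)
          subst hD
          have h2 : IsReduced [(y', e), (y', e₂)] :=
            red_part hred ⟨X, rest₂, by rw [hrest₂]; simp [invRev]⟩
          rw [FreeGroup.isReduced_cons_cons] at h2
          exact he (h2.1 rfl)
  obtain ⟨rest', hrest'⟩ := hC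
  obtain ⟨X₁, D, B₁, hX, hAB', hV⟩ :=
    exists_join X (A ++ B) (red_part hred ⟨[], (y', e) :: rest, by simp⟩) hAB
  -- the cancellation from the left leaves two letters
  obtain ⟨m₀, m₁, A', hA'⟩ : ∃ m₀ m₁ A', A = invRev D ++ m₀ :: m₁ :: A' := by
    rcases A.eq_nil_or_concat' with rfl | ⟨A₀, m, rfl⟩
    · exfalso
      rw [List.nil_append] at hA
      obtain ⟨m, C', hC'⟩ := List.exists_cons_of_ne_nil (l := C) (by
        rintro rfl
        have := hS.len e
        rw [hA] at this
        simp at this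
        omega)
      refine hrun e [] m C' (by rw [hA, hC']; rfl) ⟨X, invRev [m] ++ rest', ?_⟩
      rw [← hrest', hC', show m :: C' = [m] ++ C' from rfl, invRev_append']
      simp [invRev]
    rcases le_or_gt (invRev D).length A₀.length with hle | hlt
    swap
    · exfalso
      have hpre : A₀ <+: invRev D := List.prefix_of_prefix_length_le
        ((List.prefix_append A₀ [m]).trans (List.prefix_append _ B)) ⟨B₁, hAB'.symm⟩ hlt.le
      obtain ⟨D', hD'⟩ := hpre
      refine hrun e A₀ m C (by rw [hA]; simp) ⟨X₁ ++ invRev D', rest', ?_⟩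
      have hDeq : D = invRev D' ++ invRev A₀ := by
        rw [← invRev_append', hD', FreeGroup.invRev_invRev]
      rw [hX, hDeq, ← hrest']; simp
    have hpre : invRev D <+: A₀ := List.prefix_of_prefix_length_le ⟨B₁, hAB'.symm⟩
        ((List.prefix_append A₀ [m]).trans (List.prefix_append _ B)) hle
    obtain ⟨A₀', rfl⟩ := hpre
    rcases A₀' with _ | ⟨m', A''⟩
    · exfalso
      refine hrun e (invRev D) m C (by rw [hA]; simp) ⟨X₁, rest', ?_⟩
      rw [hX, ← hrest', FreeGroup.invRev_invRev]; simp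
    · rcases A'' with _ | ⟨m'', A''⟩
      · exact ⟨m', m, [], by simp⟩
      · exact ⟨m', m'', A'' ++ [m], by simp⟩
  obtain rfl : B₁ = m₀ :: m₁ :: A' ++ B := by
    rw [hA', List.append_assoc] at hAB'
    exact (List.append_cancel_left hAB').symm
  have hRe : R e = invRev D ++ m₀ :: m₁ :: (A' ++ C) := by rw [hA, hA']; simp
  have hsh' : Shape R y' (X₁ ++ (m₀ :: m₁ :: A' ++ B)) (X ++ (y', e) :: rest) :=
    Or.inr ⟨e, X₁, D, rest, A' ++ C, A' ++ B, m₀, m₁, by rw [hX], hRe, by simp⟩
  refine ⟨_, hV, ?_, ?_, hsh', ?_⟩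
  · rw [← FreeGroup.mul_mk, map_mul, hS.fix_mk X hXy, mk_cons (y', e), map_mul, hS.subst, hσ₂]
    conv_lhs => rw [hA, hV₂', mk_invRev_cancel, hX, hAB', mk_invRev_cancel]
  · intro x hx
    rcases List.mem_append.1 hx with hx | hx
    · exact hXy x (hX ▸ List.mem_append_left _ hx)
    rcases List.mem_append.1 hx with hx | hx
    · exact hS.ny e x (hA ▸ List.mem_append_left _ (hA' ▸ List.mem_append_right _ hx))
    · exact hy₂ x (hV₂' ▸ List.mem_append_right _ hx)
  · intro U hU hpU
    have hM : (m₀ :: m₁ :: A') <:+: R e := ⟨invRev D, C, by rw [hA, hA']⟩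
    rcases infix_append_cases hU with h | h | ⟨U₁, U₂, rfl, h₁, h₂⟩
    · exact ⟨U, 0, 0, h.trans ⟨[], D ++ (y', e) :: rest, by rw [hX]; simp⟩, by simp⟩
    · rcases infix_append_cases h with h | h | ⟨U₁, U₂, rfl, h₁, h₂⟩
      · obtain ⟨a, ha⟩ := hS.single (h.trans hM) hpU
        exact ⟨[], a, 0, List.nil_infix, by simp [ha, ← FreeGroup.one_eq_mk]⟩
      · obtain ⟨u, a, b, hu, he⟩ :=
          hgood U (h.trans ⟨invRev C, [], by rw [hV₂']; simp⟩) hpU
        exact ⟨u, a, b, hu.trans hrest, he⟩
      · obtain ⟨a, ha⟩ := hS.single (h₁.isInfix.trans hM)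
          fun x hx => hpU x (List.mem_append_left _ hx)
        -- the second piece is a prefix of what is left of the shorter word
        have hp₂ : ∀ x ∈ U₂, ¬ Pr x.1 := fun x hx => hpU x (List.mem_append_right _ hx)
        rcases hsh with ⟨-, rfl⟩ | ⟨e₂, X₂, D₂, rest₂, R₂, T₂, m₂, m₃, hrest₂, hR₂, hV2⟩
        · exact ⟨U₂, a, 0, (h₂.isInfix.trans ⟨invRev C, [], by rw [hV₂']; simp⟩).trans hrest,
            by rw [← FreeGroup.mul_mk, ha]; simp⟩
        · have hCX : invRev C <+: X₂ := by
            refine List.prefix_of_prefix_length_le (l₃ := rest) ⟨rest', hrest'⟩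
              ⟨D₂ ++ (y', e₂) :: rest₂, by rw [hrest₂, List.append_assoc]⟩ ?_
            by_contra hlt
            push Not at hlt
            have : X₂ ++ [m₂] <+: invRev C :=
              List.prefix_of_prefix_length_le ⟨m₃ :: T₂, by rw [hV2]; simp⟩
                ⟨B, hV₂'.symm⟩ (by rw [List.length_append, List.length_singleton]; omega)
            obtain ⟨Q, hQ⟩ := this
            have h4 : X₂ ++ [m₂] <+: rest := (show X₂ ++ [m₂] <+: invRev C from ⟨Q, hQ⟩).trans
              ⟨rest', hrest'⟩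
            rw [hrest₂, List.append_assoc, List.prefix_append_right_inj] at h4
            rcases D₂ with _ | ⟨d, D₂⟩
            · simp only [List.nil_append, List.cons_prefix_cons] at h4
              have := hS.ny e₂ m₂ (hR₂ ▸ by simp)
              exact this (by rw [h4.1])
            · simp only [List.cons_append, List.cons_prefix_cons] at h4
              obtain rfl := h4.1
              have hn := (hS.nodup e₂)
              rw [hR₂] at hn
              simp [invRev, List.nodup_append] at hn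
          obtain ⟨X₃, hX₃⟩ := hCX
          obtain rfl : B = X₃ ++ m₂ :: m₃ :: T₂ := by
            rw [hV2, ← hX₃, List.append_assoc] at hV₂'
            exact (List.append_cancel_left hV₂').symm
          have hshape : Shape R y' (X₃ ++ m₂ :: m₃ :: T₂)
              (X₃ ++ D₂ ++ (y', e₂) :: rest₂) :=
            Or.inr ⟨e₂, X₃, D₂, rest₂, R₂, T₂, m₂, m₃, rfl, hR₂, rfl⟩
          obtain ⟨u, b, hu, he⟩ := hS.prefix_piece hshape h₂ hp₂
          refine ⟨u, a, b, (hu.isInfix.trans ⟨invRev C, [], ?_⟩).trans hrest,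
            by rw [← FreeGroup.mul_mk, ha, he]; group⟩
          rw [hrest₂, ← hX₃]; simp
    · obtain ⟨b, hb⟩ := hS.head_piece hRe (T := A' ++ B) (by simpa using h₂)
        fun x hx => hpU x (List.mem_append_right _ hx)
      exact ⟨U₁, 0, b, h₁.isInfix.trans ⟨[], D ++ (y', e) :: rest, by rw [hX]; simp⟩,
        by rw [← FreeGroup.mul_mk, hb]; simp⟩

end Vale.Agent.P189.WordCancel
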