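import Vale.Agent.P189.Group
import Vale.Agent.P189.WordCancel

/-!
The word problem of the lamp group: a nonempty reduced word that is trivial, or that equals a
lamp without being that lamp, contains all but one letter of a cell boundary.
-/

namespace Vale.Agent.P189

open WordCancel
open FreeGroup (IsReduced invRev)

variable {p : ℕ}

/-! ### Free families -/

/-- The shift of the letters. -/
def shiftAut : MulAut (FreeGroup ℤ) := FreeGroup.freeGroupCongr (Equiv.addRight 1)

/-- The shift as an action of `ℤ`. -/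
def shiftHom : Multiplicative ℤ →* MulAut (FreeGroup ℤ) := zpowersHom _ shiftAut

/-- The letters `a`, `b` sent to the shift and to the letter `0`. -/
def unfoldHom : F2 →* FreeGroup ℤ ⋊[shiftHom] Multiplicative ℤ :=
  FreeGroup.lift fun c =>
    cond c (SemidirectProduct.inl (FreeGroup.of 0)) (SemidirectProduct.inr (Multiplicative.ofAdd 1))

lemma shiftAut_pow_of (i : ℕ) (k : ℤ) :
    (shiftAut ^ i) (FreeGroup.of k) = FreeGroup.of (k + i) := by
  induction i with
  | zero => simp
  | succ i ih =>
    rw [pow_succ', MulAut.mul_apply, ih]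
    simp [shiftAut, add_assoc]

lemma unfoldHom_u (m j : Fin p) :
    unfoldHom (u m j) = SemidirectProduct.inl (FreeGroup.of ((finProdFinEquiv (m, j) : ℕ) : ℤ)) := by
  set i := (finProdFinEquiv (m, j) : ℕ) with hi
  have ha : unfoldHom (FreeGroup.of false ^ i) =
      SemidirectProduct.inr (Multiplicative.ofAdd (i : ℤ)) := by
    rw [map_pow, unfoldHom, FreeGroup.lift_apply_of, cond_false, ← map_pow, ← ofAdd_nsmul,
      nsmul_one]
  have hb : unfoldHom (FreeGroup.of true) = SemidirectProduct.inl (FreeGroup.of 0) := by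
    rw [unfoldHom, FreeGroup.lift_apply_of, cond_true]
  rw [u, ← hi, map_mul, map_mul, map_inv, ha, hb, ← map_inv, ← SemidirectProduct.inl_aut]
  congr 1
  rw [shiftHom, zpowersHom_apply, toAdd_ofAdd, zpow_natCast, shiftAut_pow_of, zero_add]

/-- The translations of the slots form a free family. -/
theorem u_free (p : ℕ) :
    Function.Injective (FreeGroup.lift fun i : Fin p × Fin p => u i.1 i.2) := by
  set code : Fin p × Fin p → ℤ := fun x => ((finProdFinEquiv x : ℕ) : ℤ) with hcode
  have hc : Function.Injective code := fun a b h =>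
    finProdFinEquiv.injective (Fin.val_injective (Nat.cast_injective (R := ℤ) h))
  have h : unfoldHom.comp (FreeGroup.lift fun i : Fin p × Fin p => u i.1 i.2) =
      SemidirectProduct.inl.comp (FreeGroup.map code) :=
    FreeGroup.ext_hom _ _ fun i => by simp [unfoldHom_u, hcode]
  intro x y hxy
  have hx := DFunLike.congr_fun h x
  have hy := DFunLike.congr_fun h y
  simp only [MonoidHom.comp_apply] at hx hy
  rw [hxy] at hx
  exact FreeGroup.map_injective hc (SemidirectProduct.inl_injective (hx.symm.trans hy))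

/-- The positions of the slots of a cell form a free family. -/
theorem q_free (p : ℕ) :
    Function.Injective (FreeGroup.lift fun i : Fin p × Fin p => q i.1 i.2) := by
  have h : (SemidirectProduct.rightHom).comp (FreeGroup.lift fun i : Fin p × Fin p => q i.1 i.2) =
      FreeGroup.lift fun i : Fin p × Fin p => u i.1 i.2 :=
    FreeGroup.ext_hom _ _ fun i => by simp [q]
  intro x y hxy
  have := DFunLike.congr_fun h x
  rw [MonoidHom.comp_apply, hxy] at this
  exact u_free p (this.symm.trans (DFunLike.congr_fun h y))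

/-! ### Cells -/

/-- The value of a word of lamps. -/
def eval (w : List (Lamp p × Bool)) : N p := PresentedGroup.mk _ (FreeGroup.mk w)

/-- The boundary word of a cell. -/
def bdry (l : Lamp p) : List (Lamp p × Bool) := (rhs l).map (·, true) ++ [(l, false)]

/-- The word contains all but one letter of a cell boundary, read either way. -/
def HasRun (w : List (Lamp p × Bool)) : Prop :=
  ∃ (l : Lamp p) (k : ℕ), ((bdry l).rotate k).take p <:+: w ∨
    invRev (((bdry l).rotate k).take p) <:+: w

namespace Word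

theorem length_bdry (l : Lamp p) : (bdry l).length = p + 1 := by simp [bdry, rhs]

theorem HasRun.mono {w v : List (Lamp p × Bool)} (h : HasRun w) (hwv : w <:+: v) : HasRun v := by
  obtain ⟨l, k, h | h⟩ := h
  · exact ⟨l, k, Or.inl (h.trans hwv)⟩
  · exact ⟨l, k, Or.inr (h.trans hwv)⟩

/-- The lamp in a slot of a cell; `none` is the slot of the head. -/
def slot (c : Lamp p) : Option (Fin p) → Lamp p
  | none => c
  | some j => (j, c.2 * u c.1 j)

theorem u_ne_one (m j : Fin p) : u m j ≠ 1 := fun h =>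
  FreeGroup.of_ne_one (m, j) (u_free p (by rw [map_one, FreeGroup.lift_apply_of]; exact h))

theorem slot_injective (c : Lamp p) : Function.Injective (slot c) := by
  rintro (_ | j) (_ | k) h
  · rfl
  · exact absurd (left_eq_mul.1 (congrArg Prod.snd h : c.2 = c.2 * u c.1 k)) (u_ne_one _ _)
  · exact absurd (mul_eq_left.1 (congrArg Prod.snd h : c.2 * u c.1 j = c.2)) (u_ne_one _ _)
  · exact congrArg some (congrArg Prod.fst h)

theorem map_fst_bdry (c : Lamp p) :
    (bdry c).map Prod.fst = ((List.finRange p).map some ++ [none]).map (slot c) := by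
  simp [bdry, rhs, slot, Function.comp_def]

theorem nodup_bdry (c : Lamp p) : ((bdry c).map Prod.fst).Nodup := by
  rw [map_fst_bdry]
  refine List.Nodup.map (slot_injective c) (List.nodup_append.2 ⟨?_, by simp, ?_⟩)
  · exact (List.nodup_finRange p).map (Option.some_injective _)
  · intro a ha b hb
    obtain ⟨j, -, rfl⟩ := List.mem_map.1 ha
    rw [List.mem_singleton] at hb
    simp [hb]

/-- The lamps of the cells of `S`. -/
def lets (S : Finset (Lamp p)) : Set (Lamp p) := {x | ∃ c ∈ S, ∃ s, slot c s = x}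

theorem mem_bdry_iff (c : Lamp p) (x : Lamp p) :
    x ∈ (bdry c).map Prod.fst ↔ ∃ s, slot c s = x := by
  rw [map_fst_bdry]
  constructor
  · intro h
    obtain ⟨s, -, rfl⟩ := List.mem_map.1 h
    exact ⟨s, rfl⟩
  · rintro ⟨s, rfl⟩
    refine List.mem_map_of_mem ?_
    cases s <;> simp

theorem lets_mono {S T : Finset (Lamp p)} (h : S ⊆ T) : lets S ⊆ lets T := by
  rintro x ⟨c, hc, hs⟩
  exact ⟨c, h hc, hs⟩

/-! ### The cells form a forest -/

/-- The slot word of a walk: reduced, with the value of the walk, and ending compatibly. -/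
def WalkWord (g₀ : F2) (c : Lamp p) (s : Option (Fin p)) (W : List ((Fin p × Fin p) × Bool)) :
    Prop :=
  IsReduced W ∧ c.2 = g₀ * FreeGroup.lift (fun i : Fin p × Fin p => u i.1 i.2) (FreeGroup.mk W) ∧
    ∀ x b, W.getLast? = some (x, b) →
      (b = false → ∃ j, s = some j ∧ x = (c.1, j)) ∧ (b = true → s = none ∧ x.2 = c.1)

theorem reduced_snoc {β : Type*} {W : List (β × Bool)} {a : β × Bool} (hW : IsReduced W)
    (h : ∀ b, W.getLast? = some b → b.1 = a.1 → b.2 = a.2) : IsReduced (W ++ [a]) := by
  rw [FreeGroup.IsReduced, List.isChain_append]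
  refine ⟨hW, List.isChain_singleton _, fun x hx y hy => ?_⟩
  simp only [List.head?_cons, Option.mem_some_iff] at hy
  subst hy
  exact h x hx

theorem walk_step {g₀ : F2} {c c' : Lamp p} {s o s' : Option (Fin p)}
    {W : List ((Fin p × Fin p) × Bool)} (hW : WalkWord g₀ c s W) (ho : o ≠ s) (hc : c' ≠ c)
    (hslot : slot c o = slot c' s') : ∃ W', WalkWord g₀ c' s' W' ∧ W' ≠ [] := by
  obtain ⟨hred, hval, hlast⟩ := hW
  rcases o with _ | j <;> rcases s' with _ | j'
  · exact absurd hslot.symm hc
  · obtain ⟨m', g'⟩ := c'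
    obtain ⟨m, g⟩ := c
    simp only [slot, Prod.mk.injEq] at hslot
    obtain ⟨rfl, hg⟩ := hslot
    refine ⟨W ++ [((m', m), false)], ⟨reduced_snoc hred ?_, ?_, ?_⟩, by simp⟩
    · rintro ⟨x, _ | _⟩ hb -
      · rfl
      · exact absurd ((hlast x _ hb).2 rfl).1.symm ho
    · simp only at hval hg ⊢
      rw [← FreeGroup.mul_mk, map_mul, show FreeGroup.mk [((m', m), false)] =
        (FreeGroup.of (m', m))⁻¹ from rfl, map_inv, FreeGroup.lift_apply_of, ← mul_assoc, ← hval,
        hg, mul_inv_cancel_right]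
    · intro x b hxb
      simp at hxb
      obtain ⟨rfl, rfl⟩ := hxb
      simp
  · obtain ⟨m', g'⟩ := c'
    obtain ⟨m, g⟩ := c
    simp only [slot, Prod.mk.injEq] at hslot
    obtain ⟨rfl, hg⟩ := hslot
    refine ⟨W ++ [((m, j), true)], ⟨reduced_snoc hred ?_, ?_, ?_⟩, by simp⟩
    · rintro ⟨x, _ | _⟩ hb hx
      · obtain ⟨i, hi, rfl⟩ := (hlast x _ hb).1 rfl
        simp only [Prod.mk.injEq, true_and] at hx
        exact absurd (hi.trans (congrArg some hx)).symm ho
      · rfl
    · simp only at hval hg ⊢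
      rw [← FreeGroup.mul_mk, map_mul, show FreeGroup.mk [((m, j), true)] = FreeGroup.of (m, j)
        from rfl, FreeGroup.lift_apply_of, ← mul_assoc, ← hval, hg]
    · intro x b hxb
      simp at hxb
      obtain ⟨rfl, rfl⟩ := hxb
      simp
  · obtain ⟨m', g'⟩ := c'
    obtain ⟨m, g⟩ := c
    simp only [slot, Prod.mk.injEq] at hslot
    obtain ⟨rfl, hg⟩ := hslot
    have hm : m' ≠ m := by
      rintro rfl
      exact hc (by rw [mul_right_cancel hg])
    refine ⟨(W ++ [((m, j), true)]) ++ [((m', j), false)],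
      ⟨reduced_snoc (reduced_snoc hred ?_) ?_, ?_, ?_⟩, by simp⟩
    · rintro ⟨x, _ | _⟩ hb hx
      · obtain ⟨i, hi, rfl⟩ := (hlast x _ hb).1 rfl
        simp only [Prod.mk.injEq, true_and] at hx
        exact absurd (hi.trans (congrArg some hx)).symm ho
      · rfl
    · intro b hb hb'
      simp at hb
      subst hb
      simp [eq_comm, hm] at hb'
    · simp only at hval hg ⊢
      rw [← FreeGroup.mul_mk, ← FreeGroup.mul_mk, map_mul, map_mul,
        show FreeGroup.mk [((m, j), true)] = FreeGroup.of (m, j) from rfl,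
        show FreeGroup.mk [((m', j), false)] = (FreeGroup.of (m', j))⁻¹ from rfl,
        map_inv, FreeGroup.lift_apply_of, FreeGroup.lift_apply_of, ← mul_assoc, ← mul_assoc,
        ← hval, hg, mul_inv_cancel_right]
    · intro x b hxb
      simp at hxb
      obtain ⟨rfl, rfl⟩ := hxb
      simp

/-- A finite nonempty set of cells has one that meets the others in at most one lamp. -/
theorem exists_leaf {S : Finset (Lamp p)} (hS : S.Nonempty) :
    ∃ c ∈ S, ∃ s₀, ∀ c' ∈ S, c' ≠ c → ∀ o s', slot c o = slot c' s' → o = s₀ := by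
  classical
  by_contra hcon
  push Not at hcon
  choose C' hC' hne O S' hslot hO using hcon
  let f : {c // c ∈ S} × Option (Fin p) → {c // c ∈ S} × Option (Fin p) :=
    fun x => (⟨C' x.1.1 x.1.2 x.2, hC' _ _ _⟩, S' x.1.1 x.1.2 x.2)
  obtain ⟨c₀, hc₀⟩ := hS
  let seq : ℕ → {c // c ∈ S} × Option (Fin p) := fun t => f^[t] (⟨c₀, hc₀⟩, none)
  obtain ⟨i, j, hij, heq⟩ := Finite.exists_ne_map_eq_of_infinite seq
  wlog hlt : i < j generalizing i j
  · exact this j i hij.symm heq.symm (by omega)
  have key : ∀ t, ∃ W, WalkWord (seq i).1.1.2 (seq (i + t)).1.1 (seq (i + t)).2 W ∧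
      (0 < t → W ≠ []) := by
    intro t
    induction t with
    | zero => exact ⟨[], ⟨FreeGroup.IsReduced.nil, by simp [← FreeGroup.one_eq_mk], by simp⟩,
        by simp⟩
    | succ t ih =>
      obtain ⟨W, hW, -⟩ := ih
      have hs : seq (i + (t + 1)) = f (seq (i + t)) := Function.iterate_succ_apply' f (i + t) _
      rw [hs]
      obtain ⟨W', hW', hne'⟩ := walk_step hW
        (hO _ (seq (i + t)).1.2 (seq (i + t)).2) (hne _ (seq (i + t)).1.2 (seq (i + t)).2)
        (hslot _ (seq (i + t)).1.2 (seq (i + t)).2)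
      exact ⟨W', hW', fun _ => hne'⟩
  obtain ⟨W, ⟨hred, hval, -⟩, hW⟩ := key (j - i)
  rw [show i + (j - i) = j by omega, ← heq, left_eq_mul] at hval
  have h1 : FreeGroup.mk W = 1 := u_free p (hval.trans (map_one _).symm)
  have h2 := congrArg FreeGroup.toWord h1
  rw [FreeGroup.toWord_mk, hred.reduce_eq, FreeGroup.toWord_one] at h2
  exact hW (by omega) h2

/-! ### Free products inside the free group -/

section free

variable {α : Type*} [DecidableEq α]

theorem toWord_mk_subset (L : List (α × Bool)) : (FreeGroup.mk L).toWord ⊆ L := by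
  rw [FreeGroup.toWord_mk]
  exact (FreeGroup.reduce.red (L := L)).sublist.subset

theorem toWord_mul_subset (x y : FreeGroup α) : (x * y).toWord ⊆ x.toWord ++ y.toWord := by
  conv_lhs => rw [← FreeGroup.mk_toWord (x := x), ← FreeGroup.mk_toWord (x := y), FreeGroup.mul_mk]
  exact toWord_mk_subset _

theorem letters_image (ψ : FreeGroup α →* FreeGroup α) (Pr : α → Prop)
    (h : ∀ l, ¬ Pr l → ∀ x ∈ (ψ (FreeGroup.of l)).toWord, ¬ Pr x.1) :
    ∀ L : List (α × Bool), (∀ x ∈ L, ¬ Pr x.1) → ∀ x ∈ (ψ (FreeGroup.mk L)).toWord, ¬ Pr x.1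
  | [], _, x, hx => by simp [← FreeGroup.one_eq_mk] at hx
  | a :: L, hL, x, hx => by
    rw [mk_cons, map_mul] at hx
    rcases List.mem_append.1 (toWord_mul_subset _ _ hx) with hx | hx
    · obtain ⟨l, _ | _⟩ := a
      · rw [show FreeGroup.mk [(l, false)] = (FreeGroup.of l)⁻¹ from rfl, map_inv,
          FreeGroup.toWord_inv] at hx
        simp only [invRev, List.mem_reverse, List.mem_map] at hx
        obtain ⟨y, hy, rfl⟩ := hx
        exact h l (hL _ List.mem_cons_self) y hy
      · exact h l (hL _ List.mem_cons_self) x hx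
    · exact letters_image ψ Pr h L (fun y hy => hL y (List.mem_cons_of_mem _ hy)) x hx

omit [DecidableEq α] in
theorem zpow_eq_mk (z : α) (k : ℤ) :
    ∃ L : List (α × Bool), (∀ x ∈ L, x.1 = z) ∧ FreeGroup.of z ^ k = FreeGroup.mk L := by
  induction k with
  | zero => exact ⟨[], by simp, by simp [← FreeGroup.one_eq_mk]⟩
  | succ n ih =>
    obtain ⟨L, hL, he⟩ := ih
    refine ⟨L ++ [(z, true)], ?_, by rw [zpow_add_one, he, ← FreeGroup.mul_mk]; rfl⟩
    intro x hx
    rcases List.mem_append.1 hx with hx | hx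
    · exact hL x hx
    · simp at hx; simp [hx]
  | pred n ih =>
    obtain ⟨L, hL, he⟩ := ih
    refine ⟨L ++ [(z, false)], ?_, by rw [zpow_sub_one, he, ← FreeGroup.mul_mk]; rfl⟩
    intro x hx
    rcases List.mem_append.1 hx with hx | hx
    · exact hL x hx
    · simp at hx; simp [hx]

/-- Images of pieces separated by fixed letters do not cancel. -/
theorem free_product (ψ : FreeGroup α →* FreeGroup α) (Pr : α → Prop)
    (hfix : ∀ x, Pr x → ψ (FreeGroup.of x) = FreeGroup.of x)
    (hlet : ∀ l, ¬ Pr l → ∀ x ∈ (ψ (FreeGroup.of l)).toWord, ¬ Pr x.1) :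
    ∀ V : List (α × Bool), IsReduced V →
    (∀ U, U <:+: V → (∀ x ∈ U, ¬ Pr x.1) → U ≠ [] → ψ (FreeGroup.mk U) ≠ 1) →
    (∀ x, Pr x.1 → ((ψ (FreeGroup.mk V)).toWord.head? = some x ↔ V.head? = some x)) ∧
      (∀ x ∈ V, Pr x.1 → x ∈ (ψ (FreeGroup.mk V)).toWord) ∧
      ((∀ x ∈ (ψ (FreeGroup.mk V)).toWord, Pr x.1) → (ψ (FreeGroup.mk V)).toWord = V) := by
  classical
  intro V
  induction hlen : V.length using Nat.strong_induction_on generalizing V with
  | _ n ih =>
  intro hred hseg
  rcases V with _ | ⟨a, V⟩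
  · simp [← FreeGroup.one_eq_mk]
  by_cases ha : Pr a.1
  · obtain ⟨h1, h2, h3⟩ := ih V.length (by simp at hlen; omega) V rfl
      (red_part hred (List.suffix_cons a V).isInfix)
      fun U hU => hseg U (hU.trans (List.suffix_cons a V).isInfix)
    set W := (ψ (FreeGroup.mk V)).toWord with hW
    have hhead : ψ (FreeGroup.mk (a :: V)) = FreeGroup.mk (a :: W) := by
      rw [mk_cons, map_mul, mk_cons a W, hW, FreeGroup.mk_toWord]
      congr 1
      obtain ⟨l, _ | _⟩ := a
      · rw [show FreeGroup.mk [(l, false)] = (FreeGroup.of l)⁻¹ from rfl, map_inv, hfix l ha]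
      · exact hfix l ha
    have hr : IsReduced (a :: W) := by
      rw [FreeGroup.IsReduced, List.isChain_cons]
      refine ⟨fun b hb heq => ?_, FreeGroup.isReduced_toWord⟩
      have hVb := (h1 b (heq ▸ ha)).1 hb
      obtain ⟨V', rfl⟩ : ∃ V', V = b :: V' := by
        rcases V with _ | ⟨c, V'⟩
        · simp at hVb
        · simp at hVb; exact ⟨V', by rw [hVb]⟩
      rw [FreeGroup.isReduced_cons_cons] at hred
      exact hred.1 heq
    have hword : (ψ (FreeGroup.mk (a :: V))).toWord = a :: W := by
      rw [hhead, FreeGroup.toWord_mk, hr.reduce_eq]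
    rw [hword]
    refine ⟨fun x hx => by simp, fun x hx hp => ?_, fun hall => ?_⟩
    · rcases List.mem_cons.1 hx with rfl | hx
      · exact List.mem_cons_self
      · exact List.mem_cons_of_mem _ (h2 x hx hp)
    · rw [h3 fun x hx => hall x (List.mem_cons_of_mem _ hx)]
  · set U := (a :: V).takeWhile (fun x => decide (¬ Pr x.1)) with hU
    set V' := (a :: V).dropWhile (fun x => decide (¬ Pr x.1)) with hV'
    have hsplit : a :: V = U ++ V' := List.takeWhile_append_dropWhile.symm
    have hUp : ∀ x ∈ U, ¬ Pr x.1 := fun x hx => by simpa using List.mem_takeWhile_imp hx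
    have hU0 : U ≠ [] := by simp [hU, ha]
    have hlt : V'.length < n := by
      have := congrArg List.length hsplit
      rw [List.length_append] at this
      have := List.length_pos_iff.2 hU0
      omega
    obtain ⟨h1, h2, h3⟩ := ih V'.length hlt V' rfl
      (red_part hred ⟨U, [], by rw [hsplit, List.append_nil]⟩)
      fun U' hU' => hseg U' (hU'.trans ⟨U, [], by rw [hsplit, List.append_nil]⟩)
    have hne := hseg U ⟨[], V', by rw [hsplit]; rfl⟩ hUp hU0
    set A := (ψ (FreeGroup.mk U)).toWord with hA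
    set W := (ψ (FreeGroup.mk V')).toWord with hW
    have hAp : ∀ x ∈ A, ¬ Pr x.1 := letters_image ψ Pr hlet U hUp
    have hA0 : A ≠ [] := fun h => hne (FreeGroup.toWord_eq_nil_iff.1 h)
    have hr : IsReduced (A ++ W) := by
      rw [FreeGroup.IsReduced, List.isChain_append]
      refine ⟨FreeGroup.isReduced_toWord, FreeGroup.isReduced_toWord, fun x hx y hy hxy => ?_⟩
      exfalso
      rcases hV'' : V' with _ | ⟨b, V''⟩
      · rw [hW, hV''] at hy
        simp [← FreeGroup.one_eq_mk] at hy
      · have hb : Pr b.1 := by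
          have := List.head?_dropWhile_not (fun x => decide (¬ Pr x.1)) (a :: V)
          rw [← hV', hV''] at this
          simpa using this
        have h5 : W.head? = some b := (h1 b hb).2 (by rw [hV'']; rfl)
        obtain rfl : b = y := Option.some_injective _ (h5.symm.trans hy)
        exact hAp x (List.mem_of_getLast? hx) (hxy ▸ hb)
    have hword : (ψ (FreeGroup.mk (a :: V))).toWord = A ++ W := by
      rw [hsplit, ← FreeGroup.mul_mk, map_mul, FreeGroup.toWord_mul, ← hA, ← hW, hr.reduce_eq]
    rw [hword]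
    refine ⟨fun x hx => ?_, fun x hx hp => ?_, fun hall => ?_⟩
    · constructor
      · intro h
        rw [List.head?_append_of_ne_nil _ hA0] at h
        exact absurd hx (hAp x (List.mem_of_head? h))
      · intro h
        simp at h
        exact absurd hx (h ▸ ha)
    · rw [hsplit] at hx
      rcases List.mem_append.1 hx with hx | hx
      · exact absurd hp (hUp x hx)
      · exact List.mem_append_right _ (h2 x hx hp)
    · obtain ⟨x, hx⟩ := List.exists_mem_of_ne_nil A hA0
      exact absurd (hall x (List.mem_append_left _ hx)) (hAp x hx)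

end free

/-! ### Finitely many cells -/

/-- The normal subgroup of the relations of finitely many cells. -/
def NS (S : Finset (Lamp p)) : Subgroup (FreeGroup (Lamp p)) :=
  Subgroup.normalClosure ((fun c => FreeGroup.mk (bdry c)) '' (S : Set (Lamp p)))

instance instNSNormal (S : Finset (Lamp p)) : (NS S).Normal := Subgroup.normalClosure_normal

theorem NS_mono {S T : Finset (Lamp p)} (h : S ⊆ T) : NS S ≤ NS T :=
  Subgroup.normalClosure_mono (Set.image_mono (by exact_mod_cast h))

/-- A retraction of the free group killing exactly the relations of `S`. -/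
structure Res (S : Finset (Lamp p)) (ψ : FreeGroup (Lamp p) →* FreeGroup (Lamp p)) : Prop where
  congr : ∀ x, QuotientGroup.mk' (NS S) (ψ x) = QuotientGroup.mk' (NS S) x
  kill : ∀ c ∈ S, ψ (FreeGroup.mk (bdry c)) = 1
  fix : ∀ l, l ∉ lets S → ψ (FreeGroup.of l) = FreeGroup.of l
  letters : ∀ l, ∀ x ∈ (ψ (FreeGroup.of l)).toWord, x.1 = l ∨ x.1 ∈ lets S

theorem Res.mem_iff {S : Finset (Lamp p)} {ψ : FreeGroup (Lamp p) →* FreeGroup (Lamp p)}
    (h : Res S ψ) (x : FreeGroup (Lamp p)) : x ∈ NS S ↔ ψ x = 1 := by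
  constructor
  · intro hx
    have : NS S ≤ ψ.ker := Subgroup.normalClosure_le_normal (by
      rintro _ ⟨c, hc, rfl⟩
      exact h.kill c hc)
    exact this hx
  · intro hx
    have := h.congr x
    rw [hx, map_one, eq_comm, QuotientGroup.mk'_apply, QuotientGroup.eq_one_iff] at this
    exact this

theorem run_of_rotated {c : Lamp p} {P : List (Lamp p × Bool)} {m : Lamp p × Bool}
    (h : (bdry c).IsRotated (P ++ [m])) : ∃ k, ((bdry c).rotate k).take p = P := by
  obtain ⟨k, hk⟩ := h
  refine ⟨k, ?_⟩
  have hl : P.length = p := by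
    have := congrArg List.length hk
    simp [length_bdry] at this
    omega
  rw [hk, List.take_append_of_le_length hl.ge, List.take_of_length_le hl.le]

/-- The induction over finite sets of cells. -/
theorem finite_cells (hp : 3 ≤ p) : ∀ S : Finset (Lamp p),
    (∃ ψ, Res S ψ) ∧ ∀ w : List (Lamp p × Bool), IsReduced w → ¬ HasRun w →
      ∀ (z : Lamp p) (k : ℤ), FreeGroup.mk w * (FreeGroup.of z ^ k)⁻¹ ∈ NS S →
        FreeGroup.mk w = FreeGroup.of z ^ k := by
  classical
  intro S
  induction hn : S.card using Nat.strong_induction_on generalizing S with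
  | _ n ih =>
  rcases S.eq_empty_or_nonempty with rfl | hne
  · refine ⟨⟨MonoidHom.id _, ⟨fun x => rfl, by simp, fun l _ => rfl, fun l x hx => ?_⟩⟩,
      fun w _ _ z k h => ?_⟩
    · rw [MonoidHom.id_apply, FreeGroup.toWord_of, List.mem_singleton] at hx
      exact Or.inl (by rw [hx])
    · have hbot : NS (∅ : Finset (Lamp p)) = ⊥ := by
        rw [NS, eq_bot_iff]
        exact Subgroup.normalClosure_le_normal (by simp)
      rw [hbot, Subgroup.mem_bot, mul_inv_eq_one] at h
      exact h
  obtain ⟨c, hc, s₀, hleaf⟩ := exists_leaf hne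
  set S' := S.erase c with hS'
  have hsub : S' ⊆ S := S.erase_subset c
  obtain ⟨⟨ψ, hψ⟩, hcore⟩ := ih S'.card (hn ▸ Finset.card_erase_lt_of_mem hc) S' rfl
  set z₀ := slot c s₀ with hz₀
  -- any lamp of `c` other than the shared one can be eliminated
  suffices H : ∀ sy, sy ≠ s₀ → (∃ ψ, Res S ψ) ∧ ∀ w : List (Lamp p × Bool), IsReduced w →
      ¬ HasRun w → ∀ (z : Lamp p) (k : ℤ), z ≠ slot c sy →
        FreeGroup.mk w * (FreeGroup.of z ^ k)⁻¹ ∈ NS S →
        FreeGroup.mk w = FreeGroup.of z ^ k by
    obtain ⟨a, b, hab, ha, hb⟩ : ∃ a b : Option (Fin p), a ≠ b ∧ a ≠ s₀ ∧ b ≠ s₀ := by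
      rcases s₀ with _ | j
      · exact ⟨some ⟨0, by omega⟩, some ⟨1, by omega⟩, by simp, by simp, by simp⟩
      · by_cases hj : j = ⟨0, by omega⟩
        · exact ⟨none, some ⟨1, by omega⟩, by simp, by simp, by simp [hj]⟩
        · exact ⟨none, some ⟨0, by omega⟩, by simp, by simp, by simpa using Ne.symm hj⟩
    refine ⟨(H a ha).1, fun w hw hwrun z k => ?_⟩
    by_cases hz : z = slot c a
    · exact (H b hb).2 w hw hwrun z k fun h => hab (slot_injective c (hz.symm.trans h))
    · exact (H a ha).2 w hw hwrun z k hz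
  intro sy hsy
  set y := slot c sy with hy
  have hprivate : ∀ x, (∃ s, slot c s = x) → x ≠ z₀ → x ∉ lets S' := by
    rintro x ⟨o, rfl⟩ hx ⟨c', hc', s', hs'⟩
    obtain ⟨hne', hcS⟩ := Finset.mem_erase.1 hc'
    exact hx (congrArg (slot c) (hleaf c' hcS hne' o s' hs'.symm))
  have hyz : y ≠ z₀ := fun h => hsy (slot_injective c h)
  have hyS : y ∉ lets S' := hprivate y ⟨sy, rfl⟩ hyz
  obtain ⟨⟨y', ey⟩, hymem, hy'⟩ := List.mem_map.1 ((mem_bdry_iff c y).2 ⟨sy, rfl⟩)
  obtain rfl : y' = y := hy'
  obtain ⟨B₁, B₂, hB⟩ := List.append_of_mem hymem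
  set R₀ := B₂ ++ B₁ with hR₀
  have hrot : (bdry c).IsRotated ((y, ey) :: R₀) := by
    rw [hB, hR₀]; exact List.isRotated_append
  have hnd : (((y, ey) :: R₀).map Prod.fst).Nodup :=
    (hrot.map Prod.fst).nodup_iff.1 (nodup_bdry c)
  rw [List.map_cons, List.nodup_cons] at hnd
  have hlen : R₀.length = p := by
    have := hrot.perm.length_eq
    rw [length_bdry, List.length_cons] at this
    omega
  set R : Bool → List (Lamp p × Bool) := fun e => if e = ey then invRev R₀ else R₀ with hR
  set σ : FreeGroup (Lamp p) →* FreeGroup (Lamp p) :=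
    FreeGroup.lift fun x => if x = y then FreeGroup.mk (R true) else FreeGroup.of x with hσ
  set Pr : Lamp p → Prop := fun x => (∃ s, slot c s = x) ∧ x ≠ y ∧ x ≠ z₀ with hPr
  have hmemR : ∀ e, ∀ x ∈ R e, (∃ s, slot c s = x.1) ∧ x.1 ≠ y := by
    have h0 : ∀ a ∈ R₀.map Prod.fst, (∃ s, slot c s = a) ∧ a ≠ y := fun a ha =>
      ⟨(mem_bdry_iff c a).1 ((hrot.map Prod.fst).mem_iff.2 (List.mem_cons_of_mem _ ha)),
        fun h => hnd.1 (h ▸ ha)⟩
    intro e x hx
    refine h0 x.1 ?_
    simp only [hR] at hx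
    split_ifs at hx
    · simp only [invRev, List.mem_reverse, List.mem_map] at hx ⊢
      obtain ⟨a, ha, rfl⟩ := hx
      exact ⟨a, ha, rfl⟩
    · exact List.mem_map_of_mem hx
  have hinv : ∀ e, R (!e) = invRev (R e) := by
    intro e
    cases e <;> cases ey <;> simp [hR, FreeGroup.invRev_invRev]
  have hsetup : Setup p y z₀ R Pr σ :=
    { inv := hinv
      nodup := fun e => by
        simp only [hR]
        split_ifs
        · simp only [invRev, List.map_reverse, List.map_map, List.nodup_reverse]
          exact hnd.2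
        · exact hnd.2
      len := fun e => by simp only [hR]; split_ifs <;> simp [hlen]
      ny := fun e x hx => (hmemR e x hx).2
      split := fun e x hx => by
        by_cases hz : x.1 = z₀
        · exact Or.inr hz
        · exact Or.inl ⟨(hmemR e x hx).1, (hmemR e x hx).2, hz⟩
      fix := fun x hx => by simp [hσ, hx]
      subst := fun e => by
        cases e
        · rw [show FreeGroup.mk [(y, false)] = (FreeGroup.of y)⁻¹ from rfl, map_inv, hσ,
            FreeGroup.lift_apply_of, if_pos rfl, FreeGroup.inv_mk]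
          exact congrArg FreeGroup.mk (hinv true).symm
        · rw [show FreeGroup.mk [(y, true)] = FreeGroup.of y from rfl, hσ,
            FreeGroup.lift_apply_of, if_pos rfl] }
  have hrun : ∀ w, ¬ HasRun w → ∀ e A m C, R e = A ++ m :: C →
      ¬ (invRev A ++ (y, e) :: invRev C <:+: w) := by
    intro w hw e A m C hRe hinf
    apply hw
    by_cases he : e = ey
    · have h0 : R₀ = invRev C ++ (m.1, !m.2) :: invRev A := by
        have : invRev (R e) = R₀ := by simp [hR, he, FreeGroup.invRev_invRev]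
        rw [← this, hRe, show A ++ m :: C = A ++ [m] ++ C by simp, invRev_append', invRev_append']
        simp [invRev]
      obtain ⟨k, hk⟩ := run_of_rotated (c := c) (P := invRev A ++ (y, ey) :: invRev C)
        (m := (m.1, !m.2)) (hrot.trans (by
          rw [h0]
          have := List.isRotated_append (l := (y, ey) :: (invRev C ++ [(m.1, !m.2)]))
            (l' := invRev A)
          simpa using this))
      exact ⟨c, k, Or.inl (by rw [hk]; exact he ▸ hinf)⟩
    · have hey : ey = !e := by cases e <;> cases ey <;> simp_all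
      have h0 : R₀ = A ++ m :: C := by rw [← hRe]; simp [hR, he]
      obtain ⟨k, hk⟩ := run_of_rotated (c := c) (P := C ++ (y, ey) :: A) (m := m) (hrot.trans (by
        rw [h0]
        have := List.isRotated_append (l := (y, ey) :: (A ++ [m])) (l' := C)
        simpa using this))
      refine ⟨c, k, Or.inr ?_⟩
      rw [hk, invRev_append', show (y, ey) :: A = [(y, ey)] ++ A from rfl, invRev_append']
      simpa [invRev, hey] using hinf
  have hσc : σ (FreeGroup.mk (bdry c)) = 1 := by
    have h1 : ∀ x ∈ B₁ ++ B₂, x.1 ≠ y := fun x hx h => hnd.1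
      (h ▸ List.mem_map_of_mem (f := Prod.fst) (List.perm_append_comm.mem_iff.1 hx) :)
    rw [hB, ← FreeGroup.mul_mk, mk_cons (y, ey), map_mul, map_mul, hsetup.subst,
      hsetup.fix_mk B₁ fun x hx => h1 x (List.mem_append_left _ hx),
      hsetup.fix_mk B₂ fun x hx => h1 x (List.mem_append_right _ hx)]
    simp only [hR, if_true, hR₀, ← FreeGroup.inv_mk, ← FreeGroup.mul_mk]
    group
  have hσq : ∀ x, QuotientGroup.mk' (NS S) (σ x) = QuotientGroup.mk' (NS S) x := by
    set π := QuotientGroup.mk' (NS S) with hπ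
    have hrel : π (FreeGroup.mk B₁) * π (FreeGroup.mk [(y, ey)]) * π (FreeGroup.mk B₂) = 1 := by
      rw [← map_mul, ← map_mul, mul_assoc, ← mk_cons, FreeGroup.mul_mk, ← hB, hπ,
        QuotientGroup.mk'_apply, QuotientGroup.eq_one_iff]
      exact Subgroup.subset_normalClosure ⟨c, Finset.mem_coe.2 hc, rfl⟩
    have hey : π (FreeGroup.mk (R ey)) = π (FreeGroup.mk [(y, ey)]) := by
      simp only [hR, if_true, hR₀, ← FreeGroup.inv_mk, ← FreeGroup.mul_mk, map_inv, map_mul]
      rw [mul_inv_rev]
      rw [mul_assoc] at hrel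
      have h2 := eq_inv_of_mul_eq_one_right hrel
      rw [← h2, mul_inv_cancel_right]
    have htrue : π (FreeGroup.mk (R true)) = π (FreeGroup.of y) := by
      cases ey
      · have h2 := congrArg (·⁻¹) hey
        simp only [← map_inv, FreeGroup.inv_mk, ← hinv] at h2
        exact h2
      · exact hey
    have : π.comp σ = π := FreeGroup.ext_hom _ _ fun x => by
      by_cases hx : x = y
      · rw [MonoidHom.comp_apply, hσ, FreeGroup.lift_apply_of, if_pos hx, htrue, hx]
      · rw [MonoidHom.comp_apply, hsetup.fix x hx]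
    exact fun x => DFunLike.congr_fun this x
  have hψfix : ∀ x, Pr x → ψ (FreeGroup.of x) = FreeGroup.of x := fun x hx =>
    hψ.fix x (hprivate x hx.1 hx.2.2)
  have hψlet : ∀ l, ¬ Pr l → ∀ x ∈ (ψ (FreeGroup.of l)).toWord, ¬ Pr x.1 := by
    intro l hl x hx hpx
    rcases hψ.letters l x hx with h | h
    · exact hl (h ▸ hpx)
    · exact hprivate x.1 hpx.1 hpx.2.2 h
  -- the retraction for `S`
  have hres : Res S (ψ.comp σ) := by
    refine ⟨fun x => ?_, fun c' hc' => ?_, fun l hl => ?_, fun l x hx => ?_⟩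
    · rw [MonoidHom.comp_apply, ← hσq x, QuotientGroup.mk'_apply, QuotientGroup.mk'_apply,
        QuotientGroup.eq]
      have := hψ.congr (σ x)
      rw [QuotientGroup.mk'_apply, QuotientGroup.mk'_apply, QuotientGroup.eq] at this
      exact NS_mono hsub this
    · rcases eq_or_ne c' c with rfl | hne'
      · rw [MonoidHom.comp_apply, hσc, map_one]
      · have hc'' : c' ∈ S' := Finset.mem_erase.2 ⟨hne', hc'⟩
        rw [MonoidHom.comp_apply, hsetup.fix_mk _ fun x hx h => hyS ⟨c', hc'',
          (mem_bdry_iff c' y).1 (h ▸ List.mem_map_of_mem hx)⟩]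
        exact hψ.kill c' hc''
    · have hly : l ≠ y := fun h => hl ⟨c, hc, sy, h.symm⟩
      rw [MonoidHom.comp_apply, hsetup.fix l hly]
      exact hψ.fix l fun h => hl (lets_mono hsub h)
    · rw [MonoidHom.comp_apply] at hx
      by_cases hly : l = y
      · subst hly
        rw [hσ, FreeGroup.lift_apply_of, if_pos rfl] at hx
        right
        by_contra hns
        refine letters_image ψ (fun a => a ∉ lets S) (fun a ha b hb hbn => ?_) (R true)
          (fun a ha hn' => hn' ⟨c, hc, (hmemR true a ha).1⟩) x hx hns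
        rcases hψ.letters a b hb with h | h
        · exact ha (h ▸ hbn)
        · exact hbn (lets_mono hsub h)
      · rw [hsetup.fix l hly] at hx
        exact (hψ.letters l x hx).imp id fun h => lets_mono hsub h
  refine ⟨⟨_, hres⟩, fun w hw hwrun z k hzy hmem => ?_⟩
  rw [hres.mem_iff, MonoidHom.comp_apply, map_mul, map_inv, map_mul, map_inv, map_zpow, map_zpow,
    mul_inv_eq_one] at hmem
  obtain ⟨V, hV, hσw, hVy, hshape, hgood⟩ := hsetup.main (by omega) w hw (hrun w hwrun)
  have hseg : ∀ U, U <:+: V → (∀ x ∈ U, ¬ Pr x.1) → U ≠ [] → ψ (FreeGroup.mk U) ≠ 1 := by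
    intro U hU hUp hU0 h1
    obtain ⟨u', a, b, hu, he⟩ := hgood U hU hUp
    have := hcore u' (red_part hw hu) (fun h => hwrun (HasRun.mono h hu)) z₀ (-a - b)
    rw [hψ.mem_iff] at this
    have h3 : FreeGroup.mk u' = FreeGroup.of z₀ ^ (-a - b) := this (by
      rw [he, map_mul, map_mul, map_zpow, map_zpow] at h1
      rw [map_mul, map_inv, map_zpow, mul_inv_eq_one, eq_inv_mul_of_mul_eq (eq_inv_of_mul_eq_one_left h1),
        ← zpow_neg, ← zpow_neg, ← zpow_add, ← sub_eq_add_neg])
    have h2 : FreeGroup.mk U = 1 := by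
      rw [he, h3, ← zpow_add, ← zpow_add, show a + (-a - b) + b = 0 by ring, zpow_zero]
    have := congrArg FreeGroup.toWord h2
    rw [FreeGroup.toWord_mk, (red_part hV hU).reduce_eq, FreeGroup.toWord_one] at this
    exact hU0 this
  obtain ⟨-, hmemW, hallW⟩ := free_product ψ Pr hψfix hψlet V hV hseg
  rw [hσw] at hmem
  by_cases hny : ∀ x ∈ w, x.1 ≠ y
  · have hVw : V = w := by
      rcases hshape with ⟨-, h⟩ | ⟨e, X, D, rest, R', T, m₀, m₁, hw', -, -⟩
      · exact h
      · exact absurd rfl (hny (y, e) (hw' ▸ by simp))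
    refine hcore w hw hwrun z k ?_
    rw [hψ.mem_iff, map_mul, map_inv, map_zpow, mul_inv_eq_one]
    rw [hsetup.fix z hzy] at hmem
    rw [← hVw]; exact hmem
  · exfalso
    rcases hshape with ⟨h, -⟩ | ⟨e, X, D, rest, R', T, m₀, m₁, -, hRe, hVeq⟩
    · exact hny h
    have hne01 : m₀.1 ≠ m₁.1 := by
      have := hsetup.nodup e
      rw [hRe] at this
      simp [List.nodup_append] at this
      tauto
    have hm₀ : m₀ ∈ R e := hRe ▸ by simp
    have hm₁ : m₁ ∈ R e := hRe ▸ by simp
    obtain ⟨L, hL, hLk⟩ := zpow_eq_mk z k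
    rw [hsetup.fix z hzy, ← map_zpow, hLk] at hmem
    by_cases hz : Pr z
    · have hzz : ψ (FreeGroup.mk L) = FreeGroup.mk L := by
        rw [← hLk, map_zpow, hψfix z hz]
      have hall : ∀ x ∈ (ψ (FreeGroup.mk V)).toWord, x.1 = z := by
        intro x hx
        rw [hmem, hzz] at hx
        exact hL x (toWord_mk_subset L hx)
      have hWV := hallW fun x hx => (hall x hx).symm ▸ hz
      rw [hWV] at hall
      exact hne01 ((hall m₀ (hVeq ▸ by simp)).trans (hall m₁ (hVeq ▸ by simp)).symm)
    · have hnone : ∀ x ∈ (ψ (FreeGroup.mk V)).toWord, ¬ Pr x.1 := by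
        rw [hmem]
        exact letters_image ψ Pr hψlet L fun x hx => (hL x hx).symm ▸ hz
      rcases hsetup.split e m₀ hm₀ with h | h
      · exact hnone m₀ (hmemW m₀ (hVeq ▸ by simp) h) h
      · rcases hsetup.split e m₁ hm₁ with h' | h'
        · exact hnone m₁ (hmemW m₁ (hVeq ▸ by simp) h') h'
        · exact hne01 (h.trans h'.symm)

theorem eval_eq_one_iff (x : FreeGroup (Lamp p)) :
    PresentedGroup.mk (Set.range (relator (p := p))) x = 1 → ∃ S, x ∈ NS S := by
  classical
  intro hx
  let K : Subgroup (FreeGroup (Lamp p)) :=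
    { carrier := {v | ∃ S, v ∈ NS S}
      one_mem' := ⟨∅, one_mem _⟩
      mul_mem' := by
        rintro a b ⟨S, ha⟩ ⟨T, hb⟩
        exact ⟨S ∪ T, mul_mem (NS_mono Finset.subset_union_left ha)
          (NS_mono Finset.subset_union_right hb)⟩
      inv_mem' := by
        rintro a ⟨S, ha⟩
        exact ⟨S, inv_mem ha⟩ }
  have : K.Normal := ⟨fun v ⟨S, hv⟩ g => ⟨S, (instNSNormal S).conj_mem v hv g⟩⟩
  have hle : Subgroup.normalClosure (Set.range (relator (p := p))) ≤ K := by
    refine Subgroup.normalClosure_le_normal ?_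
    rintro r ⟨l, rfl⟩
    refine ⟨{l}, ?_⟩
    have h : FreeGroup.mk (bdry l) ∈ NS {l} :=
      Subgroup.subset_normalClosure ⟨l, by simp, rfl⟩
    have h' := (instNSNormal {l}).conj_mem _ h (FreeGroup.of l)⁻¹
    have hprod : ∀ L : List (Lamp p),
        (L.map FreeGroup.of).prod = FreeGroup.mk (L.map fun y => (y, true)) := by
      intro L
      induction L with
      | nil => rfl
      | cons a L ih => rw [List.map_cons, List.prod_cons, ih, FreeGroup.of, FreeGroup.mul_mk]; rfl
    have he : (FreeGroup.of l)⁻¹ * FreeGroup.mk (bdry l) * (FreeGroup.of l)⁻¹⁻¹ = relator l := by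
      rw [relator, bdry, ← FreeGroup.mul_mk, ← hprod,
        show FreeGroup.mk [(l, false)] = (FreeGroup.of l)⁻¹ from rfl]
      group
    exact he ▸ h'
  exact hle (PresentedGroup.mk_eq_one_iff.1 hx)

end Word

open Word

/-- A nonempty reduced word with trivial value contains a run. -/
theorem exists_run (hp : 3 ≤ p) (w : List (Lamp p × Bool)) (hw : FreeGroup.IsReduced w)
    (h : eval w = 1) (hne : w ≠ []) : HasRun w := by
  classical
  by_contra hrun
  obtain ⟨S, hS⟩ := eval_eq_one_iff _ h
  have := (finite_cells hp S).2 w hw hrun (⟨0, by omega⟩, 1) 0 (by simpa using hS)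
  rw [zpow_zero] at this
  have := congrArg FreeGroup.toWord this
  rw [FreeGroup.toWord_mk, hw.reduce_eq, FreeGroup.toWord_one] at this
  exact hne this

/-- A reduced word with the value of a lamp is that lamp or contains a run. -/
theorem eq_lamp_or_run (hp : 3 ≤ p) (w : List (Lamp p × Bool)) (hw : FreeGroup.IsReduced w)
    (l : Lamp p) (h : eval w = lamp l) : w = [(l, true)] ∨ HasRun w := by
  classical
  refine or_iff_not_imp_right.2 fun hrun => ?_
  obtain ⟨S, hS⟩ := eval_eq_one_iff (FreeGroup.mk w * (FreeGroup.of l)⁻¹)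
    (by rw [map_mul, map_inv, mul_inv_eq_one]; exact h)
  have := (finite_cells hp S).2 w hw hrun l 1 (by simpa using hS)
  rw [zpow_one] at this
  have := congrArg FreeGroup.toWord this
  rwa [FreeGroup.toWord_mk, hw.reduce_eq, FreeGroup.toWord_of] at this

end Vale.Agent.P189
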