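import Vale.Agent.P189.Cells
import Vale.Agent.P189.Word

/-!
The full closure: with every candidate selected, each lamp edge joins two marked nodes at some
stage, since a shortest walk between the marked nodes at its ends has a word without a run.
-/

namespace Vale.Agent.P189

open MeasureTheory Function Filter
open FreeGroup (invRev)
open scoped ENNReal

variable {p : ℕ} {S0 : Type}

/-- A step crosses an edge, forwards if the flag is true. -/
abbrev Step (p : ℕ) (S0 : Type) : Type := CEdge p S0 × Bool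

/-- The letter read on a step. -/
def letter (s : Step p S0) : Lamp p × Bool := ((s.1.2.1, s.1.1.right), s.2)

/-- A walk through the steps `w`, for given edges and a given node relation. -/
def LampWalk (E : CEdge p S0 → Prop) (R : CEnd p S0 → CEnd p S0 → Prop) :
    CEnd p S0 → List (Step p S0) → CEnd p S0 → Prop
  | a, [], c => R a c
  | a, s :: w, c => E s.1 ∧ R a (en s.1 (!s.2)) ∧ LampWalk E R (en s.1 s.2) w c

namespace LampWalk

variable {E : CEdge p S0 → Prop} {R : CEnd p S0 → CEnd p S0 → Prop}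

lemma left (hR : Equivalence R) {a a' c : CEnd p S0} (h : R a' a) :
    ∀ {w : List (Step p S0)}, LampWalk E R a w c → LampWalk E R a' w c
  | [], hw => hR.trans h hw
  | _ :: _, ⟨h1, h2, h3⟩ => ⟨h1, hR.trans h h2, h3⟩

lemma append (hR : Equivalence R) :
    ∀ {u v : List (Step p S0)} {a b c : CEnd p S0}, LampWalk E R a u b → LampWalk E R b v c →
      LampWalk E R a (u ++ v) c
  | [], _, _, _, _, h, h' => left hR h h'
  | _ :: _, _, _, _, _, ⟨h1, h2, h3⟩, h' => ⟨h1, h2, append hR h3 h'⟩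

lemma split (hR : Equivalence R) :
    ∀ {u v : List (Step p S0)} {a c : CEnd p S0}, LampWalk E R a (u ++ v) c →
      ∃ b, LampWalk E R a u b ∧ LampWalk E R b v c
  | [], _, a, _, h => ⟨a, hR.refl a, h⟩
  | _ :: _, _, _, _, ⟨h1, h2, h3⟩ =>
    let ⟨b, h4, h5⟩ := split hR h3
    ⟨b, ⟨h1, h2, h4⟩, h5⟩

lemma rev (hR : Equivalence R) :
    ∀ {w : List (Step p S0)} {a c : CEnd p S0}, LampWalk E R a w c →
      ∃ w', LampWalk E R c w' a ∧ w'.map letter = invRev (w.map letter)
  | [], _, _, h => ⟨[], hR.symm h, rfl⟩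
  | s :: w, a, c, ⟨h1, h2, h3⟩ => by
    obtain ⟨w', hw', hl⟩ := rev hR h3
    refine ⟨w' ++ [(s.1, !s.2)],
      append hR hw' ⟨h1, ?_, hR.symm h2⟩, ?_⟩
    · simpa using hR.refl _
    · rw [List.map_append, hl]
      simp [invRev, letter]

end LampWalk

lemma eval_cons (a : Lamp p × Bool) (w : List (Lamp p × Bool)) :
    eval (a :: w) = cond a.2 (lamp a.1) (lamp a.1)⁻¹ * eval w := by
  obtain ⟨l, _ | _⟩ := a
  · show PresentedGroup.mk _ _ = _
    rw [show (l, false) :: w = [(l, false)] ++ w from rfl, ← FreeGroup.mul_mk, map_mul]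
    rfl
  · show PresentedGroup.mk _ _ = _
    rw [show (l, true) :: w = [(l, true)] ++ w from rfl, ← FreeGroup.mul_mk, map_mul]
    rfl

lemma pos_step (s : Step p S0) :
    pos (en s.1 s.2) = pos (en s.1 (!s.2)) * cond s.2 (lamp (letter s).1) (lamp (letter s).1)⁻¹ := by
  obtain ⟨e, b⟩ := s
  cases b <;> simp [pos_en, img, ipos_false, ipos_true, letter, mul_assoc]

/-- Edges with the same lamp and the same position of one end lie over the same edge. -/
lemma img_eq_of {y y' : G p × Fin p} {b : Bool} (h2 : y.2 = y'.2) (hr : y.1.right = y'.1.right)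
    (h : ipos y b = ipos y' b) : y = y' := by
  refine Prod.ext (SemidirectProduct.ext ?_ hr) h2
  cases b
  · exact h
  · rw [ipos_true, ipos_true, h2, hr] at h
    exact mul_right_cancel h

/-- The letter of a slot of a cell. -/
def slotLetter (C : G p × Fin p) (j : Fin (p + 1)) : Lamp p × Bool :=
  (((slotImg C j).2, (slotImg C j).1.right), orient j)

lemma bdry_getElem (C : G p × Fin p) (j : Fin (p + 1)) :
    (bdry (C.2, C.1.right))[(j : ℕ)]'(by rw [Word.length_bdry]; exact j.2) = slotLetter C j := by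
  by_cases hj : (j : ℕ) < p
  · simp [bdry, rhs, hj, slotLetter, slotImg, orient, q_right]
  · simp [bdry, rhs, List.getElem_append, hj, slotLetter, slotImg, orient]

variable [Countable S0] {Ψ : Gph (G p) (Fin p × S0)} {x : Lab (G p)}

/-- The edges of the full closure. -/
def allE (Ψ : Gph (G p) (Fin p × S0)) (x : Lab (G p)) (e : CEdge p S0) : Prop :=
  ∃ n, e ∈ (stage Ψ x (fun _ => 2) n).Z.E

/-- The node relation of the full closure. -/
def allR (Ψ : Gph (G p) (Fin p × S0)) (x : Lab (G p)) (a b : CEnd p S0) : Prop :=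
  ∃ n, (stage Ψ x (fun _ => 2) n).Z.R a b

lemma allR_eqv : Equivalence (allR Ψ x) :=
  ⟨fun a => ⟨0, (stage_eqv 0).refl a⟩, fun ⟨n, h⟩ => ⟨n, (stage_eqv n).symm h⟩,
    fun ⟨n, h⟩ ⟨m, h'⟩ => ⟨max n m, (stage_eqv _).trans (stage_R_mono (le_max_left n m) h)
      (stage_R_mono (le_max_right n m) h')⟩⟩

lemma allR_pos (hΨ : OldOK Ψ) {a b : CEnd p S0} (h : allR Ψ x a b) : pos a = pos b :=
  stage_R_pos hΨ h.choose h.choose_spec

lemma allR_fold {e e' : CEdge p S0} {b : Bool} (he : allE Ψ x e) (he' : allE Ψ x e')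
    (hi : img e = img e') (h : allR Ψ x (en e b) (en e' b)) :
    allR Ψ x (en e (!b)) (en e' (!b)) := by
  obtain ⟨n, hn⟩ := he
  obtain ⟨m, hm⟩ := he'
  obtain ⟨k, hk⟩ := h
  exact ⟨max n (max m k), stage_fold _ (stage_E_mono (by omega) hn) (stage_E_mono (by omega) hm) hi
    (stage_R_mono (by omega) hk)⟩

lemma walk_pos (hΨ : OldOK Ψ) : ∀ {w : List (Step p S0)} {a c : CEnd p S0},
    LampWalk (allE Ψ x) (allR Ψ x) a w c → pos c = pos a * eval (w.map letter)
  | [], a, c, h => by
    have : eval ([] : List (Lamp p × Bool)) = 1 := map_one _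
    rw [List.map_nil, this, mul_one]
    exact (allR_pos hΨ h).symm
  | s :: w, a, c, ⟨_, h2, h3⟩ => by
    rw [walk_pos hΨ h3, List.map_cons, eval_cons, ← mul_assoc, pos_step s, allR_pos hΨ h2]
    rfl

lemma walk_of_link {a b : End (G p) (Fin p × S0)} (h : Ψ.Link a b) :
    ∃ w, LampWalk (allE Ψ x) (allR Ψ x) (embEnd a) w (embEnd b) := by
  have hR := allR_eqv (Ψ := Ψ) (x := x)
  induction h with
  | rel a b hab =>
    obtain ⟨ha, hb, hr | he⟩ := hab
    · exact ⟨[], 0, FoldRel.base (Relation.EqvGen.rel _ _ ⟨a, b, rfl, rfl, ha, hb, hr⟩)⟩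
    · rcases eq_or_ne (side a) (side b) with hs | hs
      · refine ⟨[], ?_⟩
        rw [show embEnd a = embEnd b by simp [embEnd, he, hs]]
        exact hR.refl _
      · refine ⟨[(emb (edge b), side b)], ⟨0, edge b, hb, rfl⟩, ?_, hR.refl _⟩
        rw [show embEnd a = en (emb (edge b)) (!side b) by
          simp [embEnd, he, Bool.eq_not.2 hs]]
        exact hR.refl _
  | refl a => exact ⟨[], hR.refl _⟩
  | symm a b _ ih =>
    obtain ⟨w, hw⟩ := ih
    obtain ⟨w', hw', -⟩ := hw.rev hR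
    exact ⟨w', hw'⟩
  | trans a b c _ _ ih₁ ih₂ => exact ⟨_, ih₁.choose_spec.append hR ih₂.choose_spec⟩

/-- A walk whose word is not reduced can be shortened. -/
lemma walk_shorten_pair (hΨ : OldOK Ψ) : ∀ {w : List (Step p S0)} {a c : CEnd p S0},
    LampWalk (allE Ψ x) (allR Ψ x) a w c → ¬FreeGroup.IsReduced (w.map letter) →
      ∃ w', LampWalk (allE Ψ x) (allR Ψ x) a w' c ∧ w'.length < w.length
  | [], _, _, _, h => absurd (by simp) h
  | [_], _, _, _, h => absurd (by simp [FreeGroup.IsReduced]) h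
  | s :: s' :: w, a, c, ⟨h1, h2, h3⟩, h => by
    by_cases hpair : (letter s).1 = (letter s').1 → s.2 = s'.2
    · have h' : ¬FreeGroup.IsReduced ((s' :: w).map letter) := fun hr => h (by
        simp only [List.map_cons, FreeGroup.IsReduced, List.isChain_cons_cons] at hr ⊢
        exact ⟨hpair, hr⟩)
      obtain ⟨w', hw', hlen⟩ := walk_shorten_pair hΨ h3 h'
      exact ⟨s :: w', ⟨h1, h2, hw'⟩, by simp only [List.length_cons] at hlen ⊢; omega⟩
    · push Not at hpair
      obtain ⟨hl, hne⟩ := hpair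
      obtain ⟨h4, h5, h6⟩ := h3
      have hb : (!s'.2) = s.2 := by revert hne; cases s.2 <;> cases s'.2 <;> simp
      rw [hb] at h5
      simp only [letter, Prod.mk.injEq] at hl
      have hi : img s.1 = img s'.1 := img_eq_of (b := s.2) hl.1 hl.2 (allR_pos hΨ h5)
      have h7 := allR_fold h1 h4 hi h5
      rw [show (!s.2) = s'.2 by rw [← hb, Bool.not_not]] at h7 h2
      exact ⟨w, h6.left allR_eqv (allR_eqv.trans h2 h7), by simp⟩

/-- A fresh edge lies in a lift of its cell having the recorded edge in the next slot. -/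
lemma exists_opCell_next {t : ℕ → ℝ} {m : Fin p} {k₀ : Fin (p + 1)}
    {l : List (Fin p × Fin (p + 1))} :
    ∀ {n : ℕ} {e : CEdge p S0}, e ∈ (stage Ψ x t n).Z.E → e.2.2.1 = (m, k₀) :: l →
      ∃ lab, IsClosed (stage Ψ x t n).Z (cellBase e.1 (m, k₀)) lab ∧
        liftE (cellBase e.1 (m, k₀)) lab k₀ = e ∧ lab (k₀ + 1) = (l, e.2.2.2)
  | 0, _, ⟨e', _, hee⟩, hl => by simp [← hee, emb] at hl
  | n + 1, e, Or.inl h, hl =>
    (exists_opCell_next h hl).imp fun _ h' => ⟨h'.1.mono (Nat.le_succ n), h'.2⟩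
  | _ + 1, e, Or.inr h, hl => by
    obtain ⟨lab, hlab⟩ := exists_chosen h.2.1
    obtain ⟨⟨m', k', l', hl', -, -, hnext⟩, -⟩ := id hlab
    rw [hl] at hl'
    simp only [List.cons.injEq, Prod.mk.injEq] at hl'
    obtain ⟨⟨rfl, rfl⟩, rfl⟩ := hl'
    exact ⟨lab, (fresh_closed h hlab hl).1, (fresh_closed h hlab hl).2, hnext⟩

open Fin.NatCast in
/-- A lifted cell lacking one slot is closed by an edge. -/
lemma path_chord {N : ℕ} {C : G p × Fin p} {k₀ : Fin (p + 1)}
    {lab : Fin (p + 1) → Lbl p S0} (hp : IsPath (stage Ψ x (fun _ => 2) N).Z C k₀ lab) :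
    ∃ e, allE Ψ x e ∧
      allR Ψ x (enterEnd (k₀ + 1) (liftE C lab (k₀ + 1))) (exitEnd k₀ e) ∧
      allR Ψ x (exitEnd (k₀ - 1) (liftE C lab (k₀ - 1))) (enterEnd k₀ e) := by
  have hne := fin_add_one_ne C
  set t : ℕ → ℝ := fun _ => 2
  set lab' := Function.update lab k₀ ((C.2, k₀) :: (lab (k₀ + 1)).1, (lab (k₀ + 1)).2) with hlab'
  set e := liftE C lab' k₀ with he
  have hsame : ∀ k, k ≠ k₀ → liftE C lab' k = liftE C lab k := fun k hk => by
    simp [liftE, hlab', Function.update_of_ne hk]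
  have hC : cellBase e.1 (C.2, k₀) = C := cellBase_slotImg C k₀
  have hl : e.2.2.1 = (C.2, k₀) :: (lab (k₀ + 1)).1 := by simp [he, liftE, hlab']
  have hs : e.2.2.2 = (lab (k₀ + 1)).2 := by simp [he, liftE, hlab']
  have hcand : Cand (stage Ψ x t N).Z e lab' := by
    refine ⟨C.2, k₀, (lab (k₀ + 1)).1, hl, by rw [hC], ?_, ?_⟩
    · rw [hC]
      intro k hk
      refine ⟨by rw [hsame k hk]; exact (hp k hk).1, fun hk1 => ?_⟩
      rw [Cons, hsame k hk, hsame (k + 1) hk1]
      exact (hp k hk).2 hk1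
    · rw [hs, hlab', Function.update_of_ne (hne k₀)]
  have heE : e ∈ (stage Ψ x t (N + 1)).Z.E := by
    by_cases h : e ∈ (stage Ψ x t N).Z.E
    · exact Or.inl h
    · exact Or.inr ⟨h, ⟨lab', hcand⟩, by
        show ((x e.1 : unitInterval) : ℝ) < 2
        linarith [(x e.1).2.2]⟩
  obtain ⟨lab₂, hc, hle, hnext⟩ := exists_opCell_next heE hl
  rw [hC] at hc hle
  rw [hs, Prod.mk.eta] at hnext
  have hmatch : ∀ i : ℕ, i < p → Same (stage Ψ x t (N + 1)).Z
      (liftE C lab₂ (k₀ + 1 + (i : Fin (p + 1)))) (liftE C lab (k₀ + 1 + (i : Fin (p + 1)))) := by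
    intro i
    induction i with
    | zero =>
      intro _
      simp only [Nat.cast_zero, add_zero, liftE, hnext]
      exact same_refl _ _
    | succ i ih =>
      intro hi
      set j := k₀ + 1 + (i : Fin (p + 1)) with hj
      have hnk : ∀ n : ℕ, n < p → k₀ + 1 + (n : Fin (p + 1)) ≠ k₀ := by
        intro n hn h
        rw [add_assoc, add_eq_left] at h
        have h'' : ((n + 1 : ℕ) : Fin (p + 1)) = 0 := by
          rw [Nat.cast_succ]; exact (add_comm _ _).trans h
        have h' := congrArg Fin.val h''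
        rw [Fin.val_natCast, Nat.mod_eq_of_lt (by omega : n + 1 < p + 1)] at h'
        simp at h'
      have hj1 : j + 1 = k₀ + 1 + ((i + 1 : ℕ) : Fin (p + 1)) := by
        rw [hj, Nat.cast_succ, ← add_assoc]
      have n0 : j ≠ k₀ := hnk i (by omega)
      have n1 : j + 1 ≠ k₀ := hj1 ▸ hnk (i + 1) hi
      have hE : ∀ k, k ≠ k₀ → liftE C lab k ∈ (stage Ψ x t (N + 1)).Z.E :=
        fun k hk => Or.inl (hp k hk).1
      rw [← hj1]
      refine same_of_end (b := !orient (j + 1)) (hc _).1 (hE _ n1) (by simp) ?_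
      exact (stage_eqv _).trans ((stage_eqv _).symm (hc j).2)
        ((stage_eqv _).trans ((ih (by omega)).ends (hc j).1 (hE j n0) (orient j))
          (stage_R_succ ((hp j n0).2 n1)))
  refine ⟨e, ⟨_, heE⟩, ⟨N + 1, ?_⟩, ⟨N + 1, ?_⟩⟩
  · have h := (hc k₀).2
    rw [Cons, hle] at h
    rw [show liftE C lab (k₀ + 1) = liftE C lab₂ (k₀ + 1) by simp [liftE, hnext]]
    exact (stage_eqv _).symm h
  · have hpos : 0 < p := C.2.pos
    have hlast : k₀ + 1 + ((p - 1 : ℕ) : Fin (p + 1)) = k₀ - 1 := by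
      have h : ((p - 1 : ℕ) : Fin (p + 1)) + 1 + 1 = 0 := by
        rw [← Nat.cast_add_one, ← Nat.cast_add_one, show p - 1 + 1 + 1 = p + 1 by omega]
        exact Fin.natCast_self _
      rw [eq_sub_iff_add_eq, add_assoc k₀, add_comm (1 : Fin (p + 1)), add_assoc, h, add_zero]
    have hm := hmatch (p - 1) (by omega)
    rw [hlast] at hm
    have h := (hc (k₀ - 1)).2
    rw [Cons, sub_add_cancel, hle] at h
    exact (stage_eqv _).trans ((stage_eqv _).symm (hm.ends (hc _).1
      (Or.inl (hp _ (fin_sub_one_ne C k₀)).1) (orient (k₀ - 1)))) h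

open Fin.NatCast in
/-- A walk reading all but one letter of a cell boundary can be replaced by one step. -/
lemma walk_chord (hΨ : OldOK Ψ) {v : List (Step p S0)} {a c : CEnd p S0}
    (hw : LampWalk (allE Ψ x) (allR Ψ x) a v c) {l : Lamp p} {k : ℕ}
    (hv : v.map letter = ((bdry l).rotate k).take p) :
    ∃ s, LampWalk (allE Ψ x) (allR Ψ x) a [s] c := by
  obtain ⟨m, g₀⟩ := l
  have hppos : 0 < p := m.pos
  have hlen : v.length = p := by
    rw [← List.length_map (f := letter), hv, List.length_take, List.length_rotate,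
      Word.length_bdry]
    omega
  have hmem : ∀ i (hi : i < v.length), allE Ψ x v[i].1 := by
    clear hv hlen
    induction v generalizing a with
    | nil => intro i hi; simp at hi
    | cons s v ih =>
      rintro (_ | i) hi
      · exact hw.1
      · exact ih hw.2.2 i (by simpa using hi)
  have hjoin : ∀ i (hi : i + 1 < v.length),
      allR Ψ x (en v[i].1 v[i].2) (en v[i + 1].1 (!v[i + 1].2)) := by
    clear hv hlen hmem
    induction v generalizing a with
    | nil => intro i hi; simp at hi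
    | cons s v ih =>
      rintro (_ | i) hi
      · cases v with
        | nil => simp at hi
        | cons s' v => exact hw.2.2.2.1
      · exact ih hw.2.2 i (by simpa using hi)
  have hfirst : allR Ψ x a (en (v[0]'(by omega)).1 (!(v[0]'(by omega)).2)) := by
    cases v with
    | nil => simp at hlen; omega
    | cons s v => exact hw.2.1
  have hend : allR Ψ x (en (v[p - 1]'(by omega)).1 (v[p - 1]'(by omega)).2) c := by
    clear hv hmem hjoin hfirst
    have : ∀ {v : List (Step p S0)} {a : CEnd p S0}, LampWalk (allE Ψ x) (allR Ψ x) a v c →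
        ∀ i (hi : i + 1 = v.length),
          allR Ψ x (en (v[i]'(by omega)).1 (v[i]'(by omega)).2) c := by
      intro v
      induction v with
      | nil => intro a _ i hi; simp at hi
      | cons s v ih =>
        rintro a hw (_ | i) hi
        · obtain rfl : v = [] := by simpa using hi
          exact hw.2.2
        · exact ih hw.2.2 i (by simpa using hi)
    exact this hw (p - 1) (by omega)
  set j₀ : Fin (p + 1) := (k : Fin (p + 1)) with hj₀
  set e₀ := (v[0]'(by omega)).1 with he₀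
  set C := cellBase e₀.1 (m, j₀) with hCdef
  have hread : ∀ i (hi : i < v.length), ∀ C' : G p × Fin p, C'.2 = m → C'.1.right = g₀ →
      letter v[i] = slotLetter C' (j₀ + (i : Fin (p + 1))) := by
    intro i hi C' h1 h2
    have e1 : letter v[i] = (((bdry (m, g₀)).rotate k).take p)[i]'(by
        rw [← hv, List.length_map]; exact hi) := by
      simp only [← hv, List.getElem_map]
    rw [e1, List.getElem_take, List.getElem_rotate, ← bdry_getElem]
    subst h1 h2
    congr 1
    rw [hj₀, ← Nat.cast_add, Fin.val_natCast, Word.length_bdry, add_comm]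
  have h0 : ∀ C' : G p × Fin p, C'.2 = m → C'.1.right = g₀ → letter (v[0]'(by omega)) =
      slotLetter C' j₀ := fun C' h1 h2 => by simpa using hread 0 (by omega) C' h1 h2
  have hCm : C.2 = m := by by_cases h : (j₀ : ℕ) < p <;> simp [hCdef, cellBase, h]
  have hCr : C.1.right = g₀ := by
    have h := h0 ((⟨1, g₀⟩ : G p), m) rfl rfl
    simp only [letter, slotLetter, Prod.mk.injEq, ← he₀] at h
    by_cases hj : (j₀ : ℕ) < p
    · simp [slotImg, hj, q_right] at h
      simp [hCdef, cellBase, hj, q_right, h.1.2]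
    · simp [slotImg, hj] at h
      simp [hCdef, cellBase, hj, h.1.2]
  have himg : ∀ i (hi : i < v.length), img v[i].1 = slotImg C (j₀ + (i : Fin (p + 1))) ∧
      v[i].2 = orient (j₀ + (i : Fin (p + 1))) := by
    intro i
    induction i with
    | zero =>
      intro hi
      have h := hread 0 hi C hCm hCr
      simp only [Nat.cast_zero, add_zero] at h ⊢
      simp only [letter, slotLetter, Prod.mk.injEq, ← he₀] at h
      refine ⟨Prod.ext ?_ h.1.1, h.2⟩
      show e₀.1 = _
      rw [hCdef, slotImg_cellBase]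
    | succ i ih =>
      intro hi
      have h := hread (i + 1) hi C hCm hCr
      simp only [letter, slotLetter, Prod.mk.injEq] at h
      refine ⟨img_eq_of (b := !v[i + 1].2) h.1.1 h.1.2 ?_, h.2⟩
      have hp1 : pos (en v[i + 1].1 (!v[i + 1].2)) = pos (en v[i].1 v[i].2) :=
        (allR_pos hΨ (hjoin i hi)).symm
      rw [pos_en, pos_en, (ih (by omega)).1, (ih (by omega)).2, ipos_slot_succ] at hp1
      rw [hp1, h.2, Nat.cast_succ, ← add_assoc]
  set k₀ : Fin (p + 1) := j₀ - 1 with hk₀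
  let lab : Fin (p + 1) → Lbl p S0 := fun j =>
    if h : (j - j₀ : Fin (p + 1)).val < v.length then (v[(j - j₀ : Fin (p + 1)).val]).1.2.2
    else e₀.2.2
  have hlift : ∀ i (hi : i < v.length), liftE C lab (j₀ + (i : Fin (p + 1))) = v[i].1 := by
    intro i hi
    have e1 : ((j₀ + (i : Fin (p + 1))) - j₀ : Fin (p + 1)).val = i := by
      rw [add_sub_cancel_left, Fin.val_natCast, Nat.mod_eq_of_lt (by omega)]
    simp only [liftE, lab, e1, hi, dif_pos, ← (himg i hi).1, img]
  have hdec : ∀ j, j ≠ k₀ → ∃ i : ℕ, i < p ∧ j = j₀ + (i : Fin (p + 1)) ∧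
      (j + 1 ≠ k₀ → i + 1 < p) := by
    intro j hj
    refine ⟨(j - j₀ : Fin (p + 1)).val, ?_, by simp, ?_⟩
    · by_contra h
      refine hj ?_
      have hv : (j - j₀ : Fin (p + 1)) = -1 := by
        rw [eq_neg_iff_add_eq_zero]
        have e : (j - j₀ : Fin (p + 1)) = Fin.last p :=
          Fin.ext (by have := (j - j₀ : Fin (p + 1)).2; simp only [Fin.val_last]; omega)
        rw [e, Fin.last_add_one]
      rw [hk₀, sub_eq_add_neg j₀, ← hv, add_sub_cancel]
    · intro hj1
      by_contra h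
      have h2 := (j - j₀ : Fin (p + 1)).2
      have h3 : (j + 1 - j₀ : Fin (p + 1)) = j - j₀ + 1 := by abel
      rcases Nat.lt_or_ge (j - j₀ : Fin (p + 1)).val p with hlt | hge
      · refine hj1 ?_
        have e : (j + 1 - j₀ : Fin (p + 1)) = Fin.last p := by
          rw [h3]; exact Fin.ext (by
            rw [Fin.val_add_one_of_lt' (by omega), Fin.val_last]; omega)
        have hv : (j + 1 - j₀ : Fin (p + 1)) = -1 := by
          rw [eq_neg_iff_add_eq_zero, e, Fin.last_add_one]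
        rw [hk₀, sub_eq_add_neg j₀, ← hv, add_sub_cancel]
      · refine hj ?_
        have hv : (j - j₀ : Fin (p + 1)) = -1 := by
          rw [eq_neg_iff_add_eq_zero,
            show (j - j₀ : Fin (p + 1)) = Fin.last p from Fin.ext (by simp; omega),
            Fin.last_add_one]
        rw [hk₀, sub_eq_add_neg j₀, ← hv, add_sub_cancel]
  obtain ⟨N, hN⟩ : ∃ N, (∀ i : Fin v.length, v[(i : ℕ)].1 ∈ (stage Ψ x (fun _ => 2) N).Z.E) ∧
      ∀ i : Fin v.length, ∀ hi : (i : ℕ) + 1 < v.length, (stage Ψ x (fun _ => 2) N).Z.R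
        (en v[(i : ℕ)].1 v[(i : ℕ)].2) (en v[(i : ℕ) + 1].1 (!v[(i : ℕ) + 1].2)) := by
    refine ((eventually_all.2 fun i : Fin v.length => ?_).and
      (eventually_all.2 fun i : Fin v.length => ?_)).exists (f := atTop)
    · obtain ⟨n, hn⟩ := hmem i i.2
      exact eventually_atTop.2 ⟨n, fun N hN => stage_E_mono hN hn⟩
    · by_cases hi : (i : ℕ) + 1 < v.length
      · obtain ⟨n, hn⟩ := hjoin i hi
        exact eventually_atTop.2 ⟨n, fun N hN _ => stage_R_mono hN hn⟩
      · exact Eventually.of_forall fun _ h => absurd h hi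
  have hpath : IsPath (stage Ψ x (fun _ => 2) N).Z C k₀ lab := by
    intro j hj
    obtain ⟨i, hi, rfl, hi1⟩ := hdec j hj
    refine ⟨by rw [hlift i (by omega)]; exact hN.1 ⟨i, by omega⟩, fun hk => ?_⟩
    have hn := hi1 hk
    have e : j₀ + (i : Fin (p + 1)) + 1 = j₀ + ((i + 1 : ℕ) : Fin (p + 1)) := by
      rw [Nat.cast_succ, add_assoc]
    rw [Cons, exitEnd, enterEnd, hlift i (by omega), ← (himg i (by omega)).2, e,
      hlift (i + 1) (by omega), ← (himg (i + 1) (by omega)).2]
    exact hN.2 ⟨i, by omega⟩ (by show i + 1 < v.length; omega)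
  obtain ⟨e, heE, h1, h2⟩ := path_chord hpath
  have e1 : k₀ + 1 = j₀ + ((0 : ℕ) : Fin (p + 1)) := by simp [hk₀]
  have e2 : k₀ - 1 = j₀ + ((p - 1 : ℕ) : Fin (p + 1)) := by
    have h : ((p - 1 : ℕ) : Fin (p + 1)) + 1 + 1 = 0 := by
      rw [← Nat.cast_add_one, ← Nat.cast_add_one, show p - 1 + 1 + 1 = p + 1 by omega]
      exact Fin.natCast_self _
    rw [hk₀, sub_eq_iff_eq_add, sub_eq_iff_eq_add]
    rw [add_assoc, add_assoc, ← add_assoc (_ : Fin (p + 1)) 1 1, h, add_zero]
  rw [e1, hlift 0 (by omega), enterEnd, ← (himg 0 (by omega)).2] at h1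
  rw [e2, hlift (p - 1) (by omega), exitEnd, ← (himg (p - 1) (by omega)).2] at h2
  refine ⟨(e, !orient k₀), heE, ?_, ?_⟩
  · rw [Bool.not_not]; exact allR_eqv.trans hfirst h1
  · exact allR_eqv.trans (allR_eqv.symm h2) hend

/-- A walk whose word contains a run can be shortened. -/
lemma walk_shorten_run (hp : 2 ≤ p) (hΨ : OldOK Ψ) {w : List (Step p S0)} {a c : CEnd p S0}
    (hw : LampWalk (allE Ψ x) (allR Ψ x) a w c) (hrun : HasRun (w.map letter)) :
    ∃ w', LampWalk (allE Ψ x) (allR Ψ x) a w' c ∧ w'.length < w.length := by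
  have hR := allR_eqv (Ψ := Ψ) (x := x)
  obtain ⟨l, k, hl⟩ := hrun
  have key : ∀ run, run <:+: w.map letter → ∃ u v z, w = u ++ v ++ z ∧ v.map letter = run := by
    rintro run ⟨u, z, h⟩
    obtain ⟨uv, z', rfl, h1, -⟩ := List.map_eq_append_iff.1 h.symm
    obtain ⟨u', v, rfl, -, h2⟩ := List.map_eq_append_iff.1 h1
    exact ⟨u', v, z', rfl, h2⟩
  have hplen : (((bdry l).rotate k).take p).length = p := by
    rw [List.length_take, List.length_rotate, Word.length_bdry]; omega
  obtain ⟨u, v, z, rfl, hv⟩ : ∃ u v z, w = u ++ v ++ z ∧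
      (v.map letter = ((bdry l).rotate k).take p ∨
        v.map letter = invRev (((bdry l).rotate k).take p)) := by
    rcases hl with h | h
    · obtain ⟨u, v, z, h1, h2⟩ := key _ h; exact ⟨u, v, z, h1, Or.inl h2⟩
    · obtain ⟨u, v, z, h1, h2⟩ := key _ h; exact ⟨u, v, z, h1, Or.inr h2⟩
  obtain ⟨b', hu, hz⟩ := hw.split hR
  obtain ⟨b, hu, hvw⟩ := hu.split hR
  have hvlen : v.length = p := by
    rcases hv with h | h <;>
      · rw [← List.length_map (f := letter), h]
        simpa [invRev] using hplen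
  obtain ⟨v', hv', hlen⟩ : ∃ v', LampWalk (allE Ψ x) (allR Ψ x) b v' b' ∧ v'.length ≤ 1 := by
    rcases hv with h | h
    · obtain ⟨s, hs⟩ := walk_chord hΨ hvw h
      exact ⟨[s], hs, le_rfl⟩
    · obtain ⟨v₁, hv₁, hl₁⟩ := hvw.rev hR
      rw [h, FreeGroup.invRev_invRev] at hl₁
      obtain ⟨s, hs⟩ := walk_chord hΨ hv₁ hl₁
      obtain ⟨v₂, hv₂, hl₂⟩ := hs.rev hR
      refine ⟨v₂, hv₂, ?_⟩
      rw [← List.length_map (f := letter), hl₂]
      simp [invRev]
  exact ⟨u ++ v' ++ z, (hu.append hR hv').append hR hz, by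
    simp only [List.length_append]; omega⟩

/-- Every lamp edge joins marked nodes at some stage. -/
theorem exists_markedEdge (hp : 3 ≤ p) (hΨ : OldOK Ψ)
    (hconn : ∀ a b, Ψ.Pres a → Ψ.Pres b → Ψ.Link a b)
    (hmark : ∀ n : N p, ∃ a, Ψ.Pres a ∧ Ψ.Mk a ∧ pos a = n) (y : G p × Fin p) :
    ∃ n, MarkedEdge (stage Ψ x (fun _ => 2) n).Z y := by
  classical
  obtain ⟨o, ho, hom, hopos⟩ := hmark (ipos y false)
  obtain ⟨o', ho', hom', hopos'⟩ := hmark (ipos y true)
  have hex : ∃ n, ∃ w, LampWalk (allE Ψ x) (allR Ψ x) (embEnd o) w (embEnd o') ∧ w.length = n := by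
    obtain ⟨w, hw⟩ := walk_of_link (x := x) (hconn o o' ho ho')
    exact ⟨_, w, hw, rfl⟩
  obtain ⟨w, hw, hlen⟩ := Nat.find_spec hex
  have hmin : ∀ w', LampWalk (allE Ψ x) (allR Ψ x) (embEnd o) w' (embEnd o') →
      w.length ≤ w'.length := fun w' hw' => hlen.le.trans (Nat.find_min' hex ⟨w', hw', rfl⟩)
  have hred : FreeGroup.IsReduced (w.map letter) := by
    by_contra h
    obtain ⟨w', hw', hlt⟩ := walk_shorten_pair hΨ hw h
    exact absurd (hmin w' hw') (by omega)
  have heval : eval (w.map letter) = lamp (y.2, y.1.right) := by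
    have h := walk_pos hΨ hw
    rw [show pos (embEnd o') = pos o' from rfl, show pos (embEnd o) = pos o from rfl, hopos,
      hopos', ipos_true, ← ipos_false] at h
    exact (mul_left_cancel h).symm
  rcases eq_lamp_or_run hp _ hred _ heval with h | h
  · obtain ⟨⟨e, b⟩, rfl, hs⟩ := List.map_eq_singleton_iff.1 h
    simp only [letter, Prod.mk.injEq] at hs
    obtain ⟨⟨h2, hr⟩, rfl⟩ := hs
    obtain ⟨⟨n₀, hn₀⟩, ⟨n₁, hn₁⟩, ⟨n₂, hn₂⟩⟩ := hw
    have hi : img e = y := img_eq_of (b := false) h2 hr (by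
      rw [← hopos]
      exact (allR_pos hΨ ⟨n₁, hn₁⟩).symm)
    refine ⟨max n₀ (max n₁ n₂), e, stage_E_mono (by omega) hn₀, hi, ?_, ?_⟩
    · have h' := stage_R_mono (m := max n₀ (max n₁ n₂)) (by omega) hn₁
      generalize hN : max n₀ (max n₁ n₂) = M at h' ⊢
      cases M <;> exact ⟨o, ho, hom, h'⟩
    · have h' := (stage_eqv _).symm (stage_R_mono (m := max n₀ (max n₁ n₂)) (by omega) hn₂)
      generalize hN : max n₀ (max n₁ n₂) = M at h' ⊢
      cases M <;> exact ⟨o', ho', hom', h'⟩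
  · obtain ⟨w', hw', hlt⟩ := walk_shorten_run (by omega) hΨ hw h
    exact absurd (hmin w' hw') (by omega)

lemma markedEdge_mono {t : ℕ → ℝ} {n m : ℕ} (h : n ≤ m) {y : G p × Fin p}
    (hy : MarkedEdge (stage Ψ x t n).Z y) : MarkedEdge (stage Ψ x t m).Z y := by
  have hMk : ∀ {k : ℕ} {a : CEnd p S0}, (stage Ψ x t k).Z.Mk a ↔
      ∃ o, Ψ.Pres o ∧ Ψ.Mk o ∧ (stage Ψ x t k).Z.R (embEnd o) a := fun {k} => by
    cases k <;> exact Iff.rfl
  obtain ⟨e, he, hi, h1, h2⟩ := hy
  refine ⟨e, stage_E_mono h he, hi, ?_, ?_⟩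
  · exact hMk.2 ((hMk.1 h1).imp fun o ho => ⟨ho.1, ho.2.1, stage_R_mono h ho.2.2⟩)
  · exact hMk.2 ((hMk.1 h2).imp fun o ho => ⟨ho.1, ho.2.1, stage_R_mono h ho.2.2⟩)

/-- With every candidate selected, some stage has almost all lamp edges between marked nodes. -/
theorem exists_marked_stage {Ψ : Lab (G p) → Gph (G p) (Fin p × S0)} (hp : 3 ≤ p)
    (hΨ : IsState Ψ) :
    ∃ N, ENNReal.ofReal ((p : ℝ) - 1) ≤
      dens (fun x y => ind (MarkedEdge (clo Ψ (fun _ => 2) N x) y)) := by
  set F : ℕ → Lab (G p) → ℝ≥0∞ := fun N x =>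
    ∑ m : Fin p, ind (MarkedEdge (clo Ψ (fun _ => 2) N x) (1, m)) with hF
  have hFm : ∀ N, Measurable (F N) := fun N => by
    have hrg := clo_rg hΨ.rg (fun _ => 2) N
    exact Finset.measurable_sum _ fun m _ => Measurable.ind <| Measurable.exists fun e =>
      (hrg.measE e).and <| measurable_const.and <| (hrg.measMk _).and (hrg.measMk _)
  have hmono : Monotone F := fun n m h x =>
    Finset.sum_le_sum fun i _ => ind_mono (markedEdge_mono h)
  have hsup : ∀ᵐ x ∂law (G p), (p : ℝ≥0∞) ≤ ⨆ N, F N x := by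
    filter_upwards [hΨ.pos_eq, hΨ.conn, hΨ.marked] with x hpos hconn hmark
    have hold : OldOK (Ψ x) := ⟨hΨ.rg.eqv x, hpos⟩
    choose n hn using fun m : Fin p =>
      exists_markedEdge (x := x) hp hold hconn hmark (1, m)
    refine le_iSup_of_le (Finset.univ.sup n) ?_
    calc (p : ℝ≥0∞) = ∑ _m : Fin p, (1 : ℝ≥0∞) := by simp
      _ ≤ _ := Finset.sum_le_sum fun m _ =>
        (ind_pos (markedEdge_mono (Finset.le_sup (Finset.mem_univ m)) (hn m))).ge
  have hlt : ENNReal.ofReal ((p : ℝ) - 1) < ⨆ N, ∫⁻ x, F N x ∂law (G p) := by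
    rw [← lintegral_iSup hFm hmono]
    refine lt_of_lt_of_le ?_ ((lintegral_mono_ae hsup).trans' ?_ : (p : ℝ≥0∞) ≤ _)
    · rw [← ENNReal.ofReal_natCast, ENNReal.ofReal_lt_ofReal_iff]
      · linarith
      · exact Nat.cast_pos.2 (by omega)
    · simp
  obtain ⟨N, hN⟩ := lt_iSup_iff.1 hlt
  refine ⟨N, hN.le.trans (le_of_eq ?_)⟩
  exact lintegral_congr fun x => (tsum_fintype _).symm

end Vale.Agent.P189
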