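import Mathlib

/-!
Graphings of the orbit equivalence relation of a measure preserving action, and their cost.
-/

namespace Vale.Agent.P189

open MeasureTheory
open scoped ENNReal

variable (G : Type*) [Group G] {X : Type*} [MeasurableSpace X] [MulAction G X]

/-- The action is by measure preserving Borel automorphisms. -/
def IsPMP (μ : Measure X) : Prop := ∀ g : G, MeasurePreserving (fun x : X => g • x) μ μ

/-- Each nontrivial element fixes a null set of points. -/
def IsEssFree (μ : Measure X) : Prop := ∀ g : G, g ≠ 1 → μ {x | g • x = x} = 0

/-- A generating graphing: countably many measure preserving Borel bijections between Borel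
subsets, inside the orbit relation, whose chains join almost every point to its whole orbit. -/
structure Graphing (μ : Measure X) where
  /-- The domains. -/
  dom : ℕ → Set X
  /-- The partial maps, read on their domains only. -/
  toFun : ℕ → X → X
  measurableSet_dom : ∀ i, MeasurableSet (dom i)
  measurable_toFun : ∀ i, Measurable (toFun i)
  injOn : ∀ i, Set.InjOn (toFun i) (dom i)
  preserves : ∀ i, ∀ A, A ⊆ dom i → MeasurableSet A → μ (toFun i '' A) = μ A
  mem_orbit : ∀ i, ∀ x ∈ dom i, ∃ g : G, g • x = toFun i x
  generates : ∀ᵐ x ∂μ, ∀ g : G,
    Relation.EqvGen (fun y z => ∃ i, y ∈ dom i ∧ toFun i y = z) x (g • x)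

/-- The cost of the orbit relation: the least total measure of the domains of a generating
graphing. -/
noncomputable def cost (μ : Measure X) : ℝ≥0∞ :=
  ⨅ Φ : Graphing G μ, ∑' i, μ (Φ.dom i)

end Vale.Agent.P189
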