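import Vale.Agent.P189.SparsePerm

/-!
The union bound: for `p * p` uniform permutations, with high probability no small family of sets is
carried into fewer than `9/10 p` times as many points.
-/

namespace Vale.Agent.P189.Sparse

open Finset Real
open scoped Nat

variable {n p : ℕ}

/-- The labelled points reached from a labelled family. -/
def touched (σ : Fin p × Fin p → Equiv.Perm (Fin n)) (A : Finset (Fin p × Fin n)) :
    Finset (Fin p × Fin n) :=
  univ.filter fun x => ∃ m, (m, σ (m, x.1) x.2) ∈ A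

/-- Some family of size `F` reaches fewer than `9/10 p F` labelled points. -/
def Shrinks (σ : Fin p × Fin p → Equiv.Perm (Fin n)) (F : ℕ) : Prop :=
  ∃ A : Finset (Fin p × Fin n), A.card = F ∧ 10 * (touched σ A).card < 9 * p * F

lemma choose_le_exp_div (M : ℕ) {k : ℕ} (hk : 0 < k) :
    ((M.choose k : ℕ) : ℝ) ≤ (exp 1 * M / k) ^ k := by
  have h₁ : ((M.choose k : ℕ) : ℝ) ≤ (M : ℝ) ^ k / k ! := Nat.choose_le_pow_div k M
  have h₂ : (k : ℝ) ^ k / k ! ≤ exp 1 ^ k := by
    rw [← exp_nat_mul, mul_one]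
    exact pow_div_factorial_le_exp _ (Nat.cast_nonneg k) k
  refine h₁.trans ?_
  rw [div_pow, mul_pow, le_div_iff₀ (by positivity), div_mul_eq_mul_div, mul_comm (exp 1 ^ k),
    mul_div_assoc]
  exact mul_le_mul_of_nonneg_left h₂ (by positivity)

lemma prod_le_pow_of_sum_le {ι : Type*} [Fintype ι] (x : ι → ℝ) (hx : ∀ i, 0 ≤ x i) {a : ℝ}
    (ha : 0 < a) (hsum : ∑ i, x i ≤ Fintype.card ι * a) :
    ∏ i, x i ≤ a ^ Fintype.card ι := by
  have h : ∀ i, x i ≤ a * exp (x i / a - 1) := fun i => by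
    have := add_one_le_exp (x i / a - 1)
    rw [sub_add_cancel, div_le_iff₀ ha] at this
    linarith [mul_comm a (exp (x i / a - 1))]
  calc ∏ i, x i ≤ ∏ i, a * exp (x i / a - 1) := prod_le_prod (fun i _ => hx i) fun i _ => h i
    _ = a ^ Fintype.card ι * exp (∑ i, (x i / a - 1)) := by
        rw [prod_mul_distrib, prod_const, card_univ, exp_sum]
    _ ≤ a ^ Fintype.card ι := by
        refine mul_le_of_le_one_right (by positivity) (exp_le_one_iff.2 ?_)
        rw [sum_sub_distrib, ← sum_div, sum_const, card_univ, nsmul_eq_mul, mul_one, sub_nonpos,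
          div_le_iff₀ ha]
        exact hsum

/-- The permutation tuples carrying a given family into a given family. -/
lemma card_touched_subset_le (hp : 0 < p) (A B : Finset (Fin p × Fin n)) (hn : 0 < n)
    (hB : 0 < B.card) :
    ({σ : Fin p × Fin p → Equiv.Perm (Fin n) | touched σ A ⊆ B}.ncard : ℝ) ≤
      Fintype.card (Fin p × Fin p → Equiv.Perm (Fin n)) *
        ((B.card : ℝ) / (p * n)) ^ (p * A.card) := by
  classical
  let Am : Fin p → Finset (Fin n) := fun m => (A.filter fun x => x.1 = m).image Prod.snd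
  let Bj : Fin p → Finset (Fin n) := fun j => (B.filter fun x => x.1 = j).image Prod.snd
  let P : Fin p × Fin p → Finset (Equiv.Perm (Fin n)) := fun i =>
    (mapsInto (Am i.1) (Bj i.2)).image fun τ => τ⁻¹
  have hsub : {σ : Fin p × Fin p → Equiv.Perm (Fin n) | touched σ A ⊆ B} ⊆
      ↑(Fintype.piFinset P) := by
    intro σ hσ
    rw [mem_coe, Fintype.mem_piFinset]
    intro i
    refine mem_image.2 ⟨(σ i)⁻¹, ?_, inv_inv _⟩
    simp only [mapsInto, mem_filter, mem_univ, true_and]
    intro a ha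
    simp only [Am, mem_image, mem_filter] at ha
    obtain ⟨⟨m, a'⟩, ⟨haA, rfl⟩, rfl⟩ := ha
    have hmem : (i.2, (σ i)⁻¹ a') ∈ touched σ A := by
      simp only [touched, mem_filter, mem_univ, true_and]
      refine ⟨i.1, ?_⟩
      simpa using haA
    exact mem_image.2 ⟨(i.2, (σ i)⁻¹ a'), mem_filter.2 ⟨hσ hmem, rfl⟩, rfl⟩
  have hcardA : ∑ m, (Am m).card = A.card := by
    refine Eq.trans (sum_congr rfl fun m _ => ?_) (card_eq_sum_card_fiberwise
      (fun x _ => mem_univ x.1)).symm
    refine card_image_of_injOn fun x hx y hy h => ?_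
    simp only [mem_coe, mem_filter] at hx hy
    exact Prod.ext (hx.2.trans hy.2.symm) h
  have hcardB : ∑ j, (Bj j).card = B.card := by
    refine Eq.trans (sum_congr rfl fun m _ => ?_) (card_eq_sum_card_fiberwise
      (fun x _ => mem_univ x.1)).symm
    refine card_image_of_injOn fun x hx y hy h => ?_
    simp only [mem_coe, mem_filter] at hx hy
    exact Prod.ext (hx.2.trans hy.2.symm) h
  have hnR : (0 : ℝ) < n := by exact_mod_cast hn
  have hpR : (0 : ℝ) < p := by exact_mod_cast hp
  calc ({σ : Fin p × Fin p → Equiv.Perm (Fin n) | touched σ A ⊆ B}.ncard : ℝ)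
      ≤ ((Fintype.piFinset P).card : ℝ) := by
        rw [← Set.ncard_coe_finset]
        exact_mod_cast Set.ncard_le_ncard hsub (Set.toFinite _)
    _ = ∏ i : Fin p × Fin p, ((P i).card : ℝ) := by rw [Fintype.card_piFinset]; push_cast; rfl
    _ ≤ ∏ i : Fin p × Fin p, (n ! : ℝ) * ((((Bj i.2).card : ℝ)) / n) ^ (Am i.1).card := by
        refine prod_le_prod (fun i _ => Nat.cast_nonneg _) fun i _ => ?_
        exact (Nat.cast_le.2 card_image_le).trans (card_mapsInto_le _ _)
    _ = (Fintype.card (Fin p × Fin p → Equiv.Perm (Fin n)) : ℝ) *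
          (∏ j, ((Bj j).card : ℝ) / n) ^ A.card := by
        rw [prod_mul_distrib, prod_const, card_univ, Fintype.card_fun, Fintype.card_perm,
          Fintype.card_fin, Nat.cast_pow, Fintype.prod_prod_type, prod_comm]
        congr 1
        rw [← prod_pow]
        refine prod_congr rfl fun j _ => ?_
        simp only [prod_pow_eq_pow_sum, hcardA]
    _ ≤ (Fintype.card (Fin p × Fin p → Equiv.Perm (Fin n)) : ℝ) *
          (((B.card : ℝ) / (p * n)) ^ p) ^ A.card := by
        refine mul_le_mul_of_nonneg_left (pow_le_pow_left₀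
          (prod_nonneg fun j _ => div_nonneg (Nat.cast_nonneg _) (Nat.cast_nonneg _)) ?_ _)
          (Nat.cast_nonneg _)
        have hBR : (0 : ℝ) < B.card := by exact_mod_cast hB
        have := prod_le_pow_of_sum_le (fun j => ((Bj j).card : ℝ) / n) (fun j => by positivity)
          (a := (B.card : ℝ) / (p * n)) (by positivity) (by
            rw [← sum_div, ← Nat.cast_sum, hcardB, Fintype.card_fin]
            exact le_of_eq (by field_simp))
        rwa [Fintype.card_fin] at this
    _ = _ := by rw [← pow_mul]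

lemma exp_bound (hp : 20 ≤ p) (hn : 0 < n) {F : ℕ} (hF : 0 < F)
    (hFn : (F : ℝ) ≤ exp (-99) * n) :
    ((p * n).choose F : ℝ) * ((p * n).choose (9 * p * F / 10) : ℝ) *
      (((9 * p * F / 10 : ℕ) : ℝ) / (p * n)) ^ (p * F) ≤ exp (-(F : ℝ)) := by
  set N := 9 * p * F / 10 with hN
  have h180 : 180 ≤ 9 * p * F := by nlinarith
  have hN0 : 0 < N := by omega
  have hN9 : (N : ℝ) * 10 ≤ 9 * p * F := by
    exact_mod_cast (show N * 10 ≤ 9 * p * F by omega)
  have hpR : (20 : ℝ) ≤ p := by exact_mod_cast hp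
  have hnR : (0 : ℝ) < n := by exact_mod_cast hn
  have hFR : (1 : ℝ) ≤ F := by exact_mod_cast hF
  have hFp : F + N ≤ p * F := by
    have h : F * 10 + 9 * p * F ≤ 10 * p * F := by nlinarith
    have : N * 10 ≤ 9 * p * F := by omega
    nlinarith
  obtain ⟨r, hr⟩ := Nat.exists_eq_add_of_le hFp
  set x : ℝ := (F : ℝ) / n with hx
  set y : ℝ := (N : ℝ) / (p * n) with hy
  have hy0 : 0 < y := by positivity
  have hx0 : 0 < x := by positivity
  have hyx : y ≤ x := by
    rw [hy, hx, div_le_div_iff₀ (by positivity) hnR]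
    nlinarith [mul_pos (show (0 : ℝ) < p by linarith) (show (0 : ℝ) < F by linarith)]
  have hx99 : x ≤ exp (-99) := by rw [hx, div_le_iff₀ hnR]; exact hFn
  have c₁ : ((p * n).choose F : ℝ) ≤ (exp 1 * p / x) ^ F := by
    refine (choose_le_exp_div _ hF).trans (le_of_eq ?_)
    rw [hx, Nat.cast_mul]
    congr 1
    field_simp
  have c₂ : ((p * n).choose N : ℝ) ≤ (exp 1 / y) ^ N := by
    refine (choose_le_exp_div _ hN0).trans (le_of_eq ?_)
    rw [hy, Nat.cast_mul]
    congr 1
    field_simp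
  have hlin : (F : ℝ) + N + p * F + r * (-99) ≤ -F := by
    have hrR : (r : ℝ) = p * F - F - N := by
      have : ((p * F : ℕ) : ℝ) = ((F + N + r : ℕ) : ℝ) := congrArg Nat.cast hr
      push_cast at this
      linarith
    rw [hrR]
    nlinarith [mul_le_mul_of_nonneg_right hpR (show (0 : ℝ) ≤ F by linarith)]
  calc _ ≤ (exp 1 * p / x) ^ F * (exp 1 / y) ^ N * y ^ (F + N + r) := by
        rw [← hr]
        gcongr
    _ = exp 1 ^ F * exp 1 ^ N * (p : ℝ) ^ F * (y / x) ^ F * y ^ r := by
        simp only [div_pow, mul_pow, pow_add]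
        field_simp
    _ ≤ exp 1 ^ F * exp 1 ^ N * exp p ^ F * 1 * exp (-99) ^ r := by
        gcongr
        · linarith [add_one_le_exp (p : ℝ)]
        · exact pow_le_one₀ (by positivity) ((div_le_one hx0).2 hyx)
        · exact hyx.trans hx99
    _ = exp ((F : ℝ) + N + p * F + r * (-99)) := by
        simp only [← exp_nat_mul, ← exp_add, mul_one]
        congr 1
        ring
    _ ≤ exp (-(F : ℝ)) := exp_le_exp.2 hlin

lemma card_shrinks_le (hp : 20 ≤ p) {F : ℕ} (hF : 0 < F)
    (hFn : (F : ℝ) ≤ exp (-99) * n) :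
    ({σ : Fin p × Fin p → Equiv.Perm (Fin n) | Shrinks σ F}.ncard : ℝ) ≤
      Fintype.card (Fin p × Fin p → Equiv.Perm (Fin n)) * exp (-(F : ℝ)) := by
  classical
  have hn : 0 < n := Nat.pos_of_ne_zero fun h => by
    subst h; simp at hFn; omega
  have hFn' : F ≤ n := by
    have : (F : ℝ) ≤ n := hFn.trans (mul_le_of_le_one_left (Nat.cast_nonneg n)
      (exp_le_one_iff.2 (by norm_num)))
    exact_mod_cast this
  set N := 9 * p * F / 10 with hN
  have hNpn : N ≤ p * n := by
    have : 9 * p * F ≤ p * n * 10 := by nlinarith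
    omega
  set I := (powersetCard F (univ : Finset (Fin p × Fin n))) ×ˢ
    (powersetCard N (univ : Finset (Fin p × Fin n)))
  have hsub : {σ : Fin p × Fin p → Equiv.Perm (Fin n) | Shrinks σ F} ⊆
      ⋃ x ∈ I, {σ | touched σ x.1 ⊆ x.2} := by
    rintro σ ⟨A, hA, hlt⟩
    have hle : (touched σ A).card ≤ N := by omega
    obtain ⟨B, hB, hBc⟩ := exists_superset_card_eq hle (by simpa using hNpn)
    exact Set.mem_iUnion₂.2 ⟨(A, B), mem_product.2 ⟨mem_powersetCard.2 ⟨subset_univ _, hA⟩,
      mem_powersetCard.2 ⟨subset_univ _, hBc⟩⟩, hB⟩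
  have hN0 : 0 < N := by
    have : 180 ≤ 9 * p * F := by nlinarith
    omega
  calc ({σ : Fin p × Fin p → Equiv.Perm (Fin n) | Shrinks σ F}.ncard : ℝ)
      ≤ ∑ x ∈ I, ({σ : Fin p × Fin p → Equiv.Perm (Fin n) | touched σ x.1 ⊆ x.2}.ncard : ℝ) := by
        exact_mod_cast (Set.ncard_le_ncard hsub (Set.toFinite _)).trans
          (Finset.set_ncard_biUnion_le _ _)
    _ ≤ ∑ x ∈ I, (Fintype.card (Fin p × Fin p → Equiv.Perm (Fin n)) : ℝ) *
          ((N : ℝ) / (p * n)) ^ (p * F) := by
        refine sum_le_sum fun x hx => ?_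
        simp only [I, mem_product, mem_powersetCard] at hx
        have := card_touched_subset_le (by omega) x.1 x.2 hn (by omega)
        rwa [hx.1.2, hx.2.2] at this
    _ = (Fintype.card (Fin p × Fin p → Equiv.Perm (Fin n)) : ℝ) *
          (((p * n).choose F : ℝ) * ((p * n).choose N : ℝ) * ((N : ℝ) / (p * n)) ^ (p * F)) := by
        simp only [I, sum_const, card_product, card_powersetCard, card_univ, Fintype.card_prod,
          Fintype.card_fin, nsmul_eq_mul, Nat.cast_mul]
        ring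
    _ ≤ _ := mul_le_mul_of_nonneg_left (exp_bound hp hn hF hFn) (Nat.cast_nonneg _)

/-- Shrinking families of linear size are rare. -/
lemma eventually_shrinks_rare (hp : 20 ≤ p) {ε : ℝ} (hε : 0 < ε) :
    ∀ᶠ n : ℕ in Filter.atTop,
      ({σ : Fin p × Fin p → Equiv.Perm (Fin n) |
        ∃ F : ℕ, ε * n ≤ F ∧ (F : ℝ) ≤ exp (-99) * n ∧ Shrinks σ F}.ncard : ℝ) ≤
        ε * Fintype.card (Fin p × Fin p → Equiv.Perm (Fin n)) := by
  have hlim : Filter.Tendsto (fun n : ℕ => ((n : ℝ) + 1) * exp (-(ε * n))) Filter.atTop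
      (nhds 0) := by
    have h₁ := (tendsto_rpow_mul_exp_neg_mul_atTop_nhds_zero 1 ε hε).comp
      tendsto_natCast_atTop_atTop
    have h₂ := (tendsto_rpow_mul_exp_neg_mul_atTop_nhds_zero 0 ε hε).comp
      tendsto_natCast_atTop_atTop
    have h := h₁.add h₂
    rw [add_zero] at h
    refine h.congr' (Filter.Eventually.of_forall fun n => ?_)
    simp [add_mul]
  filter_upwards [hlim.eventually_le_const hε, Filter.eventually_gt_atTop 0] with n hn hn0
  have hsub : {σ : Fin p × Fin p → Equiv.Perm (Fin n) |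
        ∃ F : ℕ, ε * n ≤ F ∧ (F : ℝ) ≤ exp (-99) * n ∧ Shrinks σ F} ⊆
      ⋃ F ∈ (range (n + 1)).filter (fun F : ℕ => ε * n ≤ F ∧ (F : ℝ) ≤ exp (-99) * n),
        {σ | Shrinks σ F} := by
    rintro σ ⟨F, h₁, h₂, h₃⟩
    have hle : F ≤ n := by
      have : (F : ℝ) ≤ n := h₂.trans (mul_le_of_le_one_left (Nat.cast_nonneg n)
        (exp_le_one_iff.2 (by norm_num)))
      exact_mod_cast this
    exact Set.mem_iUnion₂.2 ⟨F, mem_filter.2 ⟨mem_range.2 (by omega), h₁, h₂⟩, h₃⟩
  set S := (range (n + 1)).filter (fun F : ℕ => ε * n ≤ F ∧ (F : ℝ) ≤ exp (-99) * n) with hS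
  set c := Fintype.card (Fin p × Fin p → Equiv.Perm (Fin n))
  calc _ ≤ ∑ F ∈ S, ({σ : Fin p × Fin p → Equiv.Perm (Fin n) | Shrinks σ F}.ncard : ℝ) := by
        exact_mod_cast (Set.ncard_le_ncard hsub (Set.toFinite _)).trans
          (Finset.set_ncard_biUnion_le _ _)
    _ ≤ ∑ _F ∈ S, (c : ℝ) * exp (-(ε * n)) := by
        refine sum_le_sum fun F hF => ?_
        rw [hS, mem_filter] at hF
        have hF0 : 0 < F := by
          have : (0 : ℝ) < F := lt_of_lt_of_le (by positivity) hF.2.1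
          exact_mod_cast this
        refine (card_shrinks_le hp hF0 hF.2.2).trans ?_
        gcongr
        exact hF.2.1
    _ ≤ ((n : ℝ) + 1) * ((c : ℝ) * exp (-(ε * n))) := by
        rw [sum_const, nsmul_eq_mul]
        gcongr
        exact_mod_cast (card_filter_le _ _).trans (card_range _).le
    _ = (((n : ℝ) + 1) * exp (-(ε * n))) * c := by ring
    _ ≤ ε * c := by gcongr

end Vale.Agent.P189.Sparse
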