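import Vale.Agent.P189.SparseModel
import Vale.Agent.P189.SparseCount

/-!
Sparse expansion for the Bernoulli shift: along the `p * p` free translations `q (m, j)`, a family
`S m` of small total measure is carried into families of at least `9/10 p` times that measure.
-/

namespace Vale.Agent.P189.Sparse

open MeasureTheory Finset Real

/-- A cylinder of the Bernoulli space. -/
abbrev cyl {H : Type*} (E : Finset H) (B : Set (E → unitInterval)) : Set (H → unitInterval) :=
  cylinder (α := fun _ : H => unitInterval) E B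

section Fixed

variable {H : Type*} [Group H] {n p : ℕ}

lemma integral_sum_indicator {α β : Type*} [MeasurableSpace α] {μ : Measure α} [IsFiniteMeasure μ]
    (t : Finset β) (A : β → Set α) (hA : ∀ b, MeasurableSet (A b)) :
    ∫ x, ∑ b ∈ t, (A b).indicator (fun _ => (1 : ℝ)) x ∂μ = ∑ b ∈ t, μ.real (A b) := by
  rw [integral_finsetSum _ fun b _ => (integrable_const _).indicator (hA b)]
  simp [integral_indicator_const _ (hA _)]

lemma indicator_mul_indicator {α : Type*} (A B : Set α) (x : α) :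
    A.indicator (fun _ => (1 : ℝ)) x * B.indicator (fun _ => (1 : ℝ)) x =
      (A ∩ B).indicator (fun _ => (1 : ℝ)) x := by
  by_cases h₁ : x ∈ A <;> by_cases h₂ : x ∈ B <;> simp [h₁, h₂]

open Classical in
lemma sum_indicator_eq_card {α β : Type*} [Fintype β] (A : β → Set α) (x : α) :
    ∑ b, (A b).indicator (fun _ => (1 : ℝ)) x = ((univ.filter fun b => x ∈ A b).card : ℝ) := by
  simp [Set.indicator_apply]

lemma sum_pairs_snd {α β : Type*} [Fintype α] [Fintype β] (g : β → β → ℝ) :
    ∑ x : α × β, ∑ y : α × β, g x.2 y.2 = (Fintype.card α : ℝ) ^ 2 * ∑ v, ∑ w, g v w := by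
  simp only [Fintype.sum_prod_type, Finset.sum_const, card_univ, nsmul_eq_mul, ← Finset.mul_sum]
  ring

/-- The number of points in collision with themselves. -/
noncomputable def coll₁ {ι : Type*} (k : H → FreeGroup ι) (σ : ι → Equiv.Perm (Fin n))
    (E : Finset H) : ℝ :=
  open Classical in ∑ v, if Coll k σ E v v then 1 else 0

/-- The number of pairs of points in collision. -/
noncomputable def coll₂ {ι : Type*} (k : H → FreeGroup ι) (σ : ι → Equiv.Perm (Fin n))
    (E : Finset H) : ℝ :=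
  open Classical in ∑ v, ∑ w, if Coll k σ E v w then 1 else 0

open Classical in
/-- One if a family of linear but small size shrinks. -/
noncomputable def bad (ε : ℝ) (σ : Fin p × Fin p → Equiv.Perm (Fin n)) : ℝ :=
  if ∃ F : ℕ, ε * n ≤ F ∧ (F : ℝ) ≤ exp (-99) * n ∧ Shrinks σ F then 1 else 0

variable {k : H → FreeGroup (Fin p × Fin p)} {r : H → H} {q : Fin p × Fin p → H}

/-- The inequality for one tuple of permutations, averaged over the labels. -/
lemma fixed_perm_bound (hp : 20 ≤ p)
    (hmul : ∀ h, FreeGroup.lift q (k h) * r h = h)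
    (heq : ∀ i h, k ((q i)⁻¹ * h) = (FreeGroup.of i)⁻¹ * k h ∧ r ((q i)⁻¹ * h) = r h)
    (E : Finset H) (B C : Fin p → Set (E → unitInterval)) (hB : ∀ m, MeasurableSet (B m))
    (hC : ∀ j, MeasurableSet (C j))
    (hcov : ∀ j x, x ∈ cyl E (C j) ↔ ∃ m, (fun h => x ((q (m, j))⁻¹ * h)) ∈ cyl E (B m))
    {s : ℝ} (hs : s = ∑ m, (unif H).real (cyl E (B m)))
    (hsmall : s ≤ 3 / 2 * exp (-100)) {ε : ℝ} (hε : 0 ≤ ε)
    (σ : Fin p × Fin p → Equiv.Perm (Fin n)) :
    9 / 10 * p * (s * n - p * coll₁ k σ E) ≤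
      n * (∑ j, (unif H).real (cyl E (C j))) + p * coll₁ k σ E +
        (9 / 10 * p * ε * n + 9 / 10 * p * (p * n) * bad ε σ +
          9 / 10 * p * (p * n) / (exp (-100) * n) ^ 2 *
            ((p : ℝ) ^ 2 * (n + coll₂ k σ E + 4 * n * coll₁ k σ E))) := by
  classical
  rcases Nat.eq_zero_or_pos n with rfl | hn
  · simp [coll₁]
  have hnR : (0 : ℝ) < n := by exact_mod_cast hn
  set R : ℝ := 9 / 10 * p with hR
  have hR0 : 0 ≤ R := by positivity
  set μL := unif (Fin n × H)
  let a : Fin p × Fin n → Set (Fin n × H → unitInterval) := fun x =>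
    pat k r σ x.2 ⁻¹' cyl E (B x.1)
  let t : Fin p × Fin n → Set (Fin n × H → unitInterval) := fun x =>
    pat k r σ x.2 ⁻¹' cyl E (C x.1)
  have ha : ∀ x, MeasurableSet (a x) := fun x => measurable_pat σ x.2 ((hB x.1).cylinder E)
  have ht : ∀ x, MeasurableSet (t x) := fun x => measurable_pat σ x.2 ((hC x.1).cylinder E)
  set K : ℝ := R * (p * n) / (exp (-100) * n) ^ 2 with hK
  have hK0 : 0 ≤ K := by positivity
  have hb0 : 0 ≤ bad ε σ := by unfold bad; split_ifs <;> norm_num
  let F : (Fin n × H → unitInterval) → ℝ := fun L => ∑ x, (a x).indicator (fun _ => (1 : ℝ)) L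
  let T : (Fin n × H → unitInterval) → ℝ := fun L => ∑ x, (t x).indicator (fun _ => (1 : ℝ)) L
  have hpoint : ∀ L, R * F L ≤ T L + (R * ε * n + R * (p * n) * bad ε σ +
      K * (F L - s * n) ^ 2) := by
    intro L
    simp only [F, T, sum_indicator_eq_card]
    set A := univ.filter fun x => L ∈ a x with hA
    set T' := univ.filter fun x => L ∈ t x with hT'
    have htouch : touched σ A = T' := by
      ext x
      simp only [touched, hA, hT', mem_filter, mem_univ, true_and, a, t, Set.mem_preimage, hcov,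
        pat_shift heq]
    have hT0 : (0 : ℝ) ≤ T'.card := Nat.cast_nonneg _
    have hsq : (0 : ℝ) ≤ K * ((A.card : ℝ) - s * n) ^ 2 := by positivity
    have hb : 0 ≤ R * (p * n) * bad ε σ := by positivity
    have he : 0 ≤ R * ε * n := by positivity
    have hApn : (A.card : ℝ) ≤ p * n := by
      have : A.card ≤ p * n := by simpa using card_le_univ A
      exact_mod_cast this
    have hRA : R * (A.card : ℝ) ≤ R * (p * n) := mul_le_mul_of_nonneg_left hApn hR0
    rcases lt_or_ge (A.card : ℝ) (ε * n) with h₁ | h₁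
    · nlinarith [mul_le_mul_of_nonneg_left h₁.le hR0]
    rcases lt_or_ge (exp (-99) * n) (A.card : ℝ) with h₂ | h₂
    · have he99 : 5 / 2 * exp (-100) ≤ exp (-99) := by
        rw [show (-99 : ℝ) = -100 + 1 by norm_num, exp_add]
        nlinarith [exp_pos (-100 : ℝ), exp_one_gt_d9]
      have hdev : exp (-100) * n ≤ (A.card : ℝ) - s * n := by
        nlinarith [mul_le_mul_of_nonneg_right he99 hnR.le,
          mul_le_mul_of_nonneg_right hsmall hnR.le]
      have hKsq : R * (p * n) ≤ K * ((A.card : ℝ) - s * n) ^ 2 := by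
        rw [hK, div_mul_eq_mul_div, le_div_iff₀ (by positivity)]
        exact mul_le_mul_of_nonneg_left (pow_le_pow_left₀ (by positivity) hdev 2) (by positivity)
      linarith
    by_cases h₃ : Shrinks σ A.card
    · have : bad ε σ = 1 := if_pos ⟨A.card, h₁, h₂, h₃⟩
      rw [this, mul_one] at hb ⊢
      linarith
    · have h₄ : 9 * p * A.card ≤ 10 * T'.card := not_lt.1 fun h => h₃ ⟨A, rfl, htouch ▸ h⟩
      have h₅ : (9 : ℝ) * p * A.card ≤ 10 * T'.card := by exact_mod_cast h₄
      rw [hR] at he hb ⊢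
      linarith
  have hFi : Integrable F μL :=
    integrable_finsetSum _ fun x _ => (integrable_const _).indicator (ha x)
  have hTi : Integrable T μL :=
    integrable_finsetSum _ fun x _ => (integrable_const _).indicator (ht x)
  have hsq : ∀ L, (F L - s * n) ^ 2 =
      (∑ x, ∑ y, (a x ∩ a y).indicator (fun _ => (1 : ℝ)) L) - 2 * (s * n) * F L + (s * n) ^ 2 := by
    intro L
    simp only [F, ← indicator_mul_indicator, ← Finset.sum_mul_sum]
    ring
  have hQi : Integrable (fun L => ∑ x, ∑ y, (a x ∩ a y).indicator (fun _ => (1 : ℝ)) L) μL :=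
    integrable_finsetSum _ fun x _ => integrable_finsetSum _ fun y _ =>
      (integrable_const _).indicator ((ha x).inter (ha y))
  have hSi : Integrable (fun L => (F L - s * n) ^ 2) μL := by
    simp only [hsq]
    exact (hQi.sub (hFi.const_mul _)).add (integrable_const _)
  set c₁ := coll₁ k σ E with hc₁
  set c₂ := coll₂ k σ E with hc₂
  have hF : ∫ L, F L ∂μL = ∑ x, μL.real (a x) := integral_sum_indicator _ a ha
  have hT : ∫ L, T L ∂μL = ∑ x, μL.real (t x) := integral_sum_indicator _ t ht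
  have hone : ∑ _m : Fin p, ∑ v : Fin n, (if Coll k σ E v v then (1 : ℝ) else 0) = p * c₁ := by
    simp [hc₁, coll₁, Finset.sum_const, nsmul_eq_mul]
  have hFlo : s * n - p * c₁ ≤ ∑ x, μL.real (a x) := by
    rw [Fintype.sum_prod_type, ← hone, hs, Finset.sum_mul, sub_le_iff_le_add,
      ← Finset.sum_add_distrib]
    refine Finset.sum_le_sum fun m _ => ?_
    rw [← Finset.sum_add_distrib]
    calc (unif H).real (cyl E (B m)) * n = ∑ _v : Fin n, (unif H).real (cyl E (B m)) := by
          simp [mul_comm]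
      _ ≤ _ := Finset.sum_le_sum fun v _ => by
          linarith [(abs_sub_le_iff.1 (abs_real_pat_sub_le (r := r) hmul σ E v (hB m))).2]
  have hThi : ∑ x, μL.real (t x) ≤ n * (∑ j, (unif H).real (cyl E (C j))) + p * c₁ := by
    rw [Fintype.sum_prod_type, ← hone, Finset.mul_sum, ← Finset.sum_add_distrib]
    refine Finset.sum_le_sum fun m _ => ?_
    calc ∑ v : Fin n, μL.real (t (m, v))
        ≤ ∑ v : Fin n, ((unif H).real (cyl E (C m)) + if Coll k σ E v v then 1 else 0) :=
          Finset.sum_le_sum fun v _ => by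
            linarith [(abs_sub_le_iff.1 (abs_real_pat_sub_le (r := r) hmul σ E v (hC m))).1]
      _ = _ := by simp [Finset.sum_add_distrib]
  have hQ : ∑ x, ∑ y, μL.real (a x ∩ a y) ≤
      (s * n) ^ 2 + (p : ℝ) ^ 2 * (n + c₂ + 2 * n * c₁) := by
    refine (Finset.sum_le_sum fun x _ => Finset.sum_le_sum fun y _ =>
      real_pat_inter_le hmul σ E x.2 y.2 (hB x.1) (hB y.1)).trans (le_of_eq ?_)
    simp only [Finset.sum_add_distrib]
    have e₀ : ∑ x : Fin p × Fin n, ∑ y : Fin p × Fin n,
        (unif H).real (cyl E (B x.1)) * (unif H).real (cyl E (B y.1)) = (s * n) ^ 2 := by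
      rw [← Finset.sum_mul_sum, Fintype.sum_prod_type]
      simp only [Finset.sum_const, card_univ, Fintype.card_fin, nsmul_eq_mul]
      rw [← Finset.mul_sum, ← hs]
      ring
    rw [e₀, sum_pairs_snd fun v w : Fin n => if v = w then (1 : ℝ) else 0,
      sum_pairs_snd fun v w : Fin n => if Coll k σ E v w then (1 : ℝ) else 0,
      sum_pairs_snd fun v _w : Fin n => if Coll k σ E v v then (1 : ℝ) else 0,
      sum_pairs_snd fun _v w : Fin n => if Coll k σ E w w then (1 : ℝ) else 0, Fintype.card_fin]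
    simp only [Finset.sum_ite_eq, mem_univ, if_true, Finset.sum_const, card_univ, Fintype.card_fin,
      nsmul_eq_mul, mul_one, hc₁, hc₂, coll₁, coll₂, ← Finset.mul_sum]
    ring
  have hsp : s ≤ p := by
    rw [hs]
    exact (Finset.sum_le_sum fun m _ => measureReal_le_one).trans (by simp)
  have hs0 : 0 ≤ s := hs ▸ Finset.sum_nonneg fun m _ => measureReal_nonneg
  have hc₁0 : 0 ≤ c₁ := Finset.sum_nonneg fun v _ => by split_ifs <;> norm_num
  have hS : ∫ L, (F L - s * n) ^ 2 ∂μL ≤ (p : ℝ) ^ 2 * (n + c₂ + 4 * n * c₁) := by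
    simp only [hsq]
    rw [integral_add (hQi.sub' (hFi.const_mul _)) (integrable_const _),
      integral_sub hQi (hFi.const_mul _), integral_const_mul, hF, integral_const,
      integral_finsetSum _ fun x _ => integrable_finsetSum _ fun y _ =>
        (integrable_const _).indicator ((ha x).inter (ha y))]
    simp only [integral_sum_indicator _ _ fun y => (ha _).inter (ha y), probReal_univ, one_smul]
    nlinarith [mul_le_mul_of_nonneg_left hFlo (show (0 : ℝ) ≤ 2 * (s * n) by positivity),
      mul_le_mul_of_nonneg_right hsp (show (0 : ℝ) ≤ 2 * p * n * c₁ by positivity)]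
  have hint : ∫ L, R * F L ∂μL ≤ ∫ L, T L + (R * ε * n + R * (p * n) * bad ε σ +
      K * (F L - s * n) ^ 2) ∂μL :=
    integral_mono (hFi.const_mul _) (hTi.add ((integrable_const _).add (hSi.const_mul _))) hpoint
  rw [integral_const_mul, integral_add hTi ((integrable_const _).fun_add (hSi.const_mul _)),
    integral_add (integrable_const _) (hSi.const_mul _), integral_const, integral_const_mul, hF,
    hT, probReal_univ, one_smul] at hint
  calc R * (s * n - p * c₁) ≤ R * ∑ x, μL.real (a x) := mul_le_mul_of_nonneg_left hFlo hR0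
    _ ≤ _ := hint
    _ ≤ _ := add_le_add hThi (add_le_add le_rfl (mul_le_mul_of_nonneg_left hS hK0))

end Fixed

lemma sum_sum_ite_le {α β : Type*} [Fintype α] [Fintype β] (P : α → β → Prop)
    [∀ a b, Decidable (P a b)] {b₀ : ℝ} (h : ∀ b, ({a | P a b}.ncard : ℝ) ≤ b₀) :
    ∑ a, ∑ b, (if P a b then (1 : ℝ) else 0) ≤ Fintype.card β * b₀ := by
  rw [Finset.sum_comm]
  refine (Finset.sum_le_sum fun b _ => ?_).trans
    (le_of_eq (by rw [Finset.sum_const, card_univ, nsmul_eq_mul]))
  rw [Finset.sum_boole, ← Set.ncard_coe_finset]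
  simpa using h b

variable {H : Type*} [Group H] {p : ℕ}

/-- The inequality for cylinders. -/
lemma cylinder_expansion (hp : 20 ≤ p) (q : Fin p × Fin p → H)
    (hq : Function.Injective (FreeGroup.lift q)) (E : Finset H)
    (B C : Fin p → Set (E → unitInterval))
    (hB : ∀ m, MeasurableSet (B m)) (hC : ∀ j, MeasurableSet (C j))
    (hcov : ∀ j x, x ∈ cyl E (C j) ↔ ∃ m, (fun h => x ((q (m, j))⁻¹ * h)) ∈ cyl E (B m))
    (hsmall : ∑ m, (unif H).real (cyl E (B m)) ≤ 3 / 2 * exp (-100)) :
    9 / 10 * p * ∑ m, (unif H).real (cyl E (B m)) ≤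
      ∑ j, (unif H).real (cyl E (C j)) := by
  classical
  obtain ⟨k, r, hmul, heq⟩ := exists_coords q hq
  set s := ∑ m, (unif H).real (cyl E (B m)) with hs
  set u := ∑ j, (unif H).real (cyl E (C j))
  set R : ℝ := 9 / 10 * p with hR
  set C₀ : ℝ := (R + 1) * p + R + R * p + R * p * (6 * (p : ℝ) ^ 2) / exp (-100) ^ 2
  have hC₀ : 0 < C₀ := by
    have : (0 : ℝ) < p := by exact_mod_cast (show 0 < p by omega)
    positivity
  refine le_of_forall_pos_le_add fun η hη => ?_
  set ε := η / C₀ with hεdef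
  have hε : 0 < ε := by positivity
  obtain ⟨N, hN⟩ := exists_nat_ge (1 / ε)
  obtain ⟨n, ⟨⟨hcoll, hbad⟩, hn0⟩, hnN⟩ := ((((eventually_coll_rare (k := k) E hε).and
    (eventually_shrinks_rare hp hε)).and (Filter.eventually_gt_atTop 0)).and
    (Filter.eventually_ge_atTop N)).exists
  have hn : (0 : ℝ) < n := by exact_mod_cast hn0
  have hεn : 1 ≤ ε * n := by
    rw [← div_le_iff₀' hε]
    exact hN.trans (by exact_mod_cast hnN)
  set c := (Fintype.card (Fin p × Fin p → Equiv.Perm (Fin n)) : ℝ) with hc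
  have hc0 : 0 < c := by simp only [hc]; exact_mod_cast Fintype.card_pos
  have hS₁ : ∑ σ : Fin p × Fin p → Equiv.Perm (Fin n), coll₁ k σ E ≤ n * (ε * c) := by
    refine (sum_sum_ite_le (fun (σ : Fin p × Fin p → Equiv.Perm (Fin n)) (v : Fin n) =>
      Coll k σ E v v) fun v => hcoll v v).trans ?_
    simp [hc]
  have hS₂ : ∑ σ : Fin p × Fin p → Equiv.Perm (Fin n), coll₂ k σ E ≤ n * n * (ε * c) := by
    have := sum_sum_ite_le (fun (σ : Fin p × Fin p → Equiv.Perm (Fin n)) (x : Fin n × Fin n) =>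
      Coll k σ E x.1 x.2) fun x => hcoll x.1 x.2
    simp only [Fintype.sum_prod_type, Fintype.card_prod, Fintype.card_fin, Nat.cast_mul] at this
    exact this
  have hS₃ : ∑ σ, bad (p := p) (n := n) ε σ ≤ ε * c := by
    simp only [bad]
    rw [Finset.sum_boole, ← Set.ncard_coe_finset]
    simpa using hbad
  have hsum := Finset.sum_le_sum (s := univ) fun σ _ =>
    fixed_perm_bound (n := n) hp hmul heq E B C hB hC hcov hs hsmall hε.le σ
  simp only [Finset.sum_add_distrib, Finset.sum_sub_distrib, ← Finset.mul_sum, Finset.sum_const,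
    card_univ, nsmul_eq_mul, ← hc, ← hR] at hsum
  set S₁ := ∑ σ : Fin p × Fin p → Equiv.Perm (Fin n), coll₁ k σ E
  set S₂ := ∑ σ : Fin p × Fin p → Equiv.Perm (Fin n), coll₂ k σ E
  set S₃ := ∑ σ : Fin p × Fin p → Equiv.Perm (Fin n), bad ε σ
  have hR0 : 0 ≤ R := by positivity
  have hδ : (0 : ℝ) < exp (-100) ^ 2 := by positivity
  have hbr : c * n + S₂ + 4 * n * S₁ ≤ 6 * ε * n ^ 2 * c := by
    nlinarith [mul_le_mul_of_nonneg_left hS₁ hn.le,
      mul_le_mul_of_nonneg_left hεn (show (0 : ℝ) ≤ c * n by positivity)]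
  have hdiv : R * (p * n) / (exp (-100) * n) ^ 2 * ((p : ℝ) ^ 2 * (c * n + S₂ + 4 * n * S₁)) ≤
      R * p * (6 * (p : ℝ) ^ 2) / exp (-100) ^ 2 * (ε * n * c) := by
    calc _ ≤ R * (p * n) / (exp (-100) * n) ^ 2 * ((p : ℝ) ^ 2 * (6 * ε * n ^ 2 * c)) :=
          mul_le_mul_of_nonneg_left (mul_le_mul_of_nonneg_left hbr (by positivity)) (by positivity)
      _ = _ := by field_simp
  have key : R * s * (c * n) ≤ (u + η) * (c * n) := by
    rw [show η = C₀ * ε by rw [hεdef]; field_simp]
    nlinarith [mul_le_mul_of_nonneg_left hS₁ (show (0 : ℝ) ≤ (R + 1) * p by positivity),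
      mul_le_mul_of_nonneg_left hS₃ (show (0 : ℝ) ≤ R * (p * n) by positivity), hdiv]
  exact le_of_mul_le_mul_right key (by positivity)

section Approx

variable {G : Type*} [Group G] [Countable G]

omit [Countable G] in
lemma shift_map (g : G) : (unif G).map (fun x h => x (g * h)) = unif G :=
  unif_map_comp _ (mul_right_injective g)

omit [Countable G] in
lemma measurable_shift (g : G) : Measurable fun (x : G → unitInterval) h => x (g * h) :=
  measurable_pi_lambda _ fun _ => measurable_pi_apply _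

/-- **Sparse expansion.** -/
theorem sparse_expansion {H : Type*} [Group H] [Countable H] (p : ℕ) (hp : 20 ≤ p)
    (q : Fin p × Fin p → H) (hq : Function.Injective (FreeGroup.lift q))
    (S : Fin p → Set (H → unitInterval)) (hS : ∀ m, MeasurableSet (S m))
    (hsmall : ∑ m, (Measure.infinitePi fun _ : H => (volume : Measure unitInterval)).real (S m) ≤
      Real.exp (-100)) :
    9 / 10 * p * ∑ m, (Measure.infinitePi fun _ : H => (volume : Measure unitInterval)).real (S m) ≤
      ∑ j, (Measure.infinitePi fun _ : H => (volume : Measure unitInterval)).real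
        (⋃ m, {x | (fun h => x ((q (m, j))⁻¹ * h)) ∈ S m}) := by
  classical
  change 9 / 10 * p * ∑ m, (unif H).real (S m) ≤ ∑ j, (unif H).real _
  have hpR : (20 : ℝ) ≤ p := by exact_mod_cast hp
  refine le_of_forall_pos_le_add fun η hη => ?_
  set ε := min (exp (-100) / (2 * p)) (η / (2 * p ^ 2)) with hεdef
  have hε : 0 < ε := lt_min (by positivity) (by positivity)
  have happ : ∀ m, ∃ t ∈ measurableCylinders (fun _ : H => unitInterval),
      (unif H) (symmDiff t (S m)) < ENNReal.ofReal ε := fun m =>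
    exists_measure_symmDiff_lt_of_generateFrom_isSetRing isSetRing_measurableCylinders
      ⟨{Set.univ}, Set.countable_singleton _, Set.singleton_subset_iff.2
        isSetAlgebra_measurableCylinders.univ_mem, by simp⟩
      generateFrom_measurableCylinders.symm (hS m) (ENNReal.ofReal_pos.2 hε)
  choose t ht hlt using happ
  choose E₀ B₀ hB₀ htB using fun m => (mem_measurableCylinders _).1 (ht m)
  set E₁ := univ.biUnion E₀
  set E := E₁ ∪ (univ : Finset (Fin p × Fin p)).biUnion fun i => E₁.image fun h => (q i)⁻¹ * h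
  have hE₀ : ∀ m, E₀ m ⊆ E := fun m h hh =>
    mem_union_left _ (mem_biUnion.2 ⟨m, mem_univ _, hh⟩)
  have hEq : ∀ m j, ∀ h ∈ E₀ m, (q (m, j))⁻¹ * h ∈ E := fun m j h hh =>
    mem_union_right _ (mem_biUnion.2 ⟨(m, j), mem_univ _,
      mem_image.2 ⟨h, mem_biUnion.2 ⟨m, mem_univ _, hh⟩, rfl⟩⟩)
  let B : Fin p → Set (E → unitInterval) := fun m =>
    (fun (y : E → unitInterval) (h : E₀ m) => y ⟨h, hE₀ m h.2⟩) ⁻¹' B₀ m
  let C : Fin p → Set (E → unitInterval) := fun j =>
    ⋃ m, (fun (y : E → unitInterval) (h : E₀ m) => y ⟨(q (m, j))⁻¹ * h, hEq m j h h.2⟩) ⁻¹' B₀ m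
  have hB : ∀ m, MeasurableSet (B m) := fun m =>
    (measurable_pi_lambda _ fun _ => measurable_pi_apply _) (hB₀ m)
  have hC : ∀ j, MeasurableSet (C j) := fun j =>
    MeasurableSet.iUnion fun m =>
      (measurable_pi_lambda _ fun _ => measurable_pi_apply _) (hB₀ m)
  have htB' : ∀ m, t m = cyl E (B m) := fun m => htB m
  have hcov : ∀ j x, x ∈ cyl E (C j) ↔
      ∃ m, (fun h => x ((q (m, j))⁻¹ * h)) ∈ cyl E (B m) := fun j x => by
    simp only [C, mem_cylinder, Set.mem_iUnion, Set.mem_preimage]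
    exact Iff.rfl
  have htm : ∀ m, MeasurableSet (t m) := fun m => htB' m ▸ (hB m).cylinder E
  have hsd : ∀ m, (unif H).real (symmDiff (t m) (S m)) ≤ ε := fun m =>
    ENNReal.toReal_le_of_le_ofReal hε.le (hlt m).le
  have h₁ : ∀ m, (unif H).real (cyl E (B m)) ≤ (unif H).real (S m) + ε := fun m => by
    rw [← htB' m]
    have hsub : t m ⊆ S m ∪ symmDiff (t m) (S m) := fun x hx => by
      by_cases hxS : x ∈ S m
      · exact Or.inl hxS
      · exact Or.inr (Or.inl ⟨hx, hxS⟩)
    have := (measureReal_mono (μ := unif H) hsub).trans (measureReal_union_le _ _)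
    linarith [hsd m]
  have h₂ : ∀ m, (unif H).real (S m) ≤ (unif H).real (cyl E (B m)) + ε := fun m => by
    rw [← htB' m]
    have hsub : S m ⊆ t m ∪ symmDiff (t m) (S m) := fun x hx => by
      by_cases hxt : x ∈ t m
      · exact Or.inl hxt
      · exact Or.inr (Or.inr ⟨hx, hxt⟩)
    have := (measureReal_mono (μ := unif H) hsub).trans (measureReal_union_le _ _)
    linarith [hsd m]
  have h₃ : ∀ j, (unif H).real (cyl E (C j)) ≤
      (unif H).real (⋃ m, {x | (fun h => x ((q (m, j))⁻¹ * h)) ∈ S m}) + p * ε := fun j => by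
    have hsub : cyl E (C j) ⊆ (⋃ m, {x | (fun h => x ((q (m, j))⁻¹ * h)) ∈ S m}) ∪
        ⋃ m, (fun x h => x ((q (m, j))⁻¹ * h)) ⁻¹' symmDiff (t m) (S m) := fun x hx => by
      obtain ⟨m, hm⟩ := (hcov j x).1 hx
      rw [← htB' m] at hm
      by_cases hxS : (fun h => x ((q (m, j))⁻¹ * h)) ∈ S m
      · exact Or.inl (Set.mem_iUnion.2 ⟨m, hxS⟩)
      · exact Or.inr (Set.mem_iUnion.2 ⟨m, Or.inl ⟨hm, hxS⟩⟩)
    refine ((measureReal_mono hsub).trans (measureReal_union_le _ _)).trans
      (add_le_add le_rfl ((measureReal_iUnion_fintype_le _).trans ?_))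
    calc _ ≤ ∑ _m : Fin p, ε := Finset.sum_le_sum fun m _ => ?_
      _ = _ := by simp
    rw [← map_measureReal_apply (measurable_shift _) ((htm m).symmDiff (hS m)), shift_map]
    exact hsd m
  have hε₁ : (p : ℝ) * ε ≤ exp (-100) / 2 :=
    le_trans (mul_le_mul_of_nonneg_left (min_le_left _ _) (Nat.cast_nonneg p))
      (le_of_eq (by field_simp))
  have hε₂ : 2 * (p : ℝ) ^ 2 * ε ≤ η :=
    le_trans (mul_le_mul_of_nonneg_left (min_le_right _ _) (by positivity))
      (le_of_eq (by field_simp))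
  have hsum : ∀ f g : Fin p → ℝ, (∀ m, f m ≤ g m + ε) → ∑ m, f m ≤ ∑ m, g m + p * ε :=
    fun f g h => (Finset.sum_le_sum fun m _ => h m).trans 
      (le_of_eq (by simp [Finset.sum_add_distrib]))
  have hBsmall := (hsum _ _ h₁).trans (show _ ≤ 3 / 2 * exp (-100) by
    have : ∑ m, (unif H).real (S m) ≤ exp (-100) := hsmall
    linarith)
  have hmain := cylinder_expansion hp q hq E B C hB hC hcov hBsmall
  have hCsum : ∑ j, (unif H).real (cyl E (C j)) ≤
      (∑ j, (unif H).real (⋃ m, {x | (fun h => x ((q (m, j))⁻¹ * h)) ∈ S m})) + p * (p * ε) :=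
    (Finset.sum_le_sum fun j _ => h₃ j).trans (le_of_eq (by simp [Finset.sum_add_distrib]))
  nlinarith [mul_le_mul_of_nonneg_left (hsum _ _ h₂) (show (0 : ℝ) ≤ 9 / 10 * p by positivity),
    mul_nonneg (sq_nonneg (p : ℝ)) hε.le]

end Approx

end Vale.Agent.P189.Sparse
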