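import Vale.Agent.P189.Graph
import Vale.Agent.P189.Word
import Vale.Agent.P189.Sparse

/-!
The expansion of an invariant random family of cells with multiplicities: layer cake and sparse
expansion.
-/

namespace Vale.Agent.P189

open MeasureTheory
open scoped ENNReal

lemma tsum_ind_eq_encard {T : Type*} (P : T → Prop) :
    ∑' t, ind (P t) = ({t | P t}.encard : ℝ≥0∞) := by
  classical
  rw [← ENNReal.tsum_set_one, tsum_subtype {t | P t} fun _ => (1 : ℝ≥0∞)]
  refine tsum_congr fun t => ?_
  by_cases h : P t <;> simp [ind_pos, ind_neg, Set.indicator, h]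

lemma tsum_layers (n : ℕ∞) : ∑' k : ℕ, ind ((k : ℝ≥0∞) < (n : ℝ≥0∞)) = (n : ℝ≥0∞) := by
  induction n using ENat.recTopCoe with
  | top => simp [ind_pos]
  | coe n =>
    rw [tsum_eq_sum (s := Finset.range n) fun k hk => ind_neg ?_]
    · rw [Finset.sum_congr rfl fun k hk => ind_pos ?_]
      · simp
      · simpa using hk
    · simpa using hk

lemma lintegral_ind {α : Type*} [MeasurableSpace α] (μ : Measure α) {P : α → Prop}
    (hP : MeasurableSet {x | P x}) : ∫⁻ x, ind (P x) ∂μ = μ {x | P x} := by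
  classical
  rw [← lintegral_indicator_one hP]
  refine lintegral_congr fun x => ?_
  by_cases h : P x <;> simp [ind_pos, ind_neg, h]

lemma measurable_ind {α : Type*} [MeasurableSpace α] {P : α → Prop}
    (hP : MeasurableSet {x | P x}) : Measurable fun x => ind (P x) := by
  classical
  exact Measurable.ite hP measurable_const measurable_const

/-- **Expansion of cells.** A sparse invariant family of cells touches many edges. -/
theorem cells_expansion {p : ℕ} (hp : 20 ≤ p) {T : Type} [Countable T]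
    {C : Lab (G p) → G p × (Fin p × T) → Prop} (hCm : ∀ a, Measurable fun x => C x a)
    (hCe : ∀ h x a, C (sh h x) (tr h a) ↔ C x a)
    (hF : dens (fun x a => ind (C x a)) ≤ ENNReal.ofReal (Real.exp (-100))) :
    ENNReal.ofReal (9/10 * p) * dens (fun x a => ind (C x a)) ≤
      ∑ j : Fin p, ∫⁻ x, ⨆ m : Fin p, ∑' t : T, ind (C x ((q m j)⁻¹, (m, t))) ∂law (G p) := by
  have : Nonempty (Fin p) := ⟨⟨0, by omega⟩⟩
  have hCset : ∀ a, MeasurableSet {x | C x a} := fun a => measurableSet_setOfPred.2 (hCm a)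
  let Nm : Fin p → Lab (G p) → ℝ≥0∞ := fun m x => ∑' t, ind (C x (1, (m, t)))
  have hNm : ∀ m, Measurable (Nm m) := fun m =>
    Measurable.tsum fun t => measurable_ind (hCset _)
  have hlayer : ∀ m x, ∑' k : ℕ, ind ((k : ℝ≥0∞) < Nm m x) = Nm m x := fun m x => by
    rw [show Nm m x = _ from tsum_ind_eq_encard _]
    exact tsum_layers _
  let S : ℕ → Fin p → Set (Lab (G p)) := fun k m => {x | (k : ℝ≥0∞) < Nm m x}
  have hS : ∀ k m, MeasurableSet (S k m) := fun k m => measurableSet_lt measurable_const (hNm m)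
  let U : ℕ → Fin p → Set (Lab (G p)) := fun k j => ⋃ m, sh (q m j) ⁻¹' S k m
  have hU : ∀ k j, MeasurableSet (U k j) := fun k j =>
    MeasurableSet.iUnion fun m => measurable_sh _ (hS k m)
  have hdens : dens (fun x a => ind (C x a)) = ∑' k, ∑ m, law (G p) (S k m) := by
    calc dens (fun x a => ind (C x a)) = ∫⁻ x, ∑ m, Nm m x ∂law (G p) :=
          lintegral_congr fun x => by rw [ENNReal.tsum_prod', tsum_fintype]
      _ = ∑ m, ∫⁻ x, Nm m x ∂law (G p) := lintegral_finsetSum _ fun m _ => hNm m
      _ = ∑ m, ∑' k, law (G p) (S k m) := Finset.sum_congr rfl fun m _ => by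
          rw [← lintegral_congr (fun x => hlayer m x),
            lintegral_tsum fun k => (measurable_ind (hS k m)).aemeasurable]
          exact tsum_congr fun k => lintegral_ind _ (hS k m)
      _ = _ := (Summable.tsum_finsetSum fun _ _ => ENNReal.summable).symm
  have hside : ∀ j, ∫⁻ x, ⨆ m : Fin p, ∑' t : T, ind (C x ((q m j)⁻¹, (m, t))) ∂law (G p) =
      ∑' k, law (G p) (U k j) := by
    intro j
    have hshift : ∀ x m, ∑' t : T, ind (C x ((q m j)⁻¹, (m, t))) = Nm m (sh (q m j) x) :=
      fun x m => tsum_congr fun t => ind_congr (by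
        rw [← hCe (q m j) x ((q m j)⁻¹, (m, t))]
        simp [tr])
    have hsup : ∀ x, ⨆ m : Fin p, Nm m (sh (q m j) x) = ∑' k : ℕ, ind (x ∈ U k j) := by
      intro x
      obtain ⟨m₀, hm₀⟩ := exists_eq_ciSup_of_finite (f := fun m => Nm m (sh (q m j) x))
      rw [← hm₀, ← hlayer m₀]
      refine tsum_congr fun k => ind_congr ?_
      simp only [U, S, Set.mem_iUnion, Set.mem_preimage, Set.mem_ofPred_eq]
      exact ⟨fun h => ⟨m₀, h⟩, fun ⟨m, h⟩ =>
        h.trans_le ((le_iSup (fun m => Nm m (sh (q m j) x)) m).trans_eq hm₀.symm)⟩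
    simp_rw [hshift, hsup]
    rw [lintegral_tsum (f := fun k x => ind (x ∈ U k j))
      fun k => (measurable_ind (P := fun x => x ∈ U k j) (hU k j)).aemeasurable]
    exact tsum_congr fun k => lintegral_ind _ (hU k j)
  rw [Finset.sum_congr rfl fun j _ => hside j, ← Summable.tsum_finsetSum fun _ _ => ENNReal.summable,
    hdens, ← ENNReal.tsum_mul_left]
  refine ENNReal.tsum_le_tsum fun k => ?_
  have hk : ∑ m, law (G p) (S k m) ≤ ENNReal.ofReal (Real.exp (-100)) :=
    (ENNReal.le_tsum k).trans (hdens ▸ hF)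
  have hsmall : ∑ m, (law (G p)).real (S k m) ≤ Real.exp (-100) := by
    simp only [Measure.real]
    rw [← ENNReal.toReal_sum fun m _ => measure_ne_top _ _]
    exact ENNReal.toReal_le_of_le_ofReal (Real.exp_pos _).le hk
  have h : 9 / 10 * p * ∑ m, (law (G p)).real (S k m) ≤ ∑ j, (law (G p)).real (U k j) :=
    Sparse.sparse_expansion p hp (fun i : Fin p × Fin p => q i.1 i.2) (q_free p) (S k) (hS k)
      hsmall
  simp only [Measure.real] at h
  rw [← ENNReal.toReal_sum fun m _ => measure_ne_top _ _,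
    ← ENNReal.toReal_sum fun m _ => measure_ne_top _ _] at h
  rw [← ENNReal.ofReal_toReal (ENNReal.sum_ne_top.2 fun m _ => measure_ne_top (law (G p)) (S k m)),
    ← ENNReal.ofReal_mul (by positivity)]
  exact (ENNReal.ofReal_le_ofReal h).trans ENNReal.ofReal_toReal_le

end Vale.Agent.P189
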