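import Vale.Agent.P189.Graph

/-!
Walks: lists of directed edges whose consecutive ends are related. In a fold closed relation a
walk whose image reduces to nothing joins related ends.
-/

namespace Vale.Agent.P189

variable {H S S' : Type}

/-- The reverse of a list of directed edges. -/
def invW {α : Type} (w : List (α × Bool)) : List (α × Bool) :=
  (w.map fun a => (a.1, !a.2)).reverse

/-- The list, or its reverse. -/
def dirW {α : Type} (d : Bool) (w : List (α × Bool)) : List (α × Bool) := if d then w else invW w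

/-- A walk from `a` to `b`; the edge `(e, d)` is crossed from `en e (!d)` to `en e d`. -/
def Walk (R : End H S → End H S → Prop) (E : Set (H × S)) :
    End H S → List ((H × S) × Bool) → End H S → Prop
  | a, [], b => R a b
  | a, (e, d) :: w, b => R a (en e (!d)) ∧ e ∈ E ∧ Walk R E (en e d) w b

lemma mk_invW {α : Type} (w : List (α × Bool)) :
    FreeGroup.mk (invW w) = (FreeGroup.mk w)⁻¹ := by
  rw [FreeGroup.inv_mk]
  rfl

lemma length_invW {α : Type} (w : List (α × Bool)) : (invW w).length = w.length := by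
  simp [invW]

lemma length_dirW {α : Type} (d : Bool) (w : List (α × Bool)) :
    (dirW d w).length = w.length := by
  cases d <;> simp [dirW, length_invW]

lemma mem_invW {α : Type} {w : List (α × Bool)} {y : α} {d : Bool} :
    (y, d) ∈ invW w ↔ (y, !d) ∈ w := by
  simp only [invW, List.mem_reverse, List.mem_map, Prod.exists, Prod.mk.injEq]
  constructor
  · rintro ⟨a, b, h, rfl, rfl⟩
    simpa using h
  · exact fun h => ⟨y, !d, h, rfl, Bool.not_not d⟩

lemma mem_dirW {α : Type} {d : Bool} {w : List (α × Bool)} {z : α × Bool} (h : z ∈ dirW d w) :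
    ∃ d', (z.1, d') ∈ w := by
  cases d
  · exact ⟨!z.2, mem_invW.1 h⟩
  · exact ⟨z.2, h⟩

section

variable {R : End H S → End H S → Prop} {E : Set (H × S)}

lemma Walk.congr_left (hR : Equivalence R) {a a' b : End H S} {w : List ((H × S) × Bool)}
    (h : R a' a) (hw : Walk R E a w b) : Walk R E a' w b := by
  cases w with
  | nil => exact hR.trans h hw
  | cons z w => exact ⟨hR.trans h hw.1, hw.2⟩

lemma Walk.congr_right (hR : Equivalence R) : ∀ {w : List ((H × S) × Bool)} {a b b' : End H S},
    R b b' → Walk R E a w b → Walk R E a w b'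
  | [], _, _, _, h, hw => hR.trans hw h
  | (_, _) :: _, _, _, _, h, hw => ⟨hw.1, hw.2.1, hw.2.2.congr_right hR h⟩

lemma Walk.append (hR : Equivalence R) :
    ∀ {w w' : List ((H × S) × Bool)} {a b c : End H S},
    Walk R E a w b → Walk R E b w' c → Walk R E a (w ++ w') c
  | [], _, _, _, _, h, h' => h'.congr_left hR h
  | (_, _) :: _, _, _, _, _, h, h' => ⟨h.1, h.2.1, h.2.2.append hR h'⟩

lemma Walk.split (hR : Equivalence R) :
    ∀ {w w' : List ((H × S) × Bool)} {a c : End H S},
    Walk R E a (w ++ w') c → ∃ b, Walk R E a w b ∧ Walk R E b w' c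
  | [], _, a, _, h => ⟨a, hR.refl a, h⟩
  | (e, d) :: w, w', _, _, h => by
    obtain ⟨b, hb, hb'⟩ := Walk.split hR (w := w) h.2.2
    exact ⟨b, ⟨h.1, h.2.1, hb⟩, hb'⟩

lemma Walk.inv (hR : Equivalence R) : ∀ {w : List ((H × S) × Bool)} {a b : End H S},
    Walk R E a w b → Walk R E b (invW w) a
  | [], _, _, h => hR.symm h
  | (e, d) :: w, a, b, h => by
    have hl : Walk R E (en e d) [(e, !d)] a :=
      ⟨by rw [Bool.not_not]; exact hR.refl _, h.2.1, hR.symm h.1⟩
    have := (h.2.2.inv hR).append hR hl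
    simpa [invW] using this

lemma Walk.dir (hR : Equivalence R) {d : Bool} {w : List ((H × S) × Bool)} {e : H × S}
    (h : Walk R E (en e false) w (en e true)) : Walk R E (en e (!d)) (dirW d w) (en e d) := by
  cases d
  · exact h.inv hR
  · exact h

lemma Walk.mem : ∀ {w : List ((H × S) × Bool)} {a b : End H S}, Walk R E a w b →
    ∀ z ∈ w, z.1 ∈ E
  | [], _, _, _, _, hz => absurd hz List.not_mem_nil
  | (_, _) :: _, _, _, h, z, hz => by
    rcases List.mem_cons.1 hz with rfl | hz
    · exact h.2.1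
    · exact h.2.2.mem z hz

/-- The three ways in which a letter meets its neighbours. -/
lemma Walk.getElem : ∀ {w : List ((H × S) × Bool)} {a b : End H S}, Walk R E a w b →
    ∀ i (z : (H × S) × Bool), w[i]? = some z →
      (i = 0 → R a (en z.1 (!z.2))) ∧ (i + 1 = w.length → R (en z.1 z.2) b) ∧
        ∀ z', w[i + 1]? = some z' → R (en z.1 z.2) (en z'.1 (!z'.2))
  | [], _, _, _, _, _, hz => by simp at hz
  | (e, d) :: w, _, _, h, 0, z, hz => by
    simp only [List.getElem?_cons_zero, Option.some.injEq] at hz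
    subst hz
    refine ⟨fun _ => h.1, fun hl => ?_, fun z' hz' => ?_⟩
    · cases w with
      | nil => exact h.2.2
      | cons _ _ => simp at hl
    · cases w with
      | nil => simp at hz'
      | cons z'' _ =>
        simp only [List.getElem?_cons_succ, List.getElem?_cons_zero, Option.some.injEq] at hz'
        subst hz'
        exact h.2.2.1
  | (_, _) :: _, _, _, h, i + 1, z, hz => by
    rw [List.getElem?_cons_succ] at hz
    obtain ⟨-, h2, h3⟩ := h.2.2.getElem i z hz
    exact ⟨fun h => by simp at h, fun hl => h2 (by simpa using hl),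
      fun z' hz' => h3 z' (by simpa using hz')⟩

end

section

variable {Γ : Gph H S'} {φ : H × S' → H × S}

lemma exists_step_of_not_reduced {α : Type} : ∀ {L : List (α × Bool)},
    ¬FreeGroup.IsReduced L → ∃ L₁ L₂ a b, L = L₁ ++ (a, b) :: (a, !b) :: L₂
  | [], h => absurd FreeGroup.IsReduced.nil h
  | [_], h => absurd FreeGroup.IsReduced.singleton h
  | (a, b) :: (a', b') :: L, h => by
    by_cases h' : FreeGroup.IsReduced ((a', b') :: L)
    · rw [FreeGroup.isReduced_cons_cons] at h
      have : a = a' ∧ b ≠ b' := by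
        by_contra hne
        exact h ⟨fun he => by_contra fun hb => hne ⟨he, hb⟩, h'⟩
      obtain ⟨rfl, hb⟩ := this
      exact ⟨[], L, a, b, by simp [Bool.eq_not.2 (Ne.symm hb)]⟩
    · obtain ⟨L₁, L₂, c, d, he⟩ := exists_step_of_not_reduced h'
      exact ⟨(a, b) :: L₁, L₂, c, d, by rw [he]; rfl⟩

/-- The image of a list of directed edges. -/
def imgW (φ : H × S' → H × S) (w : List ((H × S') × Bool)) : List ((H × S) × Bool) :=
  w.map fun z => (φ z.1, z.2)

@[simp] lemma imgW_append (φ : H × S' → H × S) (w w' : List ((H × S') × Bool)) :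
    imgW φ (w ++ w') = imgW φ w ++ imgW φ w' := List.map_append

@[simp] lemma imgW_invW (φ : H × S' → H × S) (w : List ((H × S') × Bool)) :
    imgW φ (invW w) = invW (imgW φ w) := by
  simp [imgW, invW, List.map_reverse, List.map_map, Function.comp_def]

lemma imgW_dirW (φ : H × S' → H × S) (d : Bool) (w : List ((H × S') × Bool)) :
    imgW φ (dirW d w) = dirW d (imgW φ w) := by
  cases d <;> simp [dirW]

/-- Reduction of a walk by folding. -/
theorem Walk.exists_reduced (hΓ : Equivalence Γ.R) :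
    ∀ (n : ℕ) {w : List ((H × S') × Bool)} {a b : End H S'}, w.length ≤ n →
      Walk (FoldRel Γ φ) Γ.E a w b → ∃ w', Walk (FoldRel Γ φ) Γ.E a w' b ∧
        FreeGroup.IsReduced (imgW φ w') ∧
        FreeGroup.mk (imgW φ w') = FreeGroup.mk (imgW φ w) := by
  intro n
  induction n with
  | zero =>
    intro w a b hn h
    obtain rfl := List.length_eq_zero_iff.1 (Nat.le_zero.1 hn)
    exact ⟨[], h, FreeGroup.IsReduced.nil, rfl⟩
  | succ n ih =>
    intro w a b hn h
    by_cases hred : FreeGroup.IsReduced (imgW φ w)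
    · exact ⟨w, h, hred, rfl⟩
    have hq := foldRel_equivalence (φ := φ) hΓ
    obtain ⟨L₁, L₂, y, d, he⟩ := exists_step_of_not_reduced hred
    obtain ⟨w₁, w₂, rfl, rfl, h2⟩ := List.map_eq_append_iff.1 he
    obtain ⟨⟨e₁, d₁⟩, w₃, rfl, hy₁, h3⟩ := List.map_eq_cons_iff.1 h2
    obtain ⟨⟨e₂, d₂⟩, w₄, rfl, hy₂, rfl⟩ := List.map_eq_cons_iff.1 h3
    simp only [Prod.mk.injEq] at hy₁ hy₂
    obtain ⟨hy₁, rfl⟩ := hy₁
    obtain ⟨hy₂, rfl⟩ := hy₂
    obtain ⟨c, hc, ⟨hA, hm₁, hB, hm₂, hrest⟩⟩ := h.split hq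
    rw [Bool.not_not] at hB
    have hf := FoldRel.fold hm₁ hm₂ (hy₁.trans hy₂.symm) hB
    have hw : Walk (FoldRel Γ φ) Γ.E a (w₁ ++ w₄) b :=
      hc.append hq (hrest.congr_left hq (FoldRel.trans hA hf))
    obtain ⟨w', hw', hr, hm⟩ := ih (by simp at hn ⊢; omega) hw
    refine ⟨w', hw', hr, hm.trans ?_⟩
    rw [he, imgW_append, ← FreeGroup.mul_mk, ← FreeGroup.mul_mk]
    congr 1
    exact (Quot.sound FreeGroup.Red.Step.cons_not).symm

/-- A walk with trivial image joins related ends. -/
theorem Walk.null (hΓ : Equivalence Γ.R) {w : List ((H × S') × Bool)} {a b : End H S'}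
    (h : Walk (FoldRel Γ φ) Γ.E a w b) (h1 : FreeGroup.mk (imgW φ w) = 1) :
    FoldRel Γ φ a b := by
  classical
  obtain ⟨w', hw', hr, hm⟩ := Walk.exists_reduced hΓ w.length le_rfl h
  have : imgW φ w' = [] := by
    rw [← FreeGroup.IsReduced.reduce_eq hr, ← FreeGroup.toWord_mk, hm, h1, FreeGroup.toWord_one]
  obtain rfl : w' = [] := List.map_eq_nil_iff.1 this
  exact hw'

/-- A walk with the image of one edge contains, up to folding, one edge over it. -/
theorem Walk.single (hΓ : Equivalence Γ.R) {w : List ((H × S') × Bool)} {a b : End H S'}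
    (h : Walk (FoldRel Γ φ) Γ.E a w b) {y : H × S}
    (h1 : FreeGroup.mk (imgW φ w) = FreeGroup.mk [(y, true)]) :
    ∃ e ∈ Γ.E, φ e = y ∧ FoldRel Γ φ a (en e false) ∧ FoldRel Γ φ (en e true) b := by
  classical
  obtain ⟨w', hw', hr, hm⟩ := Walk.exists_reduced hΓ w.length le_rfl h
  have : imgW φ w' = [(y, true)] := by
    rw [← FreeGroup.IsReduced.reduce_eq hr, ← FreeGroup.toWord_mk, hm, h1, FreeGroup.toWord_mk,
      FreeGroup.IsReduced.singleton.reduce_eq]
  obtain ⟨⟨e, d⟩, rfl, he⟩ := List.map_eq_singleton_iff.1 this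
  simp only [Prod.mk.injEq] at he
  obtain ⟨rfl, rfl⟩ := he
  exact ⟨e, hw'.2.1, rfl, hw'.1, hw'.2.2⟩

end

end Vale.Agent.P189
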