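import Vale.Agent.P189.Collapse
import Vale.Agent.P189.Walk

/-!
The expansion of an edge class into classes that survive the collapse: a deleted class is the
reverse of the rest of the boundary of its cell, expanded by the later rounds.
-/

namespace Vale.Agent.P189

open Function
open Fin.NatCast

variable {p : ℕ} {S0 : Type} [Countable S0]

/-- The boundary of a cell from the exit of slot `k` through the next `n` slots, each slot
replaced by the list given by `g`. -/
def arcW {α : Type} (g : Fin (p + 1) → List (α × Bool)) :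
    Fin (p + 1) → ℕ → List (α × Bool)
  | _, 0 => []
  | k, n + 1 => dirW (orient (k + 1)) (g (k + 1)) ++ arcW g (k + 1) n

/-- `w` expands the class `r` using the last `d` of `K` rounds. -/
def Exp (Z : Gph (G p) (Fin p × Lbl p S0)) (K : ℕ) :
    ℕ → CEdge p S0 → List (CEdge p S0 × Bool) → Prop
  | 0, r, w => w = [(r, true)]
  | d + 1, r, w =>
    ((¬∃ a k, DelSlot Z (K - (d + 1)) a k ∧ InSlot Z a k r) ∧ Exp Z K d r w) ∨
      ∃ a k, DelSlot Z (K - (d + 1)) a k ∧ InSlot Z a k r ∧
        ∃ (f : Fin (p + 1) → CEdge p S0) (g : Fin (p + 1) → List (CEdge p S0 × Bool)), (∀ l, InSlot Z a l (f l)) ∧ (∀ l, l ≠ k → Exp Z K d (f l) (g l)) ∧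
          w = dirW (!orient k) (arcW g k p)

lemma fin_add_cast_ne (C : G p × Fin p) (k : Fin (p + 1)) {i : ℕ} (h0 : i ≠ 0) (hi : i ≤ p) :
    k + (i : Fin (p + 1)) ≠ k := by
  have := C.2.pos
  intro h
  have h1 : ((i : Fin (p + 1)) : ℕ) = 0 := by rw [add_eq_left.1 h]; rfl
  rw [Fin.val_natCast, Nat.mod_eq_of_lt (by omega)] at h1
  exact h0 h1

lemma cast_shift (k : Fin (p + 1)) (i : ℕ) :
    (k + 1) + ((i : ℕ) : Fin (p + 1)) = k + ((i + 1 : ℕ) : Fin (p + 1)) := by
  rw [Nat.cast_succ, ← add_assoc, add_right_comm]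

lemma arcW_congr {α : Type} {g g' : Fin (p + 1) → List (α × Bool)} :
    ∀ {n : ℕ} {k : Fin (p + 1)}, (∀ i : ℕ, i < n → g (k + (i + 1 : ℕ)) = g' (k + (i + 1 : ℕ))) →
      arcW g k n = arcW g' k n
  | 0, _, _ => rfl
  | n + 1, k, h => by
    have h0 := h 0 (by omega)
    simp only [Nat.zero_add, Nat.cast_one] at h0
    simp only [arcW, h0]
    rw [arcW_congr (g := g) (g' := g') (k := k + 1) fun i hi => by rw [cast_shift]; exact h (i + 1) (by omega)]

lemma length_arcW {α : Type} {g : Fin (p + 1) → List (α × Bool)} {B : ℕ} :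
    ∀ {n : ℕ} {k : Fin (p + 1)}, (∀ i : ℕ, i < n → (g (k + (i + 1 : ℕ))).length ≤ B) →
      (arcW g k n).length ≤ n * B
  | 0, _, _ => by simp [arcW]
  | n + 1, k, h => by
    have h0 := h 0 (by omega)
    simp only [Nat.zero_add, Nat.cast_one] at h0
    have h1 := length_arcW (n := n) (k := k + 1) fun i hi => by
      have := h (i + 1) (by omega)
      rwa [Nat.cast_succ (i + 1), ← add_assoc, add_right_comm] at this
    simp only [arcW, List.length_append, length_dirW]
    rw [Nat.succ_mul]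
    omega

lemma arcW_ne_nil {α : Type} {g : Fin (p + 1) → List (α × Bool)} {k : Fin (p + 1)} {n : ℕ}
    (hn : 0 < n) (h : g (k + 1) ≠ []) : arcW g k n ≠ [] := by
  obtain ⟨n, rfl⟩ := Nat.exists_eq_succ_of_ne_zero hn.ne'
  simp only [arcW, ne_eq, List.append_eq_nil_iff, not_and]
  intro h'
  exact absurd (List.length_eq_zero_iff.1 (by rw [← length_dirW, h']; rfl)) h

lemma mem_arcW {α : Type} {g : Fin (p + 1) → List (α × Bool)} {z : α × Bool} :
    ∀ {n : ℕ} {k : Fin (p + 1)}, z ∈ arcW g k n →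
      ∃ i : ℕ, i < n ∧ ∃ d, (z.1, d) ∈ g (k + (i + 1 : ℕ))
  | 0, _, h => by simp [arcW] at h
  | n + 1, k, h => by
    rcases List.mem_append.1 h with h | h
    · exact ⟨0, by omega, by simpa using mem_dirW h⟩
    · obtain ⟨i, hi, hd⟩ := mem_arcW h
      refine ⟨i + 1, by omega, ?_⟩
      rw [Nat.cast_succ (i + 1), ← add_assoc, add_right_comm]
      exact hd

section

variable {Ψ : Gph (G p) (Fin p × S0)} {x : Lab (G p)} {t : ℕ → ℝ} {n K : ℕ}

lemma delSlot_unique {i : ℕ} {a a' r : CEdge p S0} {k k' : Fin (p + 1)}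
    (h : DelSlot (stage Ψ x t n).Z i a k) (hr : InSlot (stage Ψ x t n).Z a k r) (h' : DelSlot (stage Ψ x t n).Z i a' k')
    (hr' : InSlot (stage Ψ x t n).Z a' k' r) : a = a' ∧ k = k' := by
  obtain ⟨r', hr₁, huniq⟩ := h.2.1.1
  obtain rfl := inSlot_unique hr hr₁
  obtain rfl := huniq a' h'.1 k' hr'
  exact ⟨rfl, inSlot_slot hr hr'⟩

lemma exp_unique : ∀ {d : ℕ} {r : CEdge p S0} {w w' : List (CEdge p S0 × Bool)},
    Exp (stage Ψ x t n).Z K d r w → Exp (stage Ψ x t n).Z K d r w' → w = w'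
  | 0, _, _, _, h, h' => h.trans h'.symm
  | d + 1, _, _, _, Or.inl h, Or.inl h' => exp_unique h.2 h'.2
  | d + 1, _, _, _, Or.inl h, Or.inr ⟨a, k, h1, h2, _⟩ => absurd ⟨a, k, h1, h2⟩ h.1
  | d + 1, _, _, _, Or.inr ⟨a, k, h1, h2, _⟩, Or.inl h => absurd ⟨a, k, h1, h2⟩ h.1
  | d + 1, _, _, _, Or.inr ⟨a, k, h1, h2, f, g, hf, hg, hw⟩,
      Or.inr ⟨a', k', h1', h2', f', g', hf', hg', hw'⟩ => by
    obtain ⟨rfl, rfl⟩ := delSlot_unique h1 h2 h1' h2'
    rw [hw, hw', arcW_congr fun i hi => ?_]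
    have hne := fin_add_cast_ne (img a) k (i := i + 1) (by omega) (by omega)
    refine exp_unique (hg _ hne) ?_
    rw [inSlot_unique (hf _) (hf' _)]
    exact hg' _ hne

lemma exists_exp : ∀ {d : ℕ} {r : CEdge p S0}, ∃ w, Exp (stage Ψ x t n).Z K d r w
  | 0, r => ⟨_, rfl⟩
  | d + 1, r => by
    by_cases h : ∃ a k, DelSlot (stage Ψ x t n).Z (K - (d + 1)) a k ∧ InSlot (stage Ψ x t n).Z a k r
    · obtain ⟨a, k, h1, h2⟩ := h
      choose f hf using exists_cell_slot (remains_cellAt h1.1)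
      choose g hg using fun l => exists_exp (d := d) (r := f l)
      exact ⟨_, Or.inr ⟨a, k, h1, h2, f, g, hf, fun l _ => hg l, rfl⟩⟩
    · exact (exists_exp (d := d) (r := r)).imp fun _ hw => Or.inl ⟨h, hw⟩

lemma exp_length : ∀ {d : ℕ} {r : CEdge p S0} {w : List (CEdge p S0 × Bool)},
    Exp (stage Ψ x t n).Z K d r w → w.length ≤ p ^ d
  | 0, _, _, h => by simp [h.trans rfl]
  | d + 1, r, _, Or.inl h => (exp_length h.2).trans
    (Nat.pow_le_pow_right r.2.1.pos (Nat.le_succ d))
  | d + 1, _, _, Or.inr ⟨a, k, _, _, f, g, _, hg, hw⟩ => by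
    rw [hw, length_dirW, pow_succ, mul_comm]
    exact length_arcW fun i hi =>
      exp_length (hg _ (fin_add_cast_ne (img a) k (i := i + 1) (by omega) (by omega)))

lemma exp_ne_nil : ∀ {d : ℕ} {r : CEdge p S0} {w : List (CEdge p S0 × Bool)},
    Exp (stage Ψ x t n).Z K d r w → w ≠ []
  | 0, _, _, h => by simp [h.trans rfl]
  | d + 1, _, _, Or.inl h => exp_ne_nil h.2
  | d + 1, _, _, Or.inr ⟨a, k, _, _, f, g, _, hg, hw⟩ => by
    rw [hw]
    intro h
    have h' := congrArg List.length h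
    rw [length_dirW, List.length_nil, List.length_eq_zero_iff] at h'
    exact arcW_ne_nil (img a).2.pos (exp_ne_nil (hg _ (fin_add_one_ne (img a) k))) h'

/-- A class not deleted in the rounds before `K - d` expands into classes never deleted. -/
lemma exp_kept : ∀ {d : ℕ}, d ≤ K → ∀ {r : CEdge p S0} {w : List (CEdge p S0 × Bool)},
    IsRep (stage Ψ x t n).Z r → ¬Del (stage Ψ x t n).Z (K - d) r → Exp (stage Ψ x t n).Z K d r w →
      ∀ z ∈ w, z.1 ∈ (collapsed (stage Ψ x t n).Z K).E
  | 0, _, _, _, hr, hd, h, z, hz => by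
    rw [h, List.mem_singleton] at hz
    subst hz
    exact ⟨hr, hd⟩
  | d + 1, hd, r, w, hr, hdel, h, z, hz => by
    have hK : K - d = K - (d + 1) + 1 := by omega
    rcases h with ⟨h1, h2⟩ | ⟨a, k, h1, h2, f, g, hf, hg, hw⟩
    · refine exp_kept (by omega) hr ?_ h2 z hz
      rintro ⟨i, hi, a, k, h3, h4⟩
      rcases Nat.lt_or_ge i (K - (d + 1)) with hi' | hi'
      · exact hdel ⟨i, hi', a, k, h3, h4⟩
      · obtain rfl : i = K - (d + 1) := by omega
        exact h1 ⟨a, k, h3, h4⟩
    · rw [hw] at hz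
      obtain ⟨d', hd'⟩ := mem_dirW hz
      obtain ⟨i, hi, d'', hd''⟩ := mem_arcW hd'
      set l := k + ((i + 1 : ℕ) : Fin (p + 1))
      have hne : l ≠ k := fin_add_cast_ne (img a) k (by omega) (by omega)
      refine exp_kept (by omega) (hf l).rep ?_ (hg l hne) (z.1, d'') hd''
      rintro ⟨i', hi', a', k', h3, h4⟩
      obtain ⟨r', hr', huniq⟩ := h3.2.1.1
      obtain rfl := inSlot_unique h4 hr'
      have hle : i' ≤ K - (d + 1) := by omega
      obtain rfl := huniq a (remains_anti hle h1.1) l (hf l)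
      rcases Nat.lt_or_ge i' (K - (d + 1)) with hlt | hge
      · exact (remains_anti (Nat.succ_le_of_lt hlt) h1.1).2 ⟨k', h3.2.1.1⟩
      · obtain rfl : i' = K - (d + 1) := by omega
        have hk : k = k' := le_antisymm (h1.2.2 _ h3.2.1) (h3.2.2 _ h1.2.1)
        exact hne ((inSlot_slot (hf l) h4).trans hk.symm)

/-- The expansion at the full depth. -/
def ExpTop (Z : Gph (G p) (Fin p × Lbl p S0)) (K : ℕ) (e : CEdge p S0)
    (w : List (CEdge p S0 × Bool)) : Prop :=
  ∃ r, IsRep Z r ∧ Same Z e r ∧ Exp Z K K r w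

lemma expTop_unique {e : CEdge p S0} {w w' : List (CEdge p S0 × Bool)}
    (h : ExpTop (stage Ψ x t n).Z K e w) (h' : ExpTop (stage Ψ x t n).Z K e w') : w = w' := by
  obtain ⟨r, hr, hs, hw⟩ := h
  obtain ⟨r', hr', hs', hw'⟩ := h'
  obtain rfl := rep_unique hr hr' (same_trans (same_symm hs) hs')
  exact exp_unique hw hw'

lemma exists_expTop {e : CEdge p S0} (he : e ∈ (stage Ψ x t n).Z.E) :
    ∃ w, ExpTop (stage Ψ x t n).Z K e w := by
  obtain ⟨r, hr, hs⟩ := exists_rep he
  exact exists_exp.imp fun w hw => ⟨r, hr, hs, hw⟩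

lemma expTop_same {e e' : CEdge p S0} {w : List (CEdge p S0 × Bool)} (h : ExpTop (stage Ψ x t n).Z K e w)
    (hs : Same (stage Ψ x t n).Z e' e) : ExpTop (stage Ψ x t n).Z K e' w :=
  h.imp fun _ hr => ⟨hr.1, same_trans hs hr.2.1, hr.2.2⟩

lemma expTop_kept {e : CEdge p S0} {w : List (CEdge p S0 × Bool)} (h : ExpTop (stage Ψ x t n).Z K e w) :
    ∀ z ∈ w, z.1 ∈ (collapsed (stage Ψ x t n).Z K).E := by
  obtain ⟨r, hr, -, hw⟩ := h
  exact exp_kept le_rfl hr (fun ⟨i, hi, _⟩ => by simp at hi) hw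

lemma expTop_length {e : CEdge p S0} {w : List (CEdge p S0 × Bool)} (h : ExpTop (stage Ψ x t n).Z K e w) :
    w.length ≤ p ^ K := exp_length h.choose_spec.2.2

lemma expTop_ne_nil {e : CEdge p S0} {w : List (CEdge p S0 × Bool)} (h : ExpTop (stage Ψ x t n).Z K e w) :
    w ≠ [] := exp_ne_nil h.choose_spec.2.2

/-- A class that is never deleted is its own expansion. -/
lemma exp_of_kept : ∀ {d : ℕ}, d ≤ K → ∀ {r : CEdge p S0}, ¬Del (stage Ψ x t n).Z K r →
    Exp (stage Ψ x t n).Z K d r [(r, true)]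
  | 0, _, _, _ => rfl
  | _ + 1, _, _, hd =>
    Or.inl ⟨fun ⟨a, k, h1, h2⟩ => hd ⟨_, by omega, a, k, h1, h2⟩, exp_of_kept (by omega) hd⟩

/-- The expansion above the round of deletion. -/
lemma exp_lift {d : ℕ} {r : CEdge p S0} {w : List (CEdge p S0 × Bool)} (h : Exp (stage Ψ x t n).Z K d r w) :
    ∀ {d' : ℕ}, d ≤ d' → d' ≤ K →
      (∀ i, K - d' ≤ i → i < K - d → ¬∃ a k, DelSlot (stage Ψ x t n).Z i a k ∧ InSlot (stage Ψ x t n).Z a k r) →
        Exp (stage Ψ x t n).Z K d' r w := by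
  intro d' hd
  induction hd with
  | refl => exact fun _ _ => h
  | @step m hm ih =>
    have hm' : d ≤ m := hm
    exact fun hK hno => Or.inl ⟨hno _ le_rfl (by omega),
      ih (by omega) fun i hi hi' => hno i (by omega) hi'⟩

lemma exists_delSlot_lt {a : CEdge p S0} (h : remains (stage Ψ x t n).Z 0 a) (h' : ¬remains (stage Ψ x t n).Z K a) :
    ∃ i < K, ∃ k, DelSlot (stage Ψ x t n).Z i a k := by
  classical
  induction K with
  | zero => exact absurd h h'
  | succ i ih =>
    by_cases hi : remains (stage Ψ x t n).Z i a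
    · have hex : ∃ k, Private (stage Ψ x t n).Z (remains (stage Ψ x t n).Z i) a k := by_contra fun hne => h' ⟨hi, hne⟩
      have hpref : ∃ k, Pref (stage Ψ x t n).Z i a k := by
        by_cases hi0 : i = 0 ∧ ∃ k', PairSlot (stage Ψ x t n).Z a k'
        · obtain ⟨rfl, k', hk'⟩ := hi0
          exact ⟨k', hk'.1, fun _ _ => hk'⟩
        · exact hex.imp fun k hk => ⟨hk, fun h0 hp => absurd ⟨h0, hp⟩ hi0⟩
      obtain ⟨k, hk, hmin⟩ := Finset.exists_min_image
        (Finset.univ.filter fun k => Pref (stage Ψ x t n).Z i a k) id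
        ⟨hpref.choose, by simpa using hpref.choose_spec⟩
      simp only [Finset.mem_filter, Finset.mem_univ, true_and, id_eq] at hk hmin
      exact ⟨i, Nat.lt_succ_self i, k, hi, hk, hmin⟩
    · obtain ⟨j, hj, hk⟩ := ih hi
      exact ⟨j, by omega, hk⟩

lemma mk_arcW_step {α : Type} (g : Fin (p + 1) → List (α × Bool)) (k : Fin (p + 1)) :
    ∀ n, FreeGroup.mk (arcW g k (n + 1)) = FreeGroup.mk (arcW g k n) *
      FreeGroup.mk (dirW (orient (k + ((n + 1 : ℕ) : Fin (p + 1))))
        (g (k + ((n + 1 : ℕ) : Fin (p + 1))))) := by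
  intro n
  induction n generalizing k with
  | zero => simp [arcW, ← FreeGroup.one_eq_mk]
  | succ n ih =>
    have hcast : k + ((n + 1 + 1 : ℕ) : Fin (p + 1)) = (k + 1) + ((n + 1 : ℕ) : Fin (p + 1)) := by
      rw [Nat.cast_succ (n + 1), ← add_assoc, add_right_comm]
    rw [arcW, ← FreeGroup.mul_mk, ih, ← mul_assoc, hcast]
    conv_rhs => rw [arcW, ← FreeGroup.mul_mk]

lemma boundary_null_step {α : Type} (g : Fin (p + 1) → List (α × Bool)) (k : Fin (p + 1))
    (h0 : 0 < p)
    (h : FreeGroup.mk (dirW (orient k) (g k)) * FreeGroup.mk (arcW g k p) = 1) :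
    FreeGroup.mk (dirW (orient (k + 1)) (g (k + 1))) * FreeGroup.mk (arcW g (k + 1) p) = 1 := by
  obtain ⟨n, rfl⟩ := Nat.exists_eq_succ_of_ne_zero h0.ne'
  have hwrap : (k + 1) + ((n + 1 : ℕ) : Fin (n + 1 + 1)) = k := by
    rw [add_assoc, add_comm 1, ← Nat.cast_succ, Fin.natCast_self, add_zero]
  rw [mk_arcW_step g (k + 1) n, hwrap]
  rw [arcW, ← FreeGroup.mul_mk] at h
  rw [← mul_assoc]
  exact mul_eq_one_comm.1 h

/-- The boundary of a cell that was collapsed expands into nothing. -/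
theorem boundary_null {a : CEdge p S0} (ha : CellAt (stage Ψ x t n).Z a) (hK : ¬remains (stage Ψ x t n).Z K a)
    {f : Fin (p + 1) → CEdge p S0} {g : Fin (p + 1) → List (CEdge p S0 × Bool)}
    (hf : ∀ l, InSlot (stage Ψ x t n).Z a l (f l)) (hg : ∀ l, Exp (stage Ψ x t n).Z K K (f l) (g l)) (k₀ : Fin (p + 1)) :
    FreeGroup.mk (dirW (orient k₀) (g k₀)) * FreeGroup.mk (arcW g k₀ p) = 1 := by
  have h0 : 0 < p := (img a).2.pos
  obtain ⟨i, hi, k, hk⟩ := exists_delSlot_lt ha hK
  choose g' hg' using fun l => exists_exp (Ψ := Ψ) (x := x) (t := t) (n := n) (K := K)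
    (d := K - (i + 1)) (r := f l)
  have hb : ∀ j, j < i → ¬∃ k, Private (stage Ψ x t n).Z (remains (stage Ψ x t n).Z j) a k := fun j hj =>
    (remains_anti (Nat.succ_le_of_lt hj) hk.1).2
  have hno : ∀ l j, j < i → ¬∃ a' k', DelSlot (stage Ψ x t n).Z j a' k' ∧ InSlot (stage Ψ x t n).Z a' k' (f l) := by
    rintro l j hj ⟨a', k', h1, h2⟩
    obtain ⟨r, hr, huniq⟩ := h1.2.1.1
    obtain rfl := inSlot_unique h2 hr
    obtain rfl := huniq a (remains_anti hj.le hk.1) l (hf l)
    exact hb j hj ⟨k', h1.2.1.1⟩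
  have hl : ∀ l, l ≠ k → g l = g' l := fun l hne => exp_unique (hg l) <|
    exp_lift (hg' l) (d' := K) (by omega) le_rfl fun j _ hj => by
      rcases Nat.lt_or_ge j i with hji | hji
      · exact hno l j hji
      · obtain rfl : j = i := by omega
        rintro ⟨a', k', h1, h2⟩
        obtain ⟨r, hr, huniq⟩ := h1.2.1.1
        obtain rfl := inSlot_unique h2 hr
        obtain rfl := huniq a hk.1 l (hf l)
        have hkk : k = k' := le_antisymm (hk.2.2 _ h1.2.1) (h1.2.2 _ hk.2.1)
        exact hne ((inSlot_slot (hf l) h2).trans hkk.symm)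
  have hd : K - (K - (i + 1) + 1) = i := by omega
  have hE : Exp (stage Ψ x t n).Z K (K - (i + 1) + 1) (f k) (dirW (!orient k) (arcW g' k p)) :=
    Or.inr ⟨a, k, by rw [hd]; exact hk, hf k, f, g', hf, fun l _ => hg' l, rfl⟩
  have hgk : g k = dirW (!orient k) (arcW g' k p) := exp_unique (hg k) <|
    exp_lift hE (by omega) le_rfl fun j _ hj => hno k j (by omega)
  have harc : arcW g k p = arcW g' k p :=
    arcW_congr fun j hj => hl _ (fin_add_cast_ne (img a) k (by omega) (by omega))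
  have hbase : FreeGroup.mk (dirW (orient k) (g k)) * FreeGroup.mk (arcW g k p) = 1 := by
    rw [harc, hgk]
    cases orient k <;> simp [dirW, mk_invW, -FreeGroup.mul_mk, -FreeGroup.inv_mk]
  have hall : ∀ j : ℕ, FreeGroup.mk (dirW (orient (k + (j : Fin (p + 1))))
      (g (k + (j : Fin (p + 1))))) * FreeGroup.mk (arcW g (k + (j : Fin (p + 1))) p) = 1 := by
    intro j
    induction j with
    | zero => simpa using hbase
    | succ j ih =>
      rw [Nat.cast_succ, ← add_assoc]
      exact boundary_null_step g _ h0 ih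
  simpa using hall (k₀ - k : Fin (p + 1)).val

lemma inSlot_cons {a r r' : CEdge p S0} {k : Fin (p + 1)} (h : InSlot (stage Ψ x t n).Z a k r)
    (h' : InSlot (stage Ψ x t n).Z a (k + 1) r') : (stage Ψ x t n).Z.R (exitEnd k r) (enterEnd (k + 1) r') := by
  obtain ⟨lab, hl, hr, hs⟩ := h
  obtain ⟨lab', hl', hr', hs'⟩ := h'
  have hs'' := same_trans (cellLift_unique hl hl' (k + 1)) hs'
  exact (stage_eqv n).trans ((stage_eqv n).symm (hs.ends (hl.1 k).1 hr.1 _))
    ((stage_eqv n).trans (hl.1 k).2 (hs''.ends (hl.1 (k + 1)).1 hr'.1 _))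

lemma inSlot_wrap (k : Fin (p + 1)) :
    k + ((p : ℕ) : Fin (p + 1)) + 1 = k := by
  rw [add_assoc, ← Nat.cast_succ, Fin.natCast_self, add_zero]

/-- Lists along the slots assemble into a walk around a cell. -/
lemma arcW_walk {α : Type} {R : End (G p) α → End (G p) α → Prop} {E : Set (G p × α)}
    (hR : Equivalence R) (g : Fin (p + 1) → List ((G p × α) × Bool))
    (ex en' : Fin (p + 1) → End (G p) α)
    (hw : ∀ l, Walk R E (en' l) (dirW (orient l) (g l)) (ex l)) :
    ∀ (m : ℕ) (k : Fin (p + 1)),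
      (∀ i : ℕ, i < m →
        R (ex (k + (i : Fin (p + 1)))) (en' (k + ((i + 1 : ℕ) : Fin (p + 1))))) →
      Walk R E (ex k) (arcW g k m) (ex (k + (m : Fin (p + 1))))
  | 0, k, _ => by
    simp only [arcW, Nat.cast_zero, add_zero]
    exact hR.refl (ex k)
  | m + 1, k, h => by
    have h0 := h 0 (by omega)
    simp only [Nat.cast_zero, add_zero, Nat.zero_add, Nat.cast_one] at h0
    have hrest := arcW_walk hR g ex en' hw m (k + 1) fun i hi => by
      rw [cast_shift, cast_shift]
      exact h (i + 1) (by omega)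
    rw [Nat.cast_succ, ← add_assoc, add_right_comm]
    exact ((hw (k + 1)).congr_left hR h0).append hR hrest

/-- An expansion is a walk among the surviving classes. -/
lemma exp_walk : ∀ {d : ℕ}, d ≤ K → ∀ {r : CEdge p S0} {w : List (CEdge p S0 × Bool)},
    IsRep (stage Ψ x t n).Z r → ¬Del (stage Ψ x t n).Z (K - d) r → Exp (stage Ψ x t n).Z K d r w →
      Walk (stage Ψ x t n).Z.R {e | IsRep (stage Ψ x t n).Z e} (en r false) w (en r true)
  | 0, _, r, w, hr, _, h => by
    rw [h]
    exact ⟨(stage_eqv n).refl _, hr, (stage_eqv n).refl _⟩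
  | d + 1, hd, r, w, hr, hdel, h => by
    rcases h with ⟨h1, h2⟩ | ⟨a, k, h1, h2, f, g, hf, hg, hw⟩
    · refine exp_walk (by omega) hr ?_ h2
      rintro ⟨i, hi, a, k, h3, h4⟩
      rcases Nat.lt_or_ge i (K - (d + 1)) with hi' | hi'
      · exact hdel ⟨i, hi', a, k, h3, h4⟩
      · obtain rfl : i = K - (d + 1) := by omega
        exact h1 ⟨a, k, h3, h4⟩
    · have h0 : 0 < p := (img a).2.pos
      have hq : Equivalence (stage Ψ x t n).Z.R := stage_eqv n
      classical
      let g' := Function.update g k [(f k, true)]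
      have hwalk : ∀ l, Walk (stage Ψ x t n).Z.R {e | IsRep (stage Ψ x t n).Z e} (en (f l) false) (g' l)
          (en (f l) true) := by
        intro l
        by_cases hl : l = k
        · subst hl
          simp only [g', Function.update_self]
          exact ⟨hq.refl _, (hf l).rep, hq.refl _⟩
        · simp only [g', Function.update_of_ne hl]
          refine exp_walk (by omega) (hf l).rep ?_ (hg l hl)
          rintro ⟨i', hi', a', k', h3, h4⟩
          obtain ⟨r', hr', huniq⟩ := h3.2.1.1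
          obtain rfl := inSlot_unique h4 hr'
          obtain rfl := huniq a (remains_anti (by omega) h1.1) l (hf l)
          rcases Nat.lt_or_ge i' (K - (d + 1)) with hlt | hge
          · exact (remains_anti (Nat.succ_le_of_lt hlt) h1.1).2 ⟨k', h3.2.1.1⟩
          · obtain rfl : i' = K - (d + 1) := by omega
            have hk : k = k' := le_antisymm (h1.2.2 _ h3.2.1) (h3.2.2 _ h1.2.1)
            exact hl ((inSlot_slot (hf l) h4).trans hk.symm)
      have harc := arcW_walk hq g' (fun l => exitEnd l (f l)) (fun l => enterEnd l (f l))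
        (fun l => (hwalk l).dir hq) p k fun i _ => by
          have := inSlot_cons (hf (k + (i : Fin (p + 1)))) (hf _)
          rwa [Nat.cast_succ, ← add_assoc]
      have hlast := inSlot_cons (hf (k + ((p : ℕ) : Fin (p + 1)))) (hf _)
      rw [inSlot_wrap k] at hlast
      have h5 : Walk (stage Ψ x t n).Z.R {e | IsRep (stage Ψ x t n).Z e} (exitEnd k (f k)) (arcW g k p)
          (enterEnd k (f k)) := by
        rw [arcW_congr (g' := g') fun i hi => ?_]
        · exact harc.congr_right hq hlast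
        · exact (Function.update_of_ne (fin_add_cast_ne (img a) k (by omega) (by omega)) _ g).symm
      rw [inSlot_unique h2 (hf k), hw]
      cases ho : orient k with
      | true =>
        simp only [exitEnd, enterEnd, ho, Bool.not_true] at h5 ⊢
        simpa [dirW] using h5.inv hq
      | false =>
        simp only [exitEnd, enterEnd, ho, Bool.not_false] at h5 ⊢
        simpa [dirW] using h5

lemma expTop_walk {e : CEdge p S0} (he : e ∈ (stage Ψ x t n).Z.E)
    {w : List (CEdge p S0 × Bool)} (h : ExpTop (stage Ψ x t n).Z K e w) :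
    Walk (stage Ψ x t n).Z.R (collapsed (stage Ψ x t n).Z K).E (en e false) w (en e true) := by
  have hk := expTop_kept h
  obtain ⟨r, hr, hs, hw⟩ := h
  have h1 := (exp_walk le_rfl hr (fun ⟨i, hi, _⟩ => by simp at hi) hw).congr_left (stage_eqv n)
    (hs.ends he hr.1 false)
  have h2 := h1.congr_right (stage_eqv n) ((stage_eqv n).symm (hs.ends he hr.1 true))
  clear hw h1
  revert h2 hk
  generalize en e false = u
  induction w generalizing u with
  | nil => exact fun _ h => h
  | cons z w ih =>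
    exact fun hk h => ⟨h.1, hk z List.mem_cons_self,
      ih _ (fun z' hz' => hk z' (List.mem_cons_of_mem _ hz')) h.2.2⟩

end

end Vale.Agent.P189
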