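import Vale.Agent.P189.Graph

/-!
The folding inequality.  If an invariant random graph maps onto another one, edge by edge, so that
any two of its ends with the same image are identified by finitely many folds, then edges minus
nodes does not increase.  Each fold is charged to one witness edge that is never the least edge of
its fibre; the classes of the original nodes are then joined by the witnesses, and every class has
a marked node, or a root, which accounts for one node of the image.
-/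

namespace Vale.Agent.P189

open MeasureTheory Function Filter
open scoped ENNReal unitInterval Topology

variable {H S S' : Type} [Group H]

/-- An edge map of random graphs all whose identifications are generated by folds. -/
structure IsFold (Ψ : Lab H → Gph H S') (Γ : Lab H → Gph H S)
    (φ : Lab H → H × S' → H × S) : Prop where
  meas : ∀ e y, Measurable fun x => φ x e = y
  equiv : ∀ h x e, φ (sh h x) (tr h e) = tr h (φ x e)
  pres : ∀ᵐ x ∂law H, ∀ e ∈ (Ψ x).E, φ x e ∈ (Γ x).E
  surj : ∀ᵐ x ∂law H, ∀ y ∈ (Γ x).E, ∃ e ∈ (Ψ x).E, φ x e = y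
  mark_surj : ∀ᵐ x ∂law H, ∀ c, (Γ x).Pres c → (Γ x).Mk c →
    ∃ a, (Ψ x).Pres a ∧ (Ψ x).Mk a ∧ (Γ x).R (endMap (φ x) a) c
  fold : ∀ᵐ x ∂law H, ∀ a b, (Ψ x).Pres a → (Ψ x).Pres b →
    (Γ x).R (endMap (φ x) a) (endMap (φ x) b) → FoldRel (Ψ x) (φ x) a b

namespace Folding

/-- A fixed numbering. -/
noncomputable def idx {α : Type} [Countable α] (a : α) : ℕ :=
  (exists_injective_nat α).choose a

lemma idx_injective {α : Type} [Countable α] : Injective (idx (α := α)) :=
  (exists_injective_nat α).choose_spec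

/-- The side on which the stage `n` folds. -/
def stSide (n : ℕ) : Bool := decide (n % 2 = 0)

lemma tr_injective {T : Type} (h : H) : Injective (tr (S := T) h) := fun u v huv => by
  simpa [tr, Prod.ext_iff] using huv

lemma forall_tr {T : Type} (h : H) {P : H × T → Prop} : (∀ a, P a) ↔ ∀ a, P (tr h a) :=
  (((Equiv.mulLeft h).prodCongr (Equiv.refl T)).forall_congr_right (q := P)).symm

lemma exists_tr {T : Type} (h : H) {P : H × T → Prop} : (∃ a, P a) ↔ ∃ a, P (tr h a) :=
  (((Equiv.mulLeft h).prodCongr (Equiv.refl T)).exists_congr_right (q := P)).symm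

section pointwise

variable [Countable H] [Countable S']

/-- The position of an edge in the fibre above `y`. -/
noncomputable def code (y : H × S) (e : H × S') : ℕ := idx (y.1⁻¹ * e.1, e.2)

lemma code_injective (y : H × S) : Injective (code (S' := S') y) := fun e e' h => by
  obtain ⟨h1, h2⟩ := Prod.ext_iff.1 (idx_injective h)
  exact Prod.ext (mul_left_cancel h1) h2

lemma code_tr (h : H) (y : H × S) (e : H × S') : code (tr h y) (tr h e) = code y e := by
  simp [code, tr, mul_assoc]

lemma exists_least (y : H × S) {P : H × S' → Prop} (h : ∃ e, P e) :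
    ∃ e, P e ∧ ∀ e', P e' → code y e ≤ code y e' := by
  classical
  have hne : ∃ k, ∃ e, P e ∧ code y e = k := by
    obtain ⟨e, he⟩ := h; exact ⟨_, e, he, rfl⟩
  obtain ⟨e, he, hk⟩ := Nat.find_spec hne
  exact ⟨e, he, fun e' he' => hk.le.trans (Nat.find_min' hne ⟨e', he', rfl⟩)⟩

variable (G : Gph H S') (f : H × S' → H × S)

/-- The edges folded with `e` at the stage `n`. -/
def SameGrp (n : ℕ) (e e' : H × S') : Prop :=
  e' ∈ G.E ∧ f e = f e' ∧ foldStage G f n (en e (stSide n)) (en e' (stSide n))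

/-- The edges already equal to `e` at the stage `n`. -/
def SameEdge (n : ℕ) (e e' : H × S') : Prop :=
  SameGrp G f n e e' ∧ foldStage G f n (en e (!stSide n)) (en e' (!stSide n))

/-- `e` is the least of the edges equal to it. -/
def LeastEdge (n : ℕ) (e : H × S') : Prop :=
  e ∈ G.E ∧ ∀ e', SameEdge G f n e e' → code (f e) e ≤ code (f e) e'

/-- `e` is the least of the edges folded with it. -/
def LeastGrp (n : ℕ) (e : H × S') : Prop :=
  ∀ e', SameGrp G f n e e' → code (f e) e ≤ code (f e) e'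

/-- The witness of a fold at the stage `n`. -/
def Wit (n : ℕ) (e : H × S') : Prop := LeastEdge G f n e ∧ ¬LeastGrp G f n e

/-- The witness `e` is folded onto the least edge `e'` of its group. -/
def IsPair (n : ℕ) (e e' : H × S') : Prop :=
  Wit G f n e ∧ SameGrp G f n e e' ∧ ∀ e'', SameGrp G f n e e'' → code (f e) e' ≤ code (f e) e''

/-- The ends joined by a witness. -/
def PairEnds (a c : End H S') : Prop :=
  ∃ n e e', IsPair G f n e e' ∧ a = en e (!stSide n) ∧ c = en e' (!stSide n)

/-- Joined by nodes and witnesses. -/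
def Joined : End H S' → End H S' → Prop :=
  Relation.EqvGen fun u v => G.R u v ∨ PairEnds G f u v

/-- The edge is some witness. -/
def IsWit (e : H × S') : Prop := ∃ n, Wit G f n e

/-- The least edge of a fibre. -/
def Lst (e : H × S') : Prop :=
  e ∈ G.E ∧ ∀ e' ∈ G.E, f e = f e' → code (f e) e ≤ code (f e) e'

variable {G f}

lemma lst_of_surj {y : H × S} (h : ∃ e ∈ G.E, f e = y) : ∃ e, Lst G f e ∧ f e = y := by
  obtain ⟨e, ⟨he, hey⟩, hmin⟩ := exists_least y (P := fun e => e ∈ G.E ∧ f e = y) h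
  exact ⟨e, ⟨he, fun e' he' h' => by rw [hey]; exact hmin e' ⟨he', h'.symm.trans hey⟩⟩, hey⟩

lemma ind_wit_add_lst_le (e : H × S') : ind (IsWit G f e) + ind (Lst G f e) ≤ G.eW e := by
  rcases em (IsWit G f e) with hw | hw
  · obtain ⟨n, ⟨he, -⟩, hg⟩ := hw
    have hl : ¬Lst G f e := fun hl => hg fun e' he' => hl.2 e' he'.1 he'.2.1
    rw [ind_neg hl, add_zero, Gph.eW]
    exact ind_mono fun _ => he
  · rw [ind_neg hw, zero_add, Gph.eW]
    exact ind_mono fun hl => hl.1

variable (hG : Equivalence G.R)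
include hG

lemma stage_refl (n : ℕ) (a : End H S') : foldStage G f n a a :=
  (foldStage_equivalence hG n).refl a

lemma sameGrp_trans {n : ℕ} {e e' e'' : H × S'} (h : SameGrp G f n e e')
    (h' : SameGrp G f n e' e'') : SameGrp G f n e e'' :=
  ⟨h'.1, h.2.1.trans h'.2.1, (foldStage_equivalence hG n).trans h.2.2 h'.2.2⟩

lemma sameGrp_symm {n : ℕ} {e e' : H × S'} (he : e ∈ G.E) (h : SameGrp G f n e e') :
    SameGrp G f n e' e :=
  ⟨he, h.2.1.symm, (foldStage_equivalence hG n).symm h.2.2⟩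

lemma joined_min {n : ℕ} (ih : ∀ a c, foldStage G f n a c → Joined G f a c) {e m : H × S'}
    (he : e ∈ G.E) (hm : SameGrp G f n e m)
    (hmin : ∀ e', SameGrp G f n e e' → code (f e) m ≤ code (f e) e') :
    Joined G f (en e (!stSide n)) (en m (!stSide n)) := by
  obtain ⟨e₀, h₀, h₀min⟩ := exists_least (f e) (P := SameEdge G f n e)
    ⟨e, ⟨he, rfl, stage_refl hG n _⟩, stage_refl hG n _⟩
  refine Relation.EqvGen.trans _ _ _ (ih _ _ h₀.2) ?_
  have hf : f e₀ = f e := h₀.1.2.1.symm
  have hle : LeastEdge G f n e₀ := ⟨h₀.1.1, fun e' he' => by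
    rw [hf]
    exact h₀min e' ⟨sameGrp_trans hG h₀.1 he'.1,
      (foldStage_equivalence hG n).trans h₀.2 he'.2⟩⟩
  have hm₀ : SameGrp G f n e₀ m := sameGrp_trans hG (sameGrp_symm hG he h₀.1) hm
  rcases em (LeastGrp G f n e₀) with hl | hl
  · have : e₀ = m := code_injective (f e) (le_antisymm (hf ▸ hl m hm₀) (hmin _ h₀.1))
    rw [this]; exact Relation.EqvGen.refl _
  · exact Relation.EqvGen.rel _ _ (Or.inr ⟨n, e₀, m, ⟨⟨hle, hl⟩, hm₀, fun e'' he'' => by
      rw [hf]; exact hmin e'' (sameGrp_trans hG h₀.1 he'')⟩, rfl, rfl⟩)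

lemma joined_of_stage : ∀ n a c, foldStage G f n a c → Joined G f a c
  | 0, _, _, h => Relation.EqvGen.rel _ _ (Or.inl h)
  | n + 1, a, c, h => by
    induction h with
    | rel u v huv =>
      rcases huv with huv | ⟨e, e', he, he', hee, hs, rfl, rfl⟩
      · exact joined_of_stage n _ _ huv
      · have hgrp : SameGrp G f n e e' := ⟨he', hee, hs⟩
        obtain ⟨m, hm, hmin⟩ := exists_least (f e) (P := SameGrp G f n e) ⟨e', hgrp⟩
        refine Relation.EqvGen.trans _ _ _ (joined_min hG (joined_of_stage n) he hm hmin)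
          (Relation.EqvGen.symm _ _ (joined_min hG (joined_of_stage n) he'
            (sameGrp_trans hG (sameGrp_symm hG he hgrp) hm) fun e'' he'' => ?_))
        rw [← hee]
        exact hmin e'' (sameGrp_trans hG hgrp he'')
    | refl => exact Relation.EqvGen.refl _
    | symm _ _ _ ih => exact Relation.EqvGen.symm _ _ ih
    | trans _ _ _ _ _ ih₁ ih₂ => exact Relation.EqvGen.trans _ _ _ ih₁ ih₂

lemma joined_of_foldRel {a c : End H S'} (h : FoldRel G f a c) : Joined G f a c := by
  obtain ⟨n, hn⟩ := (foldRel_iff hG).1 h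
  exact joined_of_stage hG n a c hn

lemma wit_stage_unique {n n' : ℕ} {e : H × S'} (h : Wit G f n e) (h' : Wit G f n' e) :
    n = n' := by
  suffices key : ∀ {n n' : ℕ}, n < n' → Wit G f n e → ¬LeastEdge G f n' e by
    rcases lt_trichotomy n n' with hlt | heq | hlt
    · exact absurd h'.1 (key hlt h)
    · exact heq
    · exact absurd h.1 (key hlt h')
  intro n n' hlt hw hl
  obtain ⟨m, hm, hmlt⟩ : ∃ m, SameGrp G f n e m ∧ code (f e) m < code (f e) e := by
    by_contra hno
    exact hw.2 fun e' he' => not_lt.1 fun hlt' => hno ⟨e', he', hlt'⟩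
  have hnext : foldStage G f n' (en e (!stSide n)) (en m (!stSide n)) :=
    foldStage_mono (Nat.succ_le_of_lt hlt) (Relation.EqvGen.rel _ _
      (Or.inr ⟨e, m, hw.1.1, hm.1, hm.2.1, hm.2.2, rfl, rfl⟩))
  have hsame : foldStage G f n' (en e (stSide n)) (en m (stSide n)) :=
    foldStage_mono hlt.le hm.2.2
  have hboth : ∀ b : Bool, foldStage G f n' (en e b) (en m b) := fun b => by
    rcases Bool.eq_or_eq_not b (stSide n) with hb | hb <;> rw [hb]
    · exact hsame
    · exact hnext
  exact absurd (hl.2 m ⟨⟨hm.1, hm.2.1, hboth _⟩, hboth _⟩) (not_le.2 hmlt)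

lemma pair_unique {n n' : ℕ} {e e' e'' : H × S'} (h : IsPair G f n e e')
    (h' : IsPair G f n' e e'') : n = n' ∧ e' = e'' := by
  obtain rfl := wit_stage_unique hG h.1 h'.1
  exact ⟨rfl, code_injective (f e) (le_antisymm (h.2.2 _ h'.2.1) (h'.2.2 _ h.2.1))⟩

end pointwise

section reach

variable [Countable H] [Countable S'] (G : Gph H S') (f : H × S' → H × S)
  (root : End H S' → Prop)

/-- Reached from a root by at most `n` witnesses. -/
def Reach : ℕ → End H S' → Prop
  | 0, a => ∃ r, G.R a r ∧ root r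
  | n + 1, a => ∃ c d, G.R a c ∧ (PairEnds G f c d ∨ PairEnds G f d c) ∧ Reach n d

/-- The witness `e` brings `a` one step nearer to a root. -/
def Step (a : End H S') (e : H × S') : Prop :=
  ∃ n c d, (∀ j ≤ n, ¬Reach G f root j a) ∧ G.R a c ∧ Reach G f root n d ∧
    ∃ k e', IsPair G f k e e' ∧ ((c = en e (!stSide k) ∧ d = en e' (!stSide k)) ∨
      (d = en e (!stSide k) ∧ c = en e' (!stSide k)))

variable {G f root} (hG : Equivalence G.R)
include hG

lemma reach_congr {n : ℕ} {a a' : End H S'} (h : G.R a a') (ha : Reach G f root n a') :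
    Reach G f root n a := by
  cases n with
  | zero => obtain ⟨r, hr, hroot⟩ := ha; exact ⟨r, hG.trans h hr, hroot⟩
  | succ n => obtain ⟨c, d, hc, hcd⟩ := ha; exact ⟨c, d, hG.trans h hc, hcd⟩

lemma exists_reach {a r : End H S'} (h : Joined G f a r) (hr : root r) :
    ∃ n, Reach G f root n a := by
  obtain ⟨k, hk⟩ := eqvGen_iff_chain.1 (Relation.EqvGen.symm _ _ h)
  clear h
  induction k generalizing a with
  | zero => exact ⟨0, r, hk ▸ hG.refl a, hr⟩
  | succ k ih =>
    obtain ⟨b, hb, hba⟩ := hk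
    obtain ⟨n, hn⟩ := ih hb
    rcases hba with (h | h) | (h | h)
    · exact ⟨n, reach_congr hG (hG.symm h) hn⟩
    · exact ⟨n + 1, a, b, hG.refl a, Or.inr h, hn⟩
    · exact ⟨n, reach_congr hG h hn⟩
    · exact ⟨n + 1, a, b, hG.refl a, Or.inl h, hn⟩

lemma exists_step {a : End H S'} (h : ∃ n, Reach G f root n a) (h0 : ¬Reach G f root 0 a) :
    ∃ e, Step G f root a e := by
  classical
  obtain ⟨n, hn⟩ : ∃ n, Nat.find h = n + 1 := by
    refine Nat.exists_eq_succ_of_ne_zero fun h' => h0 ?_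
    rw [← h']; exact Nat.find_spec h
  have hs := Nat.find_spec h
  rw [hn] at hs
  obtain ⟨c, d, hac, hcd, hd⟩ := hs
  have hlt : ∀ j ≤ n, ¬Reach G f root j a := fun j hj => Nat.find_min h (by omega)
  rcases hcd with ⟨k, e, e', hp, rfl, rfl⟩ | ⟨k, e, e', hp, rfl, rfl⟩
  · exact ⟨e, n, _, _, hlt, hac, hd, k, e', hp, Or.inl ⟨rfl, rfl⟩⟩
  · exact ⟨e, n, _, _, hlt, hac, hd, k, e', hp, Or.inr ⟨rfl, rfl⟩⟩

lemma step_class {a a' : End H S'} {e : H × S'} (h : Step G f root a e)
    (h' : Step G f root a' e) : G.R a a' := by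
  obtain ⟨n, c, d, hlt, hac, hd, k, e₁, hp, hcd⟩ := h
  obtain ⟨n', c', d', hlt', hac', hd', k', e₁', hp', hcd'⟩ := h'
  obtain ⟨rfl, rfl⟩ := pair_unique hG hp hp'
  have opp : c = d' → c' = d → False := fun h1 h2 => by
    subst h1; subst h2
    have h3 : n < n' := not_le.1 fun hle => hlt n' hle (reach_congr hG hac hd')
    have h4 : n' < n := not_le.1 fun hle => hlt' n hle (reach_congr hG hac' hd)
    omega
  rcases hcd with ⟨h1, h2⟩ | ⟨h1, h2⟩ <;> rcases hcd' with ⟨h1', h2'⟩ | ⟨h1', h2'⟩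
  · exact hG.trans hac (hG.symm (h1.trans h1'.symm ▸ hac'))
  · exact (opp (h1.trans h1'.symm) (h2'.trans h2.symm)).elim
  · exact (opp (h2.trans h2'.symm) (h1'.trans h1.symm)).elim
  · exact hG.trans hac (hG.symm (h2.trans h2'.symm ▸ hac'))

omit hG in
lemma isWit_of_step {a : End H S'} {e : H × S'} (h : Step G f root a e) : IsWit G f e := by
  obtain ⟨n, c, d, -, -, -, k, e', hp, -⟩ := h
  exact ⟨k, hp.1⟩

end reach

section roots

variable [Countable S'] (G : Gph H S') (f : H × S' → H × S) (x : Lab H)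

/-- A root up to `1/(k+1)`: an end in a component without marked nodes whose label is almost the
least there. -/
def RootT (k : ℕ) (a : End H S') : Prop :=
  G.Pres a ∧ (∀ c, G.Pres c → G.Mk c → ¬FoldRel G f a c) ∧
    (∀ c, G.Pres c → FoldRel G f a c → (x a.1 : ℝ) < (x c.1 : ℝ) + 1 / (k + 1)) ∧
    ∀ c, G.Pres c → FoldRel G f a c → c.1 = a.1 → idx a.2 ≤ idx c.2

/-- A root: an end with the least label in a component without marked nodes. -/
def Root (a : End H S') : Prop :=
  G.Pres a ∧ (∀ c, G.Pres c → G.Mk c → ¬FoldRel G f a c) ∧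
    (∀ c, G.Pres c → FoldRel G f a c → (x a.1 : ℝ) ≤ (x c.1 : ℝ)) ∧
    ∀ c, G.Pres c → FoldRel G f a c → c.1 = a.1 → idx a.2 ≤ idx c.2

variable {G f x}

lemma root_unique (hx : Injective x) {a c : End H S'} (ha : Root G f x a) (hc : Root G f x c)
    (h : FoldRel G f a c) : a = c := by
  have e1 : a.1 = c.1 := hx (Subtype.ext (le_antisymm (ha.2.2.1 c hc.1 h)
    (hc.2.2.1 a ha.1 h.symm)))
  exact Prod.ext e1 (idx_injective (le_antisymm (ha.2.2.2 c hc.1 h e1.symm)
    (hc.2.2.2 a ha.1 h.symm e1)))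

lemma rootT_of_root {k : ℕ} {a : End H S'} (ha : Root G f x a) : RootT G f x k a :=
  ⟨ha.1, ha.2.1, fun c hc h => (ha.2.2.1 c hc h).trans_lt (lt_add_of_pos_right _ (by positivity)),
    ha.2.2.2⟩

lemma eventually_not_rootT {a : End H S'} (h : ¬Root G f x a) :
    ∀ᶠ k in atTop, ¬RootT G f x k a := by
  rcases em (G.Pres a ∧ (∀ c, G.Pres c → G.Mk c → ¬FoldRel G f a c) ∧
    ∀ c, G.Pres c → FoldRel G f a c → c.1 = a.1 → idx a.2 ≤ idx c.2) with h' | h'
  · obtain ⟨c, hc, hac, hlt⟩ : ∃ c, G.Pres c ∧ FoldRel G f a c ∧ (x c.1 : ℝ) < x a.1 := by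
      by_contra hno
      exact h ⟨h'.1, h'.2.1, fun c hc hac => not_lt.1 fun hlt => hno ⟨c, hc, hac, hlt⟩, h'.2.2⟩
    have ht : ∀ᶠ k : ℕ in atTop, (1 : ℝ) / (k + 1) < x a.1 - x c.1 :=
      tendsto_one_div_add_atTop_nhds_zero_nat.eventually (gt_mem_nhds (sub_pos.2 hlt))
    filter_upwards [ht] with k hk hT
    linarith [hT.2.2.1 c hc hac]
  · exact Eventually.of_forall fun k hT => h' ⟨hT.1, hT.2.1, hT.2.2.2⟩

lemma exists_rootT (hG : Equivalence G.R) (k : ℕ) {a : End H S'} (ha : G.Pres a)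
    (hno : ∀ c, G.Pres c → G.Mk c → ¬FoldRel G f a c) :
    ∃ r, RootT G f x k r ∧ FoldRel G f a r := by
  classical
  let V : Set ℝ := {v | ∃ c, G.Pres c ∧ FoldRel G f a c ∧ (x c.1 : ℝ) = v}
  have hV : V.Nonempty := ⟨_, a, ha, FoldRel.base (hG.refl a), rfl⟩
  have hVb : BddBelow V := ⟨0, by rintro v ⟨c, -, -, rfl⟩; exact (x c.1).2.1⟩
  have hpos : (0 : ℝ) < 1 / (k + 1) := by positivity
  obtain ⟨v, ⟨c₀, hc₀, hac₀, rfl⟩, hv⟩ :=
    exists_lt_of_csInf_lt hV (lt_add_of_pos_right (sInf V) hpos)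
  have hne : ∃ i, ∃ c, G.Pres c ∧ FoldRel G f a c ∧ c.1 = c₀.1 ∧ idx c.2 = i :=
    ⟨_, c₀, hc₀, hac₀, rfl, rfl⟩
  obtain ⟨r, hr, har, hr1, hr2⟩ := Nat.find_spec hne
  refine ⟨r, ⟨hr, fun c hc hm hrc => hno c hc hm (har.trans hrc), fun c hc hrc => ?_,
    fun c hc hrc h1 => ?_⟩, har⟩
  · rw [hr1]
    have : sInf V ≤ x c.1 := csInf_le hVb ⟨c, hc, har.trans hrc, rfl⟩
    linarith
  · rw [hr2]
    exact Nat.find_min' hne ⟨c, hc, har.trans hrc, h1.trans hr1, rfl⟩

end roots

section measurability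

variable [Countable H] [Countable S] [Countable S'] {Ψ : Lab H → Gph H S'}
  {φ : Lab H → H × S' → H × S} (hΨ : IsRG Ψ) (hm : ∀ e y, Measurable fun x => φ x e = y)

include hm in
lemma measurable_code_le (e e' e'' : H × S') :
    Measurable fun x => code (φ x e) e' ≤ code (φ x e) e'' := by
  have : (fun x => code (φ x e) e' ≤ code (φ x e) e'') =
      fun x => ∃ y, φ x e = y ∧ code y e' ≤ code y e'' := by
    funext x; exact propext ⟨fun h => ⟨_, rfl, h⟩, fun ⟨_, hy, h⟩ => hy ▸ h⟩
  rw [this]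
  exact Measurable.exists fun y => (hm e y).and measurable_const

include hΨ hm

lemma measurable_sameGrp (n : ℕ) (e e' : H × S') :
    Measurable fun x => SameGrp (Ψ x) (φ x) n e e' :=
  (hΨ.measE e').and ((measurable_eq_map hm e e').and (measurable_foldStage hΨ hm n _ _))

lemma measurable_wit (n : ℕ) (e : H × S') : Measurable fun x => Wit (Ψ x) (φ x) n e :=
  ((hΨ.measE e).and (Measurable.forall fun e' =>
    ((measurable_sameGrp hΨ hm n e e').and (measurable_foldStage hΨ hm n _ _)).imp
      (measurable_code_le hm e e e'))).and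
    (Measurable.forall fun e' =>
      (measurable_sameGrp hΨ hm n e e').imp (measurable_code_le hm e e e')).not

lemma measurable_isPair (n : ℕ) (e e' : H × S') :
    Measurable fun x => IsPair (Ψ x) (φ x) n e e' :=
  (measurable_wit hΨ hm n e).and ((measurable_sameGrp hΨ hm n e e').and
    (Measurable.forall fun e'' =>
      (measurable_sameGrp hΨ hm n e e'').imp (measurable_code_le hm e e' e'')))

lemma measurable_pairEnds (a c : End H S') :
    Measurable fun x => PairEnds (Ψ x) (φ x) a c :=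
  Measurable.exists fun n => Measurable.exists fun e => Measurable.exists fun e' =>
    (measurable_isPair hΨ hm n e e').and measurable_const

lemma measurable_lst (e : H × S') : Measurable fun x => Lst (Ψ x) (φ x) e :=
  (hΨ.measE e).and (Measurable.forall fun e' =>
    (hΨ.measE e').imp ((measurable_eq_map hm e e').imp (measurable_code_le hm e e e')))

lemma measurable_rootT (k : ℕ) (a : End H S') :
    Measurable fun x => RootT (Ψ x) (φ x) x k a :=
  (hΨ.measPres a).and <| (Measurable.forall fun c => (hΨ.measPres c).imp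
      ((hΨ.measMk c).imp (measurable_foldRel hΨ hm a c).not)).and <|
    (Measurable.forall fun c => (hΨ.measPres c).imp ((measurable_foldRel hΨ hm a c).imp
      (measurableSet_setOfPred.1 (measurableSet_lt
        (measurable_subtype_coe.comp (measurable_pi_apply a.1))
        ((measurable_subtype_coe.comp (measurable_pi_apply c.1)).add_const _))))).and <|
    Measurable.forall fun c => (hΨ.measPres c).imp ((measurable_foldRel hΨ hm a c).imp
      measurable_const)

lemma measurable_root (a : End H S') : Measurable fun x => Root (Ψ x) (φ x) x a :=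
  (hΨ.measPres a).and <| (Measurable.forall fun c => (hΨ.measPres c).imp
      ((hΨ.measMk c).imp (measurable_foldRel hΨ hm a c).not)).and <|
    (Measurable.forall fun c => (hΨ.measPres c).imp ((measurable_foldRel hΨ hm a c).imp
      (measurableSet_setOfPred.1 (measurableSet_le
        (measurable_subtype_coe.comp (measurable_pi_apply a.1))
        (measurable_subtype_coe.comp (measurable_pi_apply c.1)))))).and <|
    Measurable.forall fun c => (hΨ.measPres c).imp ((measurable_foldRel hΨ hm a c).imp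
      measurable_const)

lemma measurable_reach {root : Lab H → End H S' → Prop}
    (hroot : ∀ a, Measurable fun x => root x a) :
    ∀ n a, Measurable fun x => Reach (Ψ x) (φ x) (root x) n a
  | 0, a => Measurable.exists fun r => (hΨ.measR a r).and (hroot r)
  | n + 1, a => Measurable.exists fun c => Measurable.exists fun d => (hΨ.measR a c).and
      (((measurable_pairEnds hΨ hm c d).or (measurable_pairEnds hΨ hm d c)).and
        (measurable_reach hroot n d))

lemma measurable_step {root : Lab H → End H S' → Prop}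
    (hroot : ∀ a, Measurable fun x => root x a) (a : End H S') (e : H × S') :
    Measurable fun x => Step (Ψ x) (φ x) (root x) a e :=
  Measurable.exists fun n => Measurable.exists fun c => Measurable.exists fun d =>
    (Measurable.forall fun j => measurable_const.imp (measurable_reach hΨ hm hroot j a).not).and <|
      (hΨ.measR a c).and <| (measurable_reach hΨ hm hroot n d).and <|
        Measurable.exists fun k => Measurable.exists fun e' =>
          (measurable_isPair hΨ hm k e e').and measurable_const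

end measurability

section equivariance

variable [Countable H] [Countable S'] {Ψ : Lab H → Gph H S'}
  {φ : Lab H → H × S' → H × S} (hΨ : IsRG Ψ)
  (hφ : ∀ h x e, φ (sh h x) (tr h e) = tr h (φ x e)) (h : H) (x : Lab H)

include hφ in
lemma map_eq_equiv (e e' : H × S') :
    φ (sh h x) (tr h e) = φ (sh h x) (tr h e') ↔ φ x e = φ x e' := by
  rw [hφ, hφ]; exact (tr_injective h).eq_iff

include hφ in
lemma code_equiv (e e' : H × S') :
    code (φ (sh h x) (tr h e)) (tr h e') = code (φ x e) e' := by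
  rw [hφ, code_tr]

include hΨ hφ

lemma sameGrp_equiv (n : ℕ) (e e' : H × S') :
    SameGrp (Ψ (sh h x)) (φ (sh h x)) n (tr h e) (tr h e') ↔ SameGrp (Ψ x) (φ x) n e e' :=
  and_congr (hΨ.equivE h x e') (and_congr (map_eq_equiv hφ h x e e') (by
    rw [← tr_en, ← tr_en]; exact foldStage_equiv hΨ hφ h x n _ _))

lemma wit_equiv (n : ℕ) (e : H × S') :
    Wit (Ψ (sh h x)) (φ (sh h x)) n (tr h e) ↔ Wit (Ψ x) (φ x) n e := by
  refine and_congr (and_congr (hΨ.equivE h x e) ?_) (not_congr ?_)
  · rw [forall_tr h]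
    refine forall_congr' fun e' => imp_congr (and_congr (sameGrp_equiv hΨ hφ h x n e e') ?_) ?_
    · rw [← tr_en, ← tr_en]; exact foldStage_equiv hΨ hφ h x n _ _
    · rw [code_equiv hφ, code_equiv hφ]
  · unfold LeastGrp
    rw [forall_tr h]
    exact forall_congr' fun e' => imp_congr (sameGrp_equiv hΨ hφ h x n e e')
      (by rw [code_equiv hφ, code_equiv hφ])

lemma isWit_equiv (e : H × S') :
    IsWit (Ψ (sh h x)) (φ (sh h x)) (tr h e) ↔ IsWit (Ψ x) (φ x) e :=
  exists_congr fun n => wit_equiv hΨ hφ h x n e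

lemma isPair_equiv (n : ℕ) (e e' : H × S') :
    IsPair (Ψ (sh h x)) (φ (sh h x)) n (tr h e) (tr h e') ↔ IsPair (Ψ x) (φ x) n e e' := by
  refine and_congr (wit_equiv hΨ hφ h x n e) (and_congr (sameGrp_equiv hΨ hφ h x n e e') ?_)
  rw [forall_tr h]
  exact forall_congr' fun e'' => imp_congr (sameGrp_equiv hΨ hφ h x n e e'')
    (by rw [code_equiv hφ, code_equiv hφ])

lemma pairEnds_equiv (a c : End H S') :
    PairEnds (Ψ (sh h x)) (φ (sh h x)) (tr h a) (tr h c) ↔ PairEnds (Ψ x) (φ x) a c := by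
  refine exists_congr fun n => ?_
  rw [exists_tr h]
  refine exists_congr fun e => ?_
  rw [exists_tr h]
  refine exists_congr fun e' => and_congr (isPair_equiv hΨ hφ h x n e e') ?_
  rw [← tr_en, ← tr_en, (tr_injective h).eq_iff, (tr_injective h).eq_iff]

lemma lst_equiv (e : H × S') :
    Lst (Ψ (sh h x)) (φ (sh h x)) (tr h e) ↔ Lst (Ψ x) (φ x) e := by
  refine and_congr (hΨ.equivE h x e) ?_
  rw [forall_tr h]
  exact forall_congr' fun e' => imp_congr (hΨ.equivE h x e')
    (imp_congr (map_eq_equiv hφ h x e e') (by rw [code_equiv hφ, code_equiv hφ]))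

lemma rootT_equiv (k : ℕ) (a : End H S') :
    RootT (Ψ (sh h x)) (φ (sh h x)) (sh h x) k (tr h a) ↔ RootT (Ψ x) (φ x) x k a := by
  refine and_congr (hΨ.equivPres h x a) (and_congr ?_ (and_congr ?_ ?_))
  all_goals rw [forall_tr h]
  all_goals refine forall_congr' fun c => imp_congr (hΨ.equivPres h x c) ?_
  · exact imp_congr (hΨ.equivMk h x c) (not_congr (foldRel_equiv hΨ hφ h x a c))
  · exact imp_congr (foldRel_equiv hΨ hφ h x a c) (by simp [sh, tr])
  · exact imp_congr (foldRel_equiv hΨ hφ h x a c) (by simp [tr])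

lemma root_equiv (a : End H S') :
    Root (Ψ (sh h x)) (φ (sh h x)) (sh h x) (tr h a) ↔ Root (Ψ x) (φ x) x a := by
  refine and_congr (hΨ.equivPres h x a) (and_congr ?_ (and_congr ?_ ?_))
  all_goals rw [forall_tr h]
  all_goals refine forall_congr' fun c => imp_congr (hΨ.equivPres h x c) ?_
  · exact imp_congr (hΨ.equivMk h x c) (not_congr (foldRel_equiv hΨ hφ h x a c))
  · exact imp_congr (foldRel_equiv hΨ hφ h x a c) (by simp [sh, tr])
  · exact imp_congr (foldRel_equiv hΨ hφ h x a c) (by simp [tr])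

lemma reach_equiv {root : Lab H → End H S' → Prop}
    (hroot : ∀ a, root (sh h x) (tr h a) ↔ root x a) :
    ∀ n a, Reach (Ψ (sh h x)) (φ (sh h x)) (root (sh h x)) n (tr h a) ↔
      Reach (Ψ x) (φ x) (root x) n a
  | 0, a => by
    unfold Reach
    rw [exists_tr h]
    exact exists_congr fun r => and_congr (hΨ.equivR h x a r) (hroot r)
  | n + 1, a => by
    unfold Reach
    rw [exists_tr h]
    refine exists_congr fun c => ?_
    rw [exists_tr h]
    exact exists_congr fun d => and_congr (hΨ.equivR h x a c) (and_congr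
      (or_congr (pairEnds_equiv hΨ hφ h x c d) (pairEnds_equiv hΨ hφ h x d c))
      (reach_equiv hroot n d))

lemma step_equiv {root : Lab H → End H S' → Prop}
    (hroot : ∀ a, root (sh h x) (tr h a) ↔ root x a) (a : End H S') (e : H × S') :
    Step (Ψ (sh h x)) (φ (sh h x)) (root (sh h x)) (tr h a) (tr h e) ↔
      Step (Ψ x) (φ x) (root x) a e := by
  refine exists_congr fun n => ?_
  rw [exists_tr h]
  refine exists_congr fun c => ?_
  rw [exists_tr h]
  refine exists_congr fun d => and_congr (forall_congr' fun j => imp_congr Iff.rfl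
    (not_congr (reach_equiv hΨ hφ h x hroot j a))) (and_congr (hΨ.equivR h x a c)
      (and_congr (reach_equiv hΨ hφ h x hroot n d) (exists_congr fun k => ?_)))
  rw [exists_tr h]
  refine exists_congr fun e' => and_congr (isPair_equiv hΨ hφ h x k e e') ?_
  simp only [← tr_en, (tr_injective h).eq_iff]

end equivariance

end Folding

open Folding

section main

variable [Countable H] [Countable S] [Countable S'] {Ψ : Lab H → Gph H S'}
  {Γ : Lab H → Gph H S} {φ : Lab H → H × S' → H × S}

/-- Witnesses and fibre minima fit into the edges. -/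
lemma dens_wit_add_edens_le (hΨ : IsRG Ψ) (hΓ : IsRG Γ) (h : IsFold Ψ Γ φ) :
    dens (fun x e => ind (IsWit (Ψ x) (φ x) e)) + edens Γ ≤ edens Ψ := by
  have hW : ∀ e, Measurable fun x => ind (IsWit (Ψ x) (φ x) e) := fun e =>
    Measurable.ind (Measurable.exists fun n => measurable_wit hΨ h.meas n e)
  have hk : IsKernel fun x (y : H × S) (e : H × S') => ind (Lst (Ψ x) (φ x) e ∧ φ x e = y) :=
    ⟨fun y e => Measurable.ind ((measurable_lst hΨ h.meas e).and (h.meas e y)),
      fun g x y e => ind_congr (and_congr (lst_equiv hΨ h.equiv g x e)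
        (by rw [h.equiv]; exact (tr_injective g).eq_iff))⟩
  have hL : edens Γ ≤ dens fun x e => ind (Lst (Ψ x) (φ x) e) := by
    refine dens_le_of_kernel_ae hk ?_ (Eventually.of_forall fun x e => ?_)
    · filter_upwards [h.surj] with x hx y
      rcases em (y ∈ (Γ x).E) with hy | hy
      · obtain ⟨e, he⟩ := lst_of_surj (hx y hy)
        rw [Gph.eW, ind_pos hy]
        exact one_le_tsum_ind (a := e) he
      · simp [Gph.eW, ind_neg hy]
    · rcases em (Lst (Ψ x) (φ x) e) with he | he
      · rw [ind_pos he]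
        exact tsum_ind_le_one fun y y' hy hy' => hy.2.symm.trans hy'.2
      · simp [ind_neg he, ind_neg (fun hc : Lst (Ψ x) (φ x) e ∧ _ => he hc.1)]
  refine (add_le_add le_rfl hL).trans ?_
  rw [← dens_add hW]
  exact dens_mono fun x e => ind_wit_add_lst_le e

/-- Nodes are joined to roots by witnesses. -/
lemma vdens_le_wit_add_rootT (hΨ : IsRG Ψ) (h : IsFold Ψ Γ φ) (k : ℕ) :
    vdens Ψ ≤ dens (fun x e => ind (IsWit (Ψ x) (φ x) e)) +
      dens (fun x a => ind (RootT (Ψ x) (φ x) x k a)) := by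
  let root : Lab H → End H S' → Prop := fun x a =>
    ((Ψ x).Pres a ∧ (Ψ x).Mk a) ∨ RootT (Ψ x) (φ x) x k a
  have hrm : ∀ a, Measurable fun x => root x a := fun a =>
    ((hΨ.measPres a).and (hΨ.measMk a)).or (measurable_rootT hΨ h.meas k a)
  have hre : ∀ g x a, root (sh g x) (tr g a) ↔ root x a := fun g x a =>
    or_congr (and_congr (hΨ.equivPres g x a) (hΨ.equivMk g x a))
      (rootT_equiv hΨ h.equiv g x k a)
  let k₁ : Lab H → End H S' → H × S' → ℝ≥0∞ := fun x a e =>
    ind (Step (Ψ x) (φ x) (root x) a e) * (Ψ x).vW a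
  let k₂ : Lab H → End H S' → End H S' → ℝ≥0∞ := fun x a r =>
    ind (RootT (Ψ x) (φ x) x k r ∧ (Ψ x).R a r) * (Ψ x).vW a
  have hk₁ : IsKernel k₁ :=
    ⟨fun a e => (Measurable.ind (measurable_step hΨ h.meas hrm a e)).mul (hΨ.vW_weight.meas a),
      fun g x a e => congrArg₂ (· * ·) (ind_congr (step_equiv hΨ h.equiv g x (hre g x) a e))
        (hΨ.vW_weight.equiv g x a)⟩
  have hk₂ : IsKernel k₂ :=
    ⟨fun a r => (Measurable.ind ((measurable_rootT hΨ h.meas k r).and (hΨ.measR a r))).mul
        (hΨ.vW_weight.meas a),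
      fun g x a r => congrArg₂ (· * ·)
        (ind_congr (and_congr (rootT_equiv hΨ h.equiv g x k r) (hΨ.equivR g x a r)))
        (hΨ.vW_weight.equiv g x a)⟩
  have hout : ∀ x a, (Ψ x).vW a ≤ (∑' e, k₁ x a e) + ∑' r, k₂ x a r := by
    intro x a
    rcases eq_or_ne ((Ψ x).vW a) 0 with hv | hv
    · simp [hv]
    obtain ⟨hp, hnm, -⟩ := Gph.vW_ne_zero.1 hv
    have hex : ∃ n, Reach (Ψ x) (φ x) (root x) n a := by
      rcases em (∀ c, (Ψ x).Pres c → (Ψ x).Mk c → ¬FoldRel (Ψ x) (φ x) a c) with hno | hm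
      · obtain ⟨r, hr, har⟩ := exists_rootT (x := x) (hΨ.eqv x) k hp hno
        exact exists_reach (hΨ.eqv x) (joined_of_foldRel (hΨ.eqv x) har) (Or.inr hr)
      · obtain ⟨c, hc, hcm, hac⟩ : ∃ c, (Ψ x).Pres c ∧ (Ψ x).Mk c ∧
            FoldRel (Ψ x) (φ x) a c := by
          by_contra hno; exact hm fun c hc hcm hac => hno ⟨c, hc, hcm, hac⟩
        exact exists_reach (hΨ.eqv x) (joined_of_foldRel (hΨ.eqv x) hac) (Or.inl ⟨hc, hcm⟩)
    rcases em (Reach (Ψ x) (φ x) (root x) 0 a) with h0 | h0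
    · obtain ⟨r, har, hr⟩ := h0
      rcases hr with ⟨-, hrm⟩ | hr
      · exact absurd (hΨ.mk_congr x r a ((hΨ.eqv x).symm har) hrm) hnm
      refine le_add_left (le_trans ?_ (ENNReal.le_tsum r))
      simp only [k₂, ind_pos (And.intro hr har), one_mul, le_refl]
    · obtain ⟨e, he⟩ := exists_step (hΨ.eqv x) hex h0
      refine le_add_right (le_trans ?_ (ENNReal.le_tsum e))
      simp only [k₁, ind_pos he, one_mul, le_refl]
  have hin₁ : ∀ x e, ∑' a, k₁ x a e ≤ ind (IsWit (Ψ x) (φ x) e) := by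
    intro x e
    rcases em (IsWit (Ψ x) (φ x) e) with he | he
    · rw [ind_pos he]
      exact hΨ.tsum_vW_le x fun a a' ha ha' => step_class (hΨ.eqv x) ha ha'
    · simp [k₁, ind_neg (fun hs => he (isWit_of_step hs))]
  have hin₂ : ∀ x r, ∑' a, k₂ x a r ≤ ind (RootT (Ψ x) (φ x) x k r) := by
    intro x r
    rcases em (RootT (Ψ x) (φ x) x k r) with hr | hr
    · rw [ind_pos hr]
      exact hΨ.tsum_vW_le x fun a a' ha ha' => (hΨ.eqv x).trans ha.2 ((hΨ.eqv x).symm ha'.2)
    · simp [k₂, ind_neg (fun hc : RootT (Ψ x) (φ x) x k r ∧ _ => hr hc.1)]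
  calc vdens Ψ ≤ dens (fun x a => (∑' e, k₁ x a e) + ∑' r, k₂ x a r) := dens_mono hout
    _ = dens (fun x a => ∑' e, k₁ x a e) + dens (fun x a => ∑' r, k₂ x a r) :=
        dens_add hk₁.out.meas
    _ ≤ _ := by
      rw [mass_transport hk₁, mass_transport hk₂]
      exact add_le_add (dens_mono hin₁) (dens_mono hin₂)

/-- The present ends have twice the edge density. -/
lemma dens_pres (hΨ : IsRG Ψ) : dens (fun x a => ind ((Ψ x).Pres a)) = 2 * edens Ψ := by
  rw [edens, dens, dens, ← lintegral_const_mul 2 (Measurable.tsum fun s => hΨ.eW_weight.meas _)]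
  refine lintegral_congr fun x => ?_
  rw [ENNReal.tsum_prod', ← ENNReal.tsum_mul_left]
  refine tsum_congr fun s => ?_
  simp only [tsum_fintype, Fintype.sum_bool]
  exact (two_mul _).symm

/-- The approximate roots converge to the roots. -/
lemma tendsto_dens_rootT (hΨ : IsRG Ψ) (h : IsFold Ψ Γ φ) (hfin : edens Ψ ≠ ∞) :
    Tendsto (fun k => dens (fun x a => ind (RootT (Ψ x) (φ x) x k a))) atTop
      (𝓝 (dens fun x a => ind (Root (Ψ x) (φ x) x a))) := by
  have hP : dens (fun x a => ind ((Ψ x).Pres a)) ≠ ∞ := by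
    rw [dens_pres hΨ]; exact ENNReal.mul_ne_top ENNReal.ofNat_ne_top hfin
  have hPm : Measurable fun x => ∑' s : S' × Bool, ind ((Ψ x).Pres ((1 : H), s)) :=
    Measurable.tsum fun s => Measurable.ind (hΨ.measPres _)
  refine tendsto_lintegral_of_dominated_convergence
    (fun x => ∑' s : S' × Bool, ind ((Ψ x).Pres ((1 : H), s)))
    (fun k => Measurable.tsum fun s => Measurable.ind (measurable_rootT hΨ h.meas k _))
    (fun k => Eventually.of_forall fun x => ENNReal.tsum_le_tsum fun s => ind_mono fun hr => hr.1)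
    hP ?_
  filter_upwards [ae_lt_top hPm hP] with x hx
  have hfs : {s : S' × Bool | (Ψ x).Pres ((1 : H), s)}.Finite := by
    by_contra hinf
    haveI : Infinite {s : S' × Bool | (Ψ x).Pres ((1 : H), s)} := Set.infinite_coe_iff.2 hinf
    refine hx.ne (top_le_iff.1 ?_)
    calc (∞ : ℝ≥0∞) = ∑' _ : {s : S' × Bool | (Ψ x).Pres ((1 : H), s)}, (1 : ℝ≥0∞) :=
          (ENNReal.tsum_const_eq_top_of_ne_zero one_ne_zero).symm
      _ ≤ ∑' s : {s : S' × Bool | (Ψ x).Pres ((1 : H), s)}, ind ((Ψ x).Pres ((1 : H), (s : S' × Bool))) :=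
          ENNReal.tsum_le_tsum fun s => (ind_pos s.2).ge
      _ ≤ _ := ENNReal.tsum_comp_le_tsum_of_injective Subtype.val_injective _
  have hev : ∀ᶠ k in atTop, ∀ s : S' × Bool,
      RootT (Ψ x) (φ x) x k ((1 : H), s) ↔ Root (Ψ x) (φ x) x ((1 : H), s) := by
    have : ∀ᶠ k in atTop, ∀ s ∈ {s : S' × Bool | (Ψ x).Pres ((1 : H), s)},
        RootT (Ψ x) (φ x) x k ((1 : H), s) ↔ Root (Ψ x) (φ x) x ((1 : H), s) :=
      hfs.eventually_all.2 fun s _ => by
        rcases em (Root (Ψ x) (φ x) x ((1 : H), s)) with hr | hr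
        · exact Eventually.of_forall fun k => iff_of_true (rootT_of_root hr) hr
        · exact (eventually_not_rootT hr).mono fun k hk => iff_of_false hk hr
    filter_upwards [this] with k hk s
    rcases em ((Ψ x).Pres ((1 : H), s)) with hs | hs
    · exact hk s hs
    · exact iff_of_false (fun hr => hs hr.1) fun hr => hs hr.1
  exact tendsto_const_nhds.congr'
    (hev.mono fun k hk => tsum_congr fun s => (ind_congr (hk s)).symm)

/-- Every root accounts for a node of the image. -/
lemma dens_root_le_vdens (hΨ : IsRG Ψ) (hΓ : IsRG Γ) (h : IsFold Ψ Γ φ) (hfin : edens Ψ ≠ ∞) :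
    dens (fun x a => ind (Root (Ψ x) (φ x) x a)) ≤ vdens Γ := by
  have hm := measurable_root hΨ h.meas
  have he := root_equiv hΨ h.equiv
  have hk : IsKernel fun x (a r : End H S') =>
      ind ((Ψ x).Pres a ∧ Root (Ψ x) (φ x) x r ∧ FoldRel (Ψ x) (φ x) a r) :=
    ⟨fun a r => Measurable.ind ((hΨ.measPres a).and ((hm r).and
        (measurable_foldRel hΨ h.meas a r))),
      fun g x a r => ind_congr (and_congr (hΨ.equivPres g x a) (and_congr (he g x r)
        (foldRel_equiv hΨ h.equiv g x a r)))⟩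
  have hfinite : ∀ᵐ x ∂law H, ∀ r,
      ∑' a, ind ((Ψ x).Pres a ∧ Root (Ψ x) (φ x) x r ∧ FoldRel (Ψ x) (φ x) a r) < ∞ := by
    refine ae_in_lt_top hk (ne_top_of_le_ne_top ?_
      (dens_mono_ae (f' := fun x a => ind ((Ψ x).Pres a)) ?_))
    · rw [dens_pres hΨ]; exact ENNReal.mul_ne_top ENNReal.ofNat_ne_top hfin
    · filter_upwards [ae_injective (H := H)] with x hx s
      rcases em ((Ψ x).Pres ((1 : H), s)) with hs | hs
      · rw [ind_pos hs]
        exact tsum_ind_le_one fun r r' hr hr' => root_unique hx hr.2.1 hr'.2.1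
          (hr.2.2.symm.trans hr'.2.2)
      · simp [ind_neg hs, ind_neg (fun hc : (Ψ x).Pres ((1 : H), s) ∧ _ => hs hc.1)]
  refine dens_le_vdens (T := S' × Bool)
    ⟨fun a => Measurable.ind (hm a), fun g x a => ind_congr (he g x a)⟩ hΓ
    (fun x r b => Root (Ψ x) (φ x) x r ∧ (Γ x).R (endMap (φ x) r) b)
    (fun r b => (hm r).and ?_) (fun g x r b => and_congr (he g x r) ?_)
    (Eventually.of_forall fun x r b b' hb hbb => ⟨hb.1, (hΓ.eqv x).trans hb.2 hbb⟩) ?_ ?_
  · have : (fun x => (Γ x).R (endMap (φ x) r) b) =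
        fun x => ∃ y, φ x (edge r) = y ∧ (Γ x).R (en y (side r)) b := by
      funext x
      exact propext ⟨fun hh => ⟨_, rfl, hh⟩, fun ⟨y, hy, hh⟩ => by rw [endMap, hy]; exact hh⟩
    rw [this]
    exact Measurable.exists fun y => (h.meas _ y).and (hΓ.measR _ b)
  · have : endMap (φ (sh g x)) (tr g r) = tr g (endMap (φ x) r) := by
      rw [endMap, edge_tr, h.equiv, side_tr]; rfl
    rw [this]
    exact hΓ.equivR g x _ _
  · filter_upwards [h.fold, ae_injective (H := H)] with x hfold hx b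
    refine (ENNReal.tsum_le_tsum fun r => mul_le_of_le_one_right' (ind_le_one _)).trans
      (tsum_ind_le_one fun r r' hr hr' => root_unique hx hr.1 hr'.1
        (hfold r r' hr.1.1 hr'.1.1 ((hΓ.eqv x).trans hr.2 ((hΓ.eqv x).symm hr'.2))))
  · filter_upwards [h.pres, h.surj, h.mark_surj, h.fold, hfinite] with x hpres hsurj hms hfold hfi r hr
    have hr' : Root (Ψ x) (φ x) x r := ind_ne_zero.1 hr
    have hp : (Γ x).Pres (endMap (φ x) r) := hpres _ hr'.1
    refine ⟨endMap (φ x) r, ⟨hr', (hΓ.eqv x).refl _⟩, Gph.vW_ne_zero.2 ⟨hp, fun hmk => ?_, ?_⟩⟩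
    · obtain ⟨a, ha, ham, hac⟩ := hms _ hp hmk
      exact hr'.2.1 a ha ham (hfold a r ha hr'.1 hac).symm
    · refine ne_top_of_le_ne_top (hfi r).ne ?_
      calc (Γ x).cnt (endMap (φ x) r)
          ≤ ∑' c, ∑' a, ind (((Ψ x).Pres a ∧ Root (Ψ x) (φ x) x r ∧
              FoldRel (Ψ x) (φ x) a r) ∧ endMap (φ x) a = c) := by
            refine ENNReal.tsum_le_tsum fun c => ?_
            rcases em ((Γ x).Pres c ∧ (Γ x).R (endMap (φ x) r) c) with hc | hc
            · rw [ind_pos hc]
              obtain ⟨e, he, hec⟩ := hsurj (edge c) hc.1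
              have hca : endMap (φ x) (en e (side c)) = c := by rw [endMap_en, hec, en_edge_side]
              refine one_le_tsum_ind (a := en e (side c)) ⟨⟨?_, hr', ?_⟩, hca⟩
              · exact he
              · exact hfold _ r he hr'.1 (by rw [hca]; exact (hΓ.eqv x).symm hc.2)
            · simp [ind_neg hc]
        _ = ∑' a, ∑' c, ind (((Ψ x).Pres a ∧ Root (Ψ x) (φ x) x r ∧
              FoldRel (Ψ x) (φ x) a r) ∧ endMap (φ x) a = c) := ENNReal.tsum_comm
        _ ≤ _ := by
            refine ENNReal.tsum_le_tsum fun a => ?_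
            rcases em ((Ψ x).Pres a ∧ Root (Ψ x) (φ x) x r ∧ FoldRel (Ψ x) (φ x) a r) with ha | ha
            · rw [ind_pos ha]
              exact tsum_ind_le_one fun c c' hc hc' => hc.2.symm.trans hc'.2
            · refine (le_of_eq (ENNReal.tsum_eq_zero.2 fun c => ind_neg fun hc => ha hc.1)).trans
                zero_le

/-- The folding inequality: folding does not increase edges minus nodes. -/
theorem edens_add_vdens_le (hΨ : IsRG Ψ) (hΓ : IsRG Γ) (h : IsFold Ψ Γ φ)
    (hfin : edens Ψ ≠ ∞) : edens Γ + vdens Ψ ≤ edens Ψ + vdens Γ := by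
  refine le_trans ?_ (add_le_add le_rfl (dens_root_le_vdens hΨ hΓ h hfin))
  refine ge_of_tendsto (tendsto_const_nhds.add (tendsto_dens_rootT hΨ h hfin))
    (Eventually.of_forall fun k => ?_)
  calc edens Γ + vdens Ψ
      ≤ edens Γ + (dens (fun x e => ind (IsWit (Ψ x) (φ x) e)) +
          dens (fun x a => ind (RootT (Ψ x) (φ x) x k a))) :=
        add_le_add le_rfl (vdens_le_wit_add_rootT hΨ h k)
    _ = (dens (fun x e => ind (IsWit (Ψ x) (φ x) e)) + edens Γ) +
          dens (fun x a => ind (RootT (Ψ x) (φ x) x k a)) := by ring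
    _ ≤ _ := add_le_add (dens_wit_add_edens_le hΨ hΓ h) le_rfl

end main

end Vale.Agent.P189
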