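import Vale.Agent.P189.Collapse
import Vale.Agent.P189.Expand

/-!
A sparse invariant family of cells of a stage uses at least `9/10 p` times as many edge classes.
-/

namespace Vale.Agent.P189

open MeasureTheory
open scoped ENNReal

variable {p : ℕ} {S0 : Type} [Countable S0] {Ψ : Lab (G p) → Gph (G p) (Fin p × S0)} {t : ℕ → ℝ}
  {n : ℕ}

/-- The classes over one edge receive, injectively, the cells of one type in the matching slot. -/
lemma tsum_cells_le_tsum_used {P : CEdge p S0 → Prop} {x : Lab (G p)}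
    (hsub : ∀ a, P a → CellAt (clo Ψ t n x) a) (m j : Fin p) :
    ∑' s : Lbl p S0, ind (P ((q m j)⁻¹, (m, s))) ≤
      ∑' s : Lbl p S0, ind (∃ a k, P a ∧ InSlot (clo Ψ t n x) a k (1, (j, s))) := by
  rw [tsum_ind_eq_encard, tsum_ind_eq_encard]
  refine ENat.toENNReal_mono ?_
  have hslot : ∀ s, P ((q m j)⁻¹, (m, s)) → ∃ s',
      InSlot (clo Ψ t n x) ((q m j)⁻¹, (m, s)) j.castSucc (1, (j, s')) := by
    intro s hs
    obtain ⟨r, hr⟩ := exists_cell_slot (hsub _ hs) j.castSucc
    obtain ⟨g, i, s'⟩ := r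
    have := hr.img_eq
    simp only [img, slotImg, Fin.val_castSucc, j.isLt, dif_pos, inv_mul_cancel,
      Prod.mk.injEq, Fin.eta] at this
    obtain ⟨rfl, rfl⟩ := this
    exact ⟨s', hr⟩
  choose f hf using hslot
  classical
  refine Set.encard_le_encard_of_injOn
    (f := fun s => if h : P ((q m j)⁻¹, (m, s)) then f s h else s) ?_ ?_
  · intro s hs
    simp only [dif_pos (show P _ from hs)]
    exact ⟨_, _, hs, hf s hs⟩
  · intro s hs s' hs' he
    simp only [dif_pos (show P _ from hs), dif_pos (show P _ from hs')] at he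
    have := cell_unique (a := ((q m j)⁻¹, (m, s))) (a' := ((q m j)⁻¹, (m, s'))) rfl
      (hf s hs) (he ▸ hf s' hs')
    exact congrArg (fun a : CEdge p S0 => a.2.2) this

/-- **Expansion of used classes.** -/
theorem used_expansion (hΨ : IsState Ψ) (hp : 20 ≤ p) {P : Lab (G p) → CEdge p S0 → Prop}
    (hPm : ∀ a, Measurable fun x => P x a) (hPe : ∀ h x a, P (sh h x) (tr h a) ↔ P x a)
    (hsub : ∀ x a, P x a → CellAt (clo Ψ t n x) a)
    (hP : dens (fun x a => ind (P x a)) ≤ ENNReal.ofReal (Real.exp (-100))) :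
    ENNReal.ofReal (9/10 * p) * dens (fun x a => ind (P x a)) ≤
      dens (fun x r => ind (∃ a k, P x a ∧ InSlot (clo Ψ t n x) a k r)) := by
  refine (cells_expansion hp hPm hPe hP).trans ?_
  have hm : ∀ r, Measurable fun x => ∃ a k, P x a ∧ InSlot (clo Ψ t n x) a k r := fun r =>
    Measurable.exists fun a => Measurable.exists fun k =>
      (hPm a).and (measurable_inSlot (clo_rg hΨ.rg t n) a k r)
  calc ∑ j : Fin p, ∫⁻ x, ⨆ m : Fin p, ∑' s, ind (P x ((q m j)⁻¹, (m, s))) ∂law (G p)
      ≤ ∑ j : Fin p, ∫⁻ x, ∑' s : Lbl p S0,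
          ind (∃ a k, P x a ∧ InSlot (clo Ψ t n x) a k (1, (j, s))) ∂law (G p) :=
        Finset.sum_le_sum fun j _ => lintegral_mono fun x => iSup_le fun m =>
          tsum_cells_le_tsum_used (hsub x) m j
    _ = ∫⁻ x, ∑ j : Fin p, ∑' s : Lbl p S0,
          ind (∃ a k, P x a ∧ InSlot (clo Ψ t n x) a k (1, (j, s))) ∂law (G p) :=
        (lintegral_finsetSum _ fun j _ => Measurable.tsum fun s => Measurable.ind (hm _)).symm
    _ = _ := lintegral_congr fun x => by rw [ENNReal.tsum_prod', tsum_fintype]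

end Vale.Agent.P189
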