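import Vale.Agent.P189.Collapse
import Vale.Agent.P189.Used

/-!
The gain of the first round of collapsing: a cell with two consecutive private classes at an
unmarked node of degree two leaves a new leaf edge.
-/

namespace Vale.Agent.P189

open MeasureTheory Function
open scoped ENNReal

variable {p : ℕ} {S0 : Type}

namespace Gain

lemma dens_ends {H S : Type} [Group H] [Countable S] (f : Lab H → End H S → ℝ≥0∞) :
    dens f = dens fun x e => f x (en e false) + f x (en e true) := by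
  refine lintegral_congr fun x => ?_
  rw [ENNReal.tsum_prod']
  refine tsum_congr fun s => ?_
  rw [tsum_fintype, Fintype.sum_bool, add_comm]
  rfl

/-- A count of ends is `0`, `1`, `2`, or at least `3`. -/
lemma count_cases {α : Type*} (P : α → Prop) :
    ∑' a, ind (P a) ≤ 2 → ∑' a, ind (P a) = 0 ∨ ∑' a, ind (P a) = 1 ∨ ∑' a, ind (P a) = 2 := by
  intro h
  rw [tsum_ind_eq_encard] at h ⊢
  induction hs : {a | P a}.encard using ENat.recTopCoe with
  | top => simp [hs] at h
  | coe m =>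
    rw [hs] at h
    have h2 : m ≤ 2 := by exact_mod_cast h
    rcases m with _ | _ | _ | m
    · simp
    · simp
    · simp
    · omega

/-- Three points of a set of two elements are not distinct. -/
lemma eq_of_count_two {α : Type*} {P : α → Prop} (h : ∑' a, ind (P a) = 2) {a b c : α}
    (ha : P a) (hb : P b) (hc : P c) (hab : a ≠ b) : c = a ∨ c = b := by
  classical
  by_contra hne
  push Not at hne
  have := ENNReal.sum_le_tsum (f := fun a => ind (P a)) {c, a, b}
  rw [Finset.sum_insert (by simp [hne.1, hne.2]), Finset.sum_pair hab, ind_pos ha, ind_pos hb,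
    ind_pos hc, h, one_add_one_eq_two] at this
  norm_num at this

variable [Countable S0]

section pointwise

variable {Ψ : Gph (G p) (Fin p × S0)} {x : Lab (G p)} {t : ℕ → ℝ} {n : ℕ}

/-- Consecutive classes of a cell share a node, and are different. -/
lemma slot_meet {a : CEdge p S0} {k : Fin (p + 1)} {r r' : CEdge p S0}
    (h : InSlot (stage Ψ x t n).Z a k r) (h' : InSlot (stage Ψ x t n).Z a (k + 1) r') :
    (stage Ψ x t n).Z.R (exitEnd k r) (enterEnd (k + 1) r') ∧ r ≠ r' := by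
  refine ⟨?_, fun he => fin_add_one_ne (img a) k (inSlot_slot (he ▸ h') h)⟩
  obtain ⟨lab, hl, hr, hs⟩ := h
  obtain ⟨lab', hl', hr', hs'⟩ := h'
  refine (stage_eqv n).trans ((stage_eqv n).symm (hs.ends (hl.1 k).1 hr.1 _))
    ((stage_eqv n).trans (hl.1 k).2 ?_)
  exact (same_trans (cellLift_unique hl hl' (k + 1)) hs').ends (hl.1 (k + 1)).1 hr'.1 _

lemma exists_slot {a : CEdge p S0} {k : Fin (p + 1)} {r : CEdge p S0}
    (h : InSlot (stage Ψ x t n).Z a k r) (k' : Fin (p + 1)) :
    ∃ r', InSlot (stage Ψ x t n).Z a k' r' := by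
  obtain ⟨lab, hl, -, -⟩ := h
  exact exists_inSlot hl k'

/-- Each end of a class in a cell meets a different class of that cell. -/
lemma neighbour {a : CEdge p S0} {k : Fin (p + 1)} {r : CEdge p S0}
    (h : InSlot (stage Ψ x t n).Z a k r) (b : Bool) :
    ∃ k' r' b', InSlot (stage Ψ x t n).Z a k' r' ∧ r' ≠ r ∧
      (stage Ψ x t n).Z.R (en r b) (en r' b') := by
  by_cases hb : b = orient k
  · obtain ⟨r', hr'⟩ := exists_slot h (k + 1)
    obtain ⟨hR, hne⟩ := slot_meet h hr'
    exact ⟨k + 1, r', !orient (k + 1), hr', hne.symm, by rw [hb]; exact hR⟩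
  · obtain ⟨r', hr'⟩ := exists_slot h (k - 1)
    obtain ⟨hR, hne⟩ := slot_meet hr' (show InSlot _ a (k - 1 + 1) r by rwa [sub_add_cancel])
    rw [sub_add_cancel] at hR
    exact ⟨k - 1, r', orient (k - 1), hr', hne,
      by rw [Bool.eq_not.2 hb]; exact (stage_eqv n).symm hR⟩

lemma quot_pres {a : CEdge p S0} {k : Fin (p + 1)} {r : CEdge p S0}
    (h : InSlot (stage Ψ x t n).Z a k r) (b : Bool) :
    (quot (stage Ψ x t n).Z).Pres (en r b) := h.rep

/-- A node of a class in a cell has another end. -/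
lemma not_leafEnd {a : CEdge p S0} {k : Fin (p + 1)} {r : CEdge p S0}
    (h : InSlot (stage Ψ x t n).Z a k r) (b : Bool) :
    ¬(quot (stage Ψ x t n).Z).LeafEnd (en r b) := by
  classical
  rintro ⟨-, -, hcnt⟩
  obtain ⟨k', r', b', hr', hne, hR⟩ := neighbour h b
  have h2 := ENNReal.sum_le_tsum (f := fun c => ind ((quot (stage Ψ x t n).Z).Pres c ∧
    (quot (stage Ψ x t n).Z).R (en r b) c)) {en r b, en r' b'}
  rw [Finset.sum_pair (fun he : en r b = en r' b' => hne (congrArg edge he).symm),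
    ind_pos ⟨quot_pres h b, (stage_eqv n).refl _⟩, ind_pos ⟨quot_pres hr' b', hR⟩] at h2
  rw [Gph.cnt] at hcnt
  rw [hcnt, one_add_one_eq_two] at h2
  norm_num at h2

/-- Only one cell uses the class. -/
def Single (Z : Gph (G p) (Fin p × Lbl p S0)) (r : CEdge p S0) : Prop :=
  ∃ a k, CellAt Z a ∧ InSlot Z a k r ∧ ∀ a', CellAt Z a' → ∀ k', InSlot Z a' k' r → a' = a

/-- Some cell uses the class. -/
def UsedBy (Z : Gph (G p) (Fin p × Lbl p S0)) (a r : CEdge p S0) : Prop :=
  CellAt Z a ∧ ∃ k, InSlot Z a k r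

/-- A marked end, or an end at a node of degree other than two. -/
def Bad (Z : Gph (G p) (Fin p × Lbl p S0)) (c : CEnd p S0) : Prop :=
  (quot Z).Pres c ∧ (Z.Mk c ∨ (quot Z).cnt c ≠ 2)

/-- The cell has a pair. -/
def HasPair (Z : Gph (G p) (Fin p × Lbl p S0)) (a : CEdge p S0) : Prop :=
  CellAt Z a ∧ ∃ k, PairSlot Z a k

/-- The class left as a leaf by the deletion in a cell with a pair. -/
def KeptBy (Z : Gph (G p) (Fin p × Lbl p S0)) (a r : CEdge p S0) : Prop :=
  ∃ k, HasPair Z a ∧ DelSlot Z 0 a k ∧ InSlot Z a (k + 1) r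

lemma single_cases (hmk : ∀ c d, (stage Ψ x t n).Z.R c d → (stage Ψ x t n).Z.Mk c →
      (stage Ψ x t n).Z.Mk d)
    {r : CEdge p S0} (h : Single (stage Ψ x t n).Z r) :
    (∀ b, Bad (stage Ψ x t n).Z (en r b)) ∨
      ∃ a, HasPair (stage Ψ x t n).Z a ∧ UsedBy (stage Ψ x t n).Z a r := by
  set Z := (stage Ψ x t n).Z with hZ
  obtain ⟨a, k, hca, hk, huniq⟩ := h
  by_cases hall : ∀ b, Bad Z (en r b)
  · exact Or.inl hall
  push Not at hall
  obtain ⟨b, hb⟩ := hall
  simp only [Bad, not_and, not_or, ne_eq, not_not] at hb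
  obtain ⟨hbm, hbc⟩ := hb (quot_pres hk b)
  refine Or.inr ⟨a, ⟨hca, ?_⟩, hca, k, hk⟩
  -- the class at the other end of the node is also used by `a` alone
  have hother : ∀ k' r', InSlot Z a k' r' → r' ≠ r → ∀ b', Z.R (en r b) (en r' b') →
      Private Z (CellAt Z) a k' := by
    intro k' r' hr' hne b' hR
    refine ⟨r', hr', fun a' ha' k'' hk'' => ?_⟩
    obtain ⟨k₃, r₃, b₃, hr₃, hne₃, hR₃⟩ := neighbour hk'' b'
    have h3 := eq_of_count_two (P := fun c => (quot Z).Pres c ∧ (quot Z).R (en r b) c) hbc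
      (a := en r' b') (b := en r b) (c := en r₃ b₃)
      ⟨quot_pres hr' b', hR⟩ ⟨quot_pres hk b, (stage_eqv n).refl _⟩
      ⟨quot_pres hr₃ b₃, (stage_eqv n).trans hR hR₃⟩ (fun he => hne (congrArg edge he))
    rcases h3 with h3 | h3
    · exact absurd (congrArg edge h3) hne₃
    · have : r₃ = r := congrArg edge h3
      exact huniq a' ha' k₃ (this ▸ hr₃)
  have hpr : Private Z (CellAt Z) a k := ⟨r, hk, huniq⟩
  by_cases hbk : b = orient k
  · obtain ⟨r', hr'⟩ := exists_slot hk (k + 1)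
    obtain ⟨hR, hne⟩ := slot_meet hk hr'
    refine ⟨k, hpr, hother _ r' hr' hne.symm (!orient (k + 1)) (by rw [hbk]; exact hR),
      r, hk, ?_, ?_⟩
    · rw [exitEnd, ← hbk]; exact hbm
    · rw [exitEnd, ← hbk]; exact hbc
  · obtain ⟨r', hr'⟩ := exists_slot hk (k - 1)
    obtain ⟨hR, hne⟩ := slot_meet hr' (show InSlot _ a (k - 1 + 1) r by rwa [sub_add_cancel])
    rw [sub_add_cancel] at hR
    have hR' : Z.R (en r b) (exitEnd (k - 1) r') := by
      rw [Bool.eq_not.2 hbk]; exact (stage_eqv n).symm hR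
    refine ⟨k - 1, hother _ r' hr' hne (orient (k - 1)) hR', by rw [sub_add_cancel]; exact hpr,
      r', hr', fun hm => hbm (hmk _ _ ((stage_eqv n).symm hR') hm), ?_⟩
    have hcnt : (quot Z).cnt (en r b) = (quot Z).cnt (exitEnd (k - 1) r') :=
      tsum_congr fun c => ind_congr (and_congr_right fun _ =>
        ⟨fun h => (stage_eqv n).trans ((stage_eqv n).symm hR') h,
          fun h => (stage_eqv n).trans hR' h⟩)
    rw [← hcnt]; exact hbc

lemma exists_delSlot {a : CEdge p S0} (h : HasPair (stage Ψ x t n).Z a) :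
    ∃ k, DelSlot (stage Ψ x t n).Z 0 a k ∧ PairSlot (stage Ψ x t n).Z a k := by
  classical
  obtain ⟨hca, k, hk⟩ := h
  set S := (Finset.univ : Finset (Fin (p + 1))).filter fun k => PairSlot (stage Ψ x t n).Z a k
  have hS : S.Nonempty := ⟨k, by simp [S, hk]⟩
  have hmem : PairSlot (stage Ψ x t n).Z a (S.min' hS) := (Finset.mem_filter.1 (S.min'_mem hS)).2
  refine ⟨S.min' hS, ⟨hca, ⟨hmem.1, fun _ _ => hmem⟩, fun k' hk' => ?_⟩, hmem⟩
  exact S.min'_le k' (by simp [S, hk'.2 rfl ⟨k, hk⟩])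

/-- The class kept by a pair is a new leaf edge. -/
lemma keptBy_leaf {K : ℕ} (hK : 1 ≤ K)
    (hmk : ∀ c d, (stage Ψ x t n).Z.R c d → (stage Ψ x t n).Z.Mk c → (stage Ψ x t n).Z.Mk d)
    {a r' : CEdge p S0} (h : KeptBy (stage Ψ x t n).Z a r') :
    (collapsed (stage Ψ x t n).Z K).LeafE r' ∧ ¬(quot (stage Ψ x t n).Z).LeafE r' ∧
      ∀ a', CellAt (stage Ψ x t n).Z a' → ∀ k', InSlot (stage Ψ x t n).Z a' k' r' → a' = a := by
  set Z := (stage Ψ x t n).Z with hZ
  obtain ⟨k, hpair, hdel, hr'⟩ := h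
  have hps : PairSlot Z a k := hdel.2.1.2 rfl hpair.2
  obtain ⟨-, ⟨r₁, hr₁, hu₁⟩, r, hr, hmr, hcr⟩ := hps
  obtain rfl : r₁ = r' := inSlot_unique hr₁ hr'
  obtain ⟨hR, hne⟩ := slot_meet hr hr'
  have hdelr : Del Z K r := ⟨0, hK, a, k, hdel, hr⟩
  have hndel : ¬Del Z K r₁ := by
    rintro ⟨i, -, a', k', hd, hs⟩
    obtain rfl : a' = a := hu₁ a' (remains_cellAt hd.1) k' hs
    obtain rfl : k' = k + 1 := inSlot_slot hs hr'
    rcases Nat.eq_zero_or_pos i with rfl | hi
    · exact fin_add_one_ne (img a') k (le_antisymm (hd.2.2 k hdel.2.1) (hdel.2.2 _ hd.2.1))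
    · exact (remains_anti hi hd.1).2 ⟨k, hdel.2.1.1⟩
  have hin : r₁ ∈ (collapsed Z K).E := ⟨hr'.rep, hndel⟩
  refine ⟨⟨hin, !orient (k + 1), hin, fun hm => hmr (hmk _ _ ((stage_eqv n).symm hR) hm), ?_⟩,
    fun hl => ?_, hu₁⟩
  · rw [Gph.cnt, tsum_eq_single (en r₁ (!orient (k + 1)))]
    · exact ind_pos ⟨hin, (stage_eqv n).refl _⟩
    · rintro c hc
      refine ind_neg fun ⟨hcp, hcR⟩ => ?_
      rcases eq_of_count_two (P := fun d => (quot Z).Pres d ∧ (quot Z).R (exitEnd k r) d) hcr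
          (a := exitEnd k r) (b := en r₁ (!orient (k + 1))) (c := c)
          ⟨quot_pres hr _, (stage_eqv n).refl _⟩ ⟨quot_pres hr' _, hR⟩
          ⟨hcp.1, (stage_eqv n).trans hR hcR⟩ (fun he => hne (congrArg edge he)) with h | h
      · subst h
        exact hcp.2 hdelr
      · exact hc h
  · obtain ⟨-, b, hb⟩ := hl
    exact not_leafEnd hr' b hb

/-- A leaf edge of the class graph stays a leaf edge. -/
lemma leafE_stays {K : ℕ} {r : CEdge p S0} (h : (quot (stage Ψ x t n).Z).LeafE r) :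
    (collapsed (stage Ψ x t n).Z K).LeafE r := by
  obtain ⟨hr, b, hb⟩ := h
  have hin : r ∈ (collapsed (stage Ψ x t n).Z K).E :=
    ⟨hr, fun ⟨i, _, a, k, _, hs⟩ => not_leafEnd hs b hb⟩
  refine ⟨hin, b, hin, hb.2.1, le_antisymm (le_of_le_of_eq ?_ hb.2.2) ?_⟩
  · exact ENNReal.tsum_le_tsum fun c => ind_mono fun hc => ⟨hc.1.1, hc.2⟩
  · exact one_le_tsum_ind (a := en r b) ⟨hin, (stage_eqv n).refl _⟩

lemma leaf_kept_le {K : ℕ} (hK : 1 ≤ K)
    (hmk : ∀ c d, (stage Ψ x t n).Z.R c d → (stage Ψ x t n).Z.Mk c → (stage Ψ x t n).Z.Mk d)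
    (r : CEdge p S0) :
    ind ((quot (stage Ψ x t n).Z).LeafE r) + ∑' a, ind (KeptBy (stage Ψ x t n).Z a r) ≤
      ind ((collapsed (stage Ψ x t n).Z K).LeafE r) := by
  rcases em (∃ a, KeptBy (stage Ψ x t n).Z a r) with ⟨a, ha⟩ | hno
  · obtain ⟨h1, h2, h3⟩ := keptBy_leaf hK hmk ha
    rw [ind_neg h2, zero_add, ind_pos h1]
    refine tsum_ind_le_one fun a₁ a₂ h₁ h₂ => ?_
    obtain ⟨k₁, hp₁, -, hs₁⟩ := h₁
    obtain ⟨k₂, hp₂, -, hs₂⟩ := h₂
    rw [h3 a₁ hp₁.1 _ hs₁, h3 a₂ hp₂.1 _ hs₂]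
  · push Not at hno
    simp only [fun a => ind_neg (hno a), tsum_zero, add_zero]
    exact ind_mono leafE_stays

lemma used_le (r : CEdge p S0) :
    2 * ind (∃ a k, CellAt (stage Ψ x t n).Z a ∧ InSlot (stage Ψ x t n).Z a k r) ≤
      ind (Single (stage Ψ x t n).Z r) + ∑' a, ind (UsedBy (stage Ψ x t n).Z a r) := by
  classical
  set Z := (stage Ψ x t n).Z
  rcases em (∃ a k, CellAt Z a ∧ InSlot Z a k r) with h | h
  swap
  · rw [ind_neg h, mul_zero]; exact zero_le
  obtain ⟨a, k, hca, hk⟩ := id h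
  rw [ind_pos h, mul_one]
  rcases em (Single Z r) with hs | hs
  · rw [ind_pos hs, ← one_add_one_eq_two]
    gcongr
    exact one_le_tsum_ind (a := a) ⟨hca, k, hk⟩
  · obtain ⟨a', ha', k', hk', hne⟩ : ∃ a', CellAt Z a' ∧ ∃ k', InSlot Z a' k' r ∧ a' ≠ a := by
      by_contra hcon
      push Not at hcon
      exact hs ⟨a, k, hca, hk, fun a' ha' k' hk' => hcon a' ha' k' hk'⟩
    have := ENNReal.sum_le_tsum (f := fun a => ind (UsedBy Z a r)) {a', a}
    rw [Finset.sum_pair hne, ind_pos ⟨ha', k', hk'⟩, ind_pos ⟨hca, k, hk⟩,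
      one_add_one_eq_two] at this
    exact this.trans le_add_self

lemma slot_count (P : Prop) (a : CEdge p S0) :
    ∑' r, ind (P ∧ ∃ k, InSlot (stage Ψ x t n).Z a k r) ≤ ((p : ℝ≥0∞) + 1) * ind P := by
  rcases em P with hP | hP
  swap
  · simp [ind_neg hP, ind_and]
  rw [ind_pos hP, mul_one]
  calc ∑' r, ind (P ∧ ∃ k, InSlot (stage Ψ x t n).Z a k r)
      ≤ ∑' r, ∑' k : Fin (p + 1), ind (InSlot (stage Ψ x t n).Z a k r) := by
        refine ENNReal.tsum_le_tsum fun r => ?_
        rcases em (P ∧ ∃ k, InSlot (stage Ψ x t n).Z a k r) with ⟨h1, k, hk⟩ | h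
        · exact (ind_le_one _).trans (one_le_tsum_ind (a := k) hk)
        · simp [ind_neg h]
    _ = ∑' k : Fin (p + 1), ∑' r, ind (InSlot (stage Ψ x t n).Z a k r) := ENNReal.tsum_comm
    _ ≤ ∑' _k : Fin (p + 1), 1 :=
        ENNReal.tsum_le_tsum fun k => tsum_ind_le_one fun _ _ h h' => inSlot_unique h h'
    _ = _ := by simp

/-- The end inequality behind the bad ends. -/
lemma bad_le (c : CEnd p S0) :
    ind (Bad (stage Ψ x t n).Z c) + 6 * (quot (stage Ψ x t n).Z).vW c ≤
      3 * ind ((quot (stage Ψ x t n).Z).Pres c) + 4 * ind ((quot (stage Ψ x t n).Z).LeafEnd c) := by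
  set Q := quot (stage Ψ x t n).Z with hQ
  rcases em (Q.Pres c) with hp | hp
  swap
  · simp [Bad, Gph.vW, ← hQ, ind_neg, hp]
  rw [ind_pos hp, mul_one]
  rcases em (Q.Mk c) with hm | hm
  · rw [Gph.vW, ind_neg (P := Q.Pres c ∧ ¬Q.Mk c) (fun h => h.2 hm), zero_mul, mul_zero, add_zero]
    exact (ind_le_one _).trans (le_add_right (by norm_num))
  rw [Gph.vW, ind_pos (P := Q.Pres c ∧ ¬Q.Mk c) ⟨hp, hm⟩, one_mul]
  rcases le_or_gt (Q.cnt c) 2 with hle | hgt
  · rcases count_cases _ hle with h | h | h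
    · exact absurd h (lt_of_lt_of_le one_pos
        (one_le_tsum_ind (a := c) ⟨hp, (stage_eqv n).refl _⟩)).ne'
    · rw [show Q.cnt c = 1 from h, ind_pos (P := Q.LeafEnd c) ⟨hp, hm, h⟩, inv_one, mul_one,
        mul_one]
      refine (add_le_add (ind_le_one _) le_rfl).trans ?_
      norm_num
    · rw [show Q.cnt c = 2 from h, ind_neg (P := Bad (stage Ψ x t n).Z c) (fun hb => hb.2.elim hm fun hne => hne h),
        zero_add]
      refine le_add_right (le_of_eq ?_)
      rw [show (6 : ℝ≥0∞) = 3 * 2 by norm_num, mul_assoc,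
        ENNReal.mul_inv_cancel two_ne_zero ENNReal.ofNat_ne_top, mul_one]
  · have h3 : 3 ≤ Q.cnt c := by
      rw [Gph.cnt, tsum_ind_eq_encard] at hgt ⊢
      induction hs : {b | Q.Pres b ∧ Q.R c b}.encard using ENat.recTopCoe with
      | top => simp
      | coe m =>
        rw [hs] at hgt
        have h2 : 2 < m := by exact_mod_cast hgt
        exact_mod_cast (show 3 ≤ m by omega)
    calc ind (Bad (stage Ψ x t n).Z c) + 6 * (Q.cnt c)⁻¹
        ≤ 1 + 6 * (3 : ℝ≥0∞)⁻¹ :=
          add_le_add (ind_le_one _) (mul_le_mul_right (ENNReal.inv_le_inv.2 h3) _)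
      _ ≤ 3 + 4 * ind (Q.LeafEnd c) := by
          refine le_add_right (le_of_eq ?_)
          rw [show (6 : ℝ≥0∞) = 2 * 3 by norm_num, mul_assoc,
            ENNReal.mul_inv_cancel (by norm_num) ENNReal.ofNat_ne_top]
          norm_num

/-- The end inequality behind the marked edges. -/
lemma marked_le (c : CEnd p S0) :
    ind ((quot (stage Ψ x t n).Z).Pres c ∧ (quot (stage Ψ x t n).Z).Mk c) +
        2 * (quot (stage Ψ x t n).Z).vW c ≤
      ind ((quot (stage Ψ x t n).Z).Pres c) + ind ((quot (stage Ψ x t n).Z).LeafEnd c) := by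
  set Q := quot (stage Ψ x t n).Z with hQ
  rcases em (Q.Pres c) with hp | hp
  swap
  · simp [Gph.vW, ind_neg, hp]
  rcases em (Q.Mk c) with hm | hm
  · rw [Gph.vW, ind_neg (P := Q.Pres c ∧ ¬Q.Mk c) (fun h => h.2 hm), zero_mul, mul_zero, add_zero, ind_pos hp]
    exact (ind_le_one _).trans le_self_add
  rw [Gph.vW, ind_pos (P := Q.Pres c ∧ ¬Q.Mk c) ⟨hp, hm⟩, ind_pos hp, one_mul,
    ind_neg (P := Q.Pres c ∧ Q.Mk c) (fun h => hm h.2), zero_add]
  rcases eq_or_ne (Q.cnt c) 1 with h1 | h1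
  · rw [h1, inv_one, mul_one, ind_pos (P := Q.LeafEnd c) ⟨hp, hm, h1⟩, one_add_one_eq_two]
  · refine le_add_right ?_
    have h2 : 2 ≤ Q.cnt c := by
      by_contra hlt
      push Not at hlt
      rcases count_cases _ hlt.le with h | h | h
      · exact absurd h (lt_of_lt_of_le one_pos
          (one_le_tsum_ind (a := c) ⟨hp, (stage_eqv n).refl _⟩)).ne'
      · exact h1 h
      · exact absurd h hlt.ne
    calc 2 * (Q.cnt c)⁻¹ ≤ 2 * (2 : ℝ≥0∞)⁻¹ := mul_le_mul_right (ENNReal.inv_le_inv.2 h2) _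
      _ = 1 := ENNReal.mul_inv_cancel two_ne_zero ENNReal.ofNat_ne_top

end pointwise

section

variable {Z : Lab (G p) → Gph (G p) (Fin p × Lbl p S0)}

lemma measurable_usedBy (hZ : IsRG Z) (a r : CEdge p S0) :
    Measurable fun x => UsedBy (Z x) a r :=
  (measurable_cellAt hZ a).and (Measurable.exists fun k => measurable_inSlot hZ a k r)

lemma usedBy_tr (hZ : IsRG Z) (h : G p) (x : Lab (G p)) (a r : CEdge p S0) :
    UsedBy (Z (sh h x)) (tr h a) (tr h r) ↔ UsedBy (Z x) a r :=
  and_congr (cellAt_tr hZ h x a) (exists_congr fun k => inSlot_tr hZ h x a k r)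

lemma measurable_single (hZ : IsRG Z) (r : CEdge p S0) : Measurable fun x => Single (Z x) r :=
  Measurable.exists fun a => Measurable.exists fun k => (measurable_cellAt hZ a).and <|
    (measurable_inSlot hZ a k r).and <| Measurable.forall fun a' =>
      (measurable_cellAt hZ a').imp <| Measurable.forall fun k' =>
        (measurable_inSlot hZ a' k' r).imp measurable_const

lemma measurable_bad (hZ : IsRG Z) (c : CEnd p S0) : Measurable fun x => Bad (Z x) c :=
  ((quot_rg hZ).measPres c).and <| (hZ.measMk c).or <| Measurable.not <|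
    measurableSet_setOfPred.1 (((quot_rg hZ).measurable_cnt _) (measurableSet_singleton 2))

lemma measurable_hasPair (hZ : IsRG Z) (a : CEdge p S0) : Measurable fun x => HasPair (Z x) a :=
  (measurable_cellAt hZ a).and (Measurable.exists fun k => measurable_pairSlot hZ a k)

lemma hasPair_tr (hZ : IsRG Z) (h : G p) (x : Lab (G p)) (a : CEdge p S0) :
    HasPair (Z (sh h x)) (tr h a) ↔ HasPair (Z x) a :=
  and_congr (cellAt_tr hZ h x a) (exists_congr fun k => pairSlot_tr hZ h x a k)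

lemma measurable_keptBy (hZ : IsRG Z) (a r : CEdge p S0) :
    Measurable fun x => KeptBy (Z x) a r :=
  Measurable.exists fun k => (measurable_hasPair hZ a).and <|
    (measurable_delSlot hZ 0 a k).and (measurable_inSlot hZ a (k + 1) r)

lemma keptBy_tr (hZ : IsRG Z) (h : G p) (x : Lab (G p)) (a r : CEdge p S0) :
    KeptBy (Z (sh h x)) (tr h a) (tr h r) ↔ KeptBy (Z x) a r :=
  exists_congr fun k => and_congr (hasPair_tr hZ h x a) <|
    and_congr (delSlot_tr hZ h x 0 a k) (inSlot_tr hZ h x a (k + 1) r)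

lemma measurable_leafEnd (hZ : IsRG Z) (c : CEnd p S0) : Measurable fun x => (Z x).LeafEnd c :=
  (hZ.measPres c).and <| (hZ.measMk c).not.and <|
    measurableSet_setOfPred.1 ((hZ.measurable_cnt _) (measurableSet_singleton 1))

lemma measurable_leafE (hZ : IsRG Z) (e : CEdge p S0) : Measurable fun x => (Z x).LeafE e :=
  (hZ.measE e).and (Measurable.exists fun b => measurable_leafEnd hZ (en e b))

end

variable {Ψ : Lab (G p) → Gph (G p) (Fin p × S0)} {t : ℕ → ℝ} {n : ℕ}

lemma vdens_le_two (hZ : IsRG fun x => quot (clo Ψ t n x)) :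
    vdens (fun x => quot (clo Ψ t n x)) ≤ 2 * edens fun x => quot (clo Ψ t n x) := by
  rw [vdens, dens_ends, edens, ← dens_const_mul 2 hZ.eW_weight.meas]
  refine dens_mono fun x e => ?_
  rw [two_mul]
  have : ∀ c, (quot (clo Ψ t n x)).vW c ≤ ind ((quot (clo Ψ t n x)).Pres c) := by
    intro c
    rcases em ((quot (clo Ψ t n x)).Pres c ∧ ¬(quot (clo Ψ t n x)).Mk c) with h | h
    · rw [Gph.vW, ind_pos h, ind_pos h.1, one_mul, ENNReal.inv_le_one]
      exact one_le_tsum_ind (a := c) ⟨h.1, (stage_eqv n).refl _⟩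
    · simp [Gph.vW, ind_neg h]
  exact add_le_add (this (en e false)) (this (en e true))

/-- The common computation: an end inequality and the cost give a bound on the left density. -/
lemma ends_bound (hΨ : IsRG Ψ) (hE : edens (clo Ψ t n) ≠ ∞) {c' : ℝ≥0∞}
    (hc : edens (fun x => quot (clo Ψ t n x)) ≤ c' + vdens fun x => quot (clo Ψ t n x))
    {L : Lab (G p) → CEnd p S0 → Prop} (hLm : ∀ c, Measurable fun x => L x c) (α β : ℕ)
    (h : ∀ x c, ind (L x c) + (2 * α : ℝ≥0∞) * (quot (clo Ψ t n x)).vW c ≤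
      (α : ℝ≥0∞) * ind ((quot (clo Ψ t n x)).Pres c) +
        (β : ℝ≥0∞) * ind ((quot (clo Ψ t n x)).LeafEnd c)) :
    dens (fun x c => ind (L x c)) ≤ 2 * α * c' +
      2 * β * dens (fun x e => ind ((quot (clo Ψ t n x)).LeafE e)) := by
  set Q := fun x => quot (clo Ψ t n x) with hQdef
  have hQ : IsRG Q := quot_rg (clo_rg hΨ t n)
  have hQfin : edens Q ≠ ∞ := ne_top_of_le_ne_top hE (dens_mono fun x e => ind_mono fun he => he.1)
  have hV : (2 * α : ℝ≥0∞) * vdens Q ≠ ∞ := ENNReal.mul_ne_top (ENNReal.mul_ne_top ENNReal.ofNat_ne_top (ENNReal.natCast_ne_top α))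
    (ne_top_of_le_ne_top (ENNReal.mul_ne_top ENNReal.ofNat_ne_top hQfin) (vdens_le_two hQ))
  have hPres : dens (fun x c => ind ((Q x).Pres c)) = 2 * edens Q := by
    rw [dens_ends, edens, ← dens_const_mul 2 hQ.eW_weight.meas]
    congr 1
    funext x e
    rw [two_mul]
    rfl
  have hLeaf : dens (fun x c => ind ((Q x).LeafEnd c)) ≤
      2 * dens (fun x e => ind ((Q x).LeafE e)) := by
    rw [dens_ends, ← dens_const_mul 2 fun e => Measurable.ind (measurable_leafE hQ e)]
    refine dens_mono fun x e => ?_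
    rw [two_mul]
    exact add_le_add (ind_mono fun hb => ⟨hb.1, false, hb⟩) (ind_mono fun hb => ⟨hb.1, true, hb⟩)
  have hsum : dens (fun x c => ind (L x c)) + 2 * α * vdens Q ≤
      α * (2 * edens Q) + β * dens (fun x c => ind ((Q x).LeafEnd c)) := by
    rw [← hPres, vdens, ← dens_const_mul _ hQ.vW_weight.meas,
      ← dens_const_mul _ fun c => Measurable.ind (hQ.measPres c),
      ← dens_const_mul _ fun c => Measurable.ind (measurable_leafEnd hQ c),
      ← dens_add fun c => Measurable.ind (hLm c),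
      ← dens_add fun c => (Measurable.ind (hQ.measPres c)).const_mul _]
    exact dens_mono h
  refine (ENNReal.add_le_add_iff_right hV).1 (hsum.trans ?_)
  calc α * (2 * edens Q) + β * dens (fun x c => ind ((Q x).LeafEnd c))
      ≤ α * (2 * (c' + vdens Q)) + β * (2 * dens (fun x e => ind ((Q x).LeafE e))) := by gcongr
    _ = _ := by ring

end Gain

variable [Countable S0] {Ψ : Lab (G p) → Gph (G p) (Fin p × S0)} {t : ℕ → ℝ} {n K : ℕ}

open Gain in
/-- Many cells leave many leaf edges, unless the cost is large. -/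
theorem gain_cells (hΨ : IsState Ψ) (hp : 20 ≤ p) (hK : 1 ≤ K)
    (hE : edens (clo Ψ t n) ≠ ∞) {c' : ℝ≥0∞}
    (hc : edens (fun x => quot (clo Ψ t n x)) ≤ c' + vdens fun x => quot (clo Ψ t n x))
    (hF : cellDens (clo Ψ t n) ≤ ENNReal.ofReal (Real.exp (-100))) :
    2 * ENNReal.ofReal (9 / 10 * p) * cellDens (clo Ψ t n) ≤
      ((p : ℝ≥0∞) + 1) * cellDens (clo Ψ t n) +
        ((p : ℝ≥0∞) + 1) * dens (fun x e => ind ((collapsed (clo Ψ t n x) K).LeafE e)) +
        3 * c' := by
  set Z := clo Ψ t n with hZdef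
  have hZ : IsRG Z := clo_rg hΨ.rg t n
  have hQ : IsRG fun x => quot (Z x) := quot_rg hZ
  have hused := used_expansion hΨ hp (t := t) (n := n) (P := fun x a => CellAt (Z x) a)
    (fun a => measurable_cellAt hZ a) (fun h x a => cellAt_tr hZ h x a) (fun x a ha => ha) hF
  -- incidences
  have hinc : dens (fun x r => ∑' a, ind (UsedBy (Z x) a r)) ≤
      ((p : ℝ≥0∞) + 1) * cellDens Z := by
    rw [← mass_transport (k := fun x a r => ind (UsedBy (Z x) a r))
      ⟨fun a r => Measurable.ind (measurable_usedBy hZ a r),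
        fun h x a r => ind_congr (usedBy_tr hZ h x a r)⟩,
      cellDens, ← dens_const_mul _ fun a => Measurable.ind (measurable_cellAt hZ a)]
    exact dens_mono fun x a => slot_count _ a
  have h2used : 2 * dens (fun x r => ind (∃ a k, CellAt (Z x) a ∧ InSlot (Z x) a k r)) ≤
      dens (fun x r => ind (Single (Z x) r)) + ((p : ℝ≥0∞) + 1) * cellDens Z := by
    rw [← dens_const_mul 2 fun r => Measurable.ind (Measurable.exists fun a =>
      Measurable.exists fun k => (measurable_cellAt hZ a).and (measurable_inSlot hZ a k r))]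
    refine (dens_mono (f' := fun x r => ind (Single (Z x) r) + ∑' a, ind (UsedBy (Z x) a r))
      (fun x r => used_le r)).trans ?_
    rw [dens_add fun r => Measurable.ind (measurable_single hZ r)]
    exact add_le_add le_rfl hinc
  -- single classes
  set pairs := dens (fun x a => ind (HasPair (Z x) a)) with hpairs
  have hpinc : dens (fun x r => ∑' a, ind (HasPair (Z x) a ∧ ∃ k, InSlot (Z x) a k r)) ≤
      ((p : ℝ≥0∞) + 1) * pairs := by
    rw [← mass_transport (k := fun x a r => ind (HasPair (Z x) a ∧ ∃ k, InSlot (Z x) a k r))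
      ⟨fun a r => Measurable.ind ((measurable_hasPair hZ a).and
          (Measurable.exists fun k => measurable_inSlot hZ a k r)),
        fun h x a r => ind_congr (and_congr (hasPair_tr hZ h x a)
          (exists_congr fun k => inSlot_tr hZ h x a k r))⟩,
      hpairs, ← dens_const_mul _ fun a => Measurable.ind (measurable_hasPair hZ a)]
    exact dens_mono fun x a => slot_count _ a
  have hbad : dens (fun x c => ind (Bad (Z x) c)) ≤
      2 * (3 : ℕ) * c' + 2 * (4 : ℕ) * dens (fun x e => ind ((quot (Z x)).LeafE e)) :=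
    ends_bound hΨ.rg hE hc (fun c => measurable_bad hZ c) 3 4 fun x c => by
      have := bad_le (Ψ := Ψ x) (x := x) (t := t) (n := n) c
      rw [show (2 * ((3 : ℕ) : ℝ≥0∞)) = 6 by norm_num, Nat.cast_ofNat, Nat.cast_ofNat]
      exact this
  have hsingle : 2 * dens (fun x r => ind (Single (Z x) r)) ≤
      dens (fun x c => ind (Bad (Z x) c)) + 2 * (((p : ℝ≥0∞) + 1) * pairs) := by
    refine le_trans ?_ (add_le_add le_rfl (mul_le_mul_right hpinc 2))
    rw [dens_ends (fun x c => ind (Bad (Z x) c)),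
      ← dens_const_mul 2 fun r => Measurable.ind (measurable_single hZ r),
      ← dens_const_mul 2 fun r => Measurable.tsum fun a => Measurable.ind
        ((measurable_hasPair hZ a).and (Measurable.exists fun k => measurable_inSlot hZ a k r)),
      ← dens_add (f := fun x r => ind (Bad (Z x) (en r false)) + ind (Bad (Z x) (en r true)))
        fun r => (Measurable.ind (measurable_bad hZ _)).add (Measurable.ind (measurable_bad hZ _))]
    refine dens_mono fun x r => ?_
    rcases em (Single (Z x) r) with hs | hs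
    swap
    · simp [ind_neg hs]
    have hcase : (∀ b, Bad (Z x) (en r b)) ∨ ∃ a, HasPair (Z x) a ∧ UsedBy (Z x) a r :=
      single_cases (hZ.mk_congr x) hs
    rcases hcase with hb | ⟨a, ha, hu⟩
    · refine le_add_right ?_
      rw [ind_pos (hb false), ind_pos (hb true), ind_pos hs, mul_one, one_add_one_eq_two]
    · refine le_add_left ?_
      gcongr
      exact (ind_le_one _).trans (one_le_tsum_ind (a := a) ⟨ha, hu.2⟩)
  -- the new leaves
  have hleaf : dens (fun x e => ind ((quot (Z x)).LeafE e)) + pairs ≤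
      dens (fun x e => ind ((collapsed (Z x) K).LeafE e)) := by
    calc dens (fun x e => ind ((quot (Z x)).LeafE e)) + pairs
        ≤ dens (fun x e => ind ((quot (Z x)).LeafE e)) +
            dens (fun x r => ∑' a, ind (KeptBy (Z x) a r)) := by
          gcongr
          refine (dens_mono fun x a => ?_).trans (mass_transport (k := fun x a r =>
            ind (KeptBy (Z x) a r)) ⟨fun a r => Measurable.ind (measurable_keptBy hZ a r),
              fun h x a r => ind_congr (keptBy_tr hZ h x a r)⟩).le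
          rcases em (HasPair (Z x) a) with h | h
          · obtain ⟨k, hk, -⟩ := exists_delSlot h
            obtain ⟨r, hr⟩ := exists_cell_slot h.1 (k + 1)
            exact (ind_le_one _).trans (one_le_tsum_ind (a := r) ⟨k, h, hk, hr⟩)
          · simp [ind_neg h]
      _ ≤ _ := by
          rw [← dens_add fun r => Measurable.ind (measurable_leafE hQ r)]
          exact dens_mono fun x r => leaf_kept_le hK (hZ.mk_congr x) r
  -- combine
  set S := dens (fun x r => ind (Single (Z x) r))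
  set B := dens (fun x c => ind (Bad (Z x) c))
  set LQ := dens (fun x e => ind ((quot (Z x)).LeafE e))
  set LG := dens (fun x e => ind ((collapsed (Z x) K).LeafE e))
  have hS : S ≤ 3 * c' + ((p : ℝ≥0∞) + 1) * LG := by
    have h4 : (4 : ℝ≥0∞) ≤ (p : ℝ≥0∞) + 1 := by exact_mod_cast (show 4 ≤ p + 1 by omega)
    have h2S : 2 * S ≤ 2 * (3 * c' + ((p : ℝ≥0∞) + 1) * LG) := by
      calc 2 * S ≤ (2 * (3 : ℕ) * c' + 2 * (4 : ℕ) * LQ) + 2 * (((p : ℝ≥0∞) + 1) * pairs) :=
            hsingle.trans (add_le_add hbad le_rfl)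
        _ = 2 * (3 * c' + (4 * LQ + ((p : ℝ≥0∞) + 1) * pairs)) := by push_cast; ring
        _ ≤ 2 * (3 * c' + (((p : ℝ≥0∞) + 1) * LQ + ((p : ℝ≥0∞) + 1) * pairs)) := by gcongr
        _ ≤ _ := by rw [← mul_add]; gcongr
    exact (ENNReal.mul_le_mul_iff_right two_ne_zero ENNReal.ofNat_ne_top).1 h2S
  calc 2 * ENNReal.ofReal (9 / 10 * p) * cellDens Z
      ≤ 2 * dens (fun x r => ind (∃ a k, CellAt (Z x) a ∧ InSlot (Z x) a k r)) := by
        rw [mul_assoc]; exact mul_le_mul_right hused 2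
    _ ≤ S + ((p : ℝ≥0∞) + 1) * cellDens Z := h2used
    _ ≤ (3 * c' + ((p : ℝ≥0∞) + 1) * LG) + ((p : ℝ≥0∞) + 1) * cellDens Z := by gcongr
    _ = _ := by ring

open Gain in
/-- Few edges join marked nodes, unless many leaf edges appear. -/
theorem gain_marked (hΨ : IsState Ψ) (hE : edens (clo Ψ t n) ≠ ∞) {c' : ℝ≥0∞}
    (hc : edens (fun x => quot (clo Ψ t n x)) ≤ c' + vdens fun x => quot (clo Ψ t n x)) :
    dens (fun x y => ind (MarkedEdge (clo Ψ t n x) y)) ≤
      c' + dens (fun x e => ind ((collapsed (clo Ψ t n x) K).LeafE e)) := by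
  set Z := clo Ψ t n with hZdef
  have hZ : IsRG Z := clo_rg hΨ.rg t n
  have hQ : IsRG fun x => quot (Z x) := quot_rg hZ
  set MR : Lab (G p) → CEdge p S0 → Prop := fun x r =>
    IsRep (Z x) r ∧ (Z x).Mk (en r false) ∧ (Z x).Mk (en r true) with hMR
  have hMRm : ∀ r, Measurable fun x => MR x r := fun r =>
    (measurable_isRep hZ r).and ((hZ.measMk _).and (hZ.measMk _))
  have h1 : dens (fun x y => ind (MarkedEdge (Z x) y)) ≤ dens (fun x r => ind (MR x r)) := by
    refine dens_le_of_kernel (k := fun x y r => ind (MR x r ∧ img r = y))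
      ⟨fun y r => Measurable.ind ((hMRm r).and measurable_const), fun h x y r => ind_congr ?_⟩
      (fun x y => ?_) fun x r => ?_
    · refine and_congr (and_congr (isRep_tr hZ h x r) (and_congr ?_ ?_)) ?_
      · rw [← tr_en]; exact hZ.equivMk h x _
      · rw [← tr_en]; exact hZ.equivMk h x _
      · rw [img_tr]; exact (tr_injective h).eq_iff
    · rcases em (MarkedEdge (Z x) y) with ⟨e, he, hy, hm0, hm1⟩ | hno
      · obtain ⟨r, hr, hs⟩ := exists_rep he
        exact (ind_le_one _).trans (one_le_tsum_ind (a := r)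
          ⟨⟨hr, hZ.mk_congr x _ _ (hs.ends he hr.1 false) hm0,
            hZ.mk_congr x _ _ (hs.ends he hr.1 true) hm1⟩, hs.1.symm.trans hy⟩)
      · simp [ind_neg hno]
    · simp only [ind_and]
      rw [ENNReal.tsum_mul_left]
      exact mul_le_of_le_one_right' (tsum_ind_le_one fun a b ha hb => ha.symm.trans hb)
  set L : Lab (G p) → CEnd p S0 → Prop := fun x c => (quot (Z x)).Pres c ∧ (quot (Z x)).Mk c
  have h2 : 2 * dens (fun x r => ind (MR x r)) ≤ dens (fun x c => ind (L x c)) := by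
    rw [dens_ends, ← dens_const_mul 2 fun r => Measurable.ind (hMRm r)]
    refine dens_mono fun x r => ?_
    rw [two_mul]
    exact add_le_add (ind_mono fun h => ⟨h.1, h.2.1⟩) (ind_mono fun h => ⟨h.1, h.2.2⟩)
  have h3 := ends_bound hΨ.rg hE hc (L := L) (fun c => (hQ.measPres c).and (hQ.measMk c)) 1 1
    fun x c => by
      rw [Nat.cast_one, mul_one, one_mul, one_mul]
      exact marked_le (Ψ := Ψ x) (x := x) (t := t) (n := n) c
  have hLQ : dens (fun x e => ind ((quot (Z x)).LeafE e)) ≤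
      dens (fun x e => ind ((collapsed (Z x) K).LeafE e)) :=
    dens_mono fun x r => ind_mono leafE_stays
  refine (ENNReal.mul_le_mul_iff_right two_ne_zero ENNReal.ofNat_ne_top).1 ?_
  calc 2 * dens (fun x y => ind (MarkedEdge (Z x) y)) ≤ 2 * dens (fun x r => ind (MR x r)) := by
        gcongr
    _ ≤ _ := h2.trans h3
    _ ≤ _ := by rw [mul_add]; push_cast; simp only [mul_one]; gcongr

end Vale.Agent.P189
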