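import Vale.Agent.P189.Process

/-!
Invariant random graphs.

A graph has edges indexed by `H × S`; the ends of the edge `(g, s)` are `(g, (s, false))` (source)
and `(g, (s, true))` (target). The nodes are the classes of an equivalence on ends, and some
classes are marked. The edge density counts present edges, the node density counts unmarked
classes of present ends.
-/

namespace Vale.Agent.P189

open MeasureTheory Function
open scoped ENNReal unitInterval

/-- The indicator of a proposition. -/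
noncomputable def ind (P : Prop) : ℝ≥0∞ := @ite _ P (Classical.dec P) 1 0

lemma ind_pos {P : Prop} (h : P) : ind P = 1 := if_pos h

lemma ind_neg {P : Prop} (h : ¬P) : ind P = 0 := if_neg h

lemma ind_le_one (P : Prop) : ind P ≤ 1 := by
  rcases em P with h | h <;> simp [ind_pos, ind_neg, h]

lemma ind_mono {P Q : Prop} (h : P → Q) : ind P ≤ ind Q := by
  rcases em P with hP | hP <;> simp [ind_pos, ind_neg, hP, h]

lemma ind_congr {P Q : Prop} (h : P ↔ Q) : ind P = ind Q := by rw [propext h]

lemma ind_and {P Q : Prop} : ind (P ∧ Q) = ind P * ind Q := by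
  rcases em P with hP | hP <;> rcases em Q with hQ | hQ <;> simp [ind_pos, ind_neg, hP, hQ]

lemma ind_ne_zero {P : Prop} : ind P ≠ 0 ↔ P := by
  rcases em P with h | h <;> simp [ind_pos, ind_neg, h]

lemma Measurable.ind {α : Type*} [MeasurableSpace α] {P : α → Prop} (h : Measurable P) :
    Measurable fun x => ind (P x) := by
  classical
  exact Measurable.ite (measurableSet_setOfPred.2 h) measurable_const measurable_const

lemma tsum_ind_le_one {α : Type*} {P : α → Prop} (h : ∀ a b, P a → P b → a = b) :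
    ∑' a, ind (P a) ≤ 1 := by
  rcases em (∃ a, P a) with ⟨a, ha⟩ | hne
  · rw [tsum_eq_single a fun b hb => ind_neg fun hP => hb (h b a hP ha)]
    exact ind_le_one _
  · simp [ind_neg (fun hP => hne ⟨_, hP⟩)]

lemma one_le_tsum_ind {α : Type*} {P : α → Prop} {a : α} (h : P a) : 1 ≤ ∑' b, ind (P b) :=
  (ind_pos h).symm.le.trans (ENNReal.le_tsum a)

/-- The equivalence generated by a relation, as finite chains. -/
def chain {α : Type*} (r : α → α → Prop) : ℕ → α → α → Prop
  | 0 => Eq
  | k + 1 => fun a c => ∃ b, chain r k a b ∧ (r b c ∨ r c b)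

lemma eqvGen_iff_chain {α : Type*} {r : α → α → Prop} {a b : α} :
    Relation.EqvGen r a b ↔ ∃ k, chain r k a b := by
  have happ : ∀ k a b, chain r k a b → ∀ l c, chain r l b c → ∃ n, chain r n a c := by
    intro k a b hab l
    induction l with
    | zero => rintro c rfl; exact ⟨k, hab⟩
    | succ l ih =>
      rintro c ⟨d, hd, hdc⟩
      obtain ⟨n, hn⟩ := ih d hd
      exact ⟨n + 1, d, hn, hdc⟩
  constructor
  · intro h
    induction h with
    | rel x y h => exact ⟨1, x, rfl, Or.inl h⟩
    | refl x => exact ⟨0, rfl⟩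
    | symm x y _ ih =>
      obtain ⟨k, hk⟩ := ih
      clear * - hk happ
      induction k generalizing y with
      | zero => exact ⟨0, hk.symm⟩
      | succ k ih =>
        obtain ⟨z, hz, hzy⟩ := hk
        obtain ⟨n, hn⟩ := ih z hz
        exact happ 1 y z ⟨y, rfl, hzy.symm⟩ n x hn
    | trans x y z _ _ ih₁ ih₂ =>
      obtain ⟨k, hk⟩ := ih₁
      obtain ⟨l, hl⟩ := ih₂
      exact happ k x y hk l z hl
  · rintro ⟨k, hk⟩
    induction k generalizing b with
    | zero => exact hk ▸ Relation.EqvGen.refl _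
    | succ k ih =>
      obtain ⟨z, hz, hzy⟩ := hk
      refine Relation.EqvGen.trans _ _ _ (ih hz) ?_
      rcases hzy with h | h
      · exact Relation.EqvGen.rel _ _ h
      · exact Relation.EqvGen.symm _ _ (Relation.EqvGen.rel _ _ h)

lemma measurable_chain {α Ω : Type*} [Countable α] [MeasurableSpace Ω] {r : Ω → α → α → Prop}
    (h : ∀ a b, Measurable fun x => r x a b) :
    ∀ k a b, Measurable fun x => chain (r x) k a b
  | 0, _, _ => measurable_const
  | k + 1, a, _ => Measurable.exists fun b =>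
      (measurable_chain h k a b).and ((h _ _).or (h _ _))

lemma measurable_eqvGen {α Ω : Type*} [Countable α] [MeasurableSpace Ω] {r : Ω → α → α → Prop}
    (h : ∀ a b, Measurable fun x => r x a b) (a b : α) :
    Measurable fun x => Relation.EqvGen (r x) a b := by
  simp only [eqvGen_iff_chain]
  exact Measurable.exists fun k => measurable_chain h k a b

lemma eqvGen_equiv {α β : Type*} (e : α ≃ β) {r : α → α → Prop} {r' : β → β → Prop}
    (h : ∀ a b, r' (e a) (e b) ↔ r a b) (a b : α) :
    Relation.EqvGen r' (e a) (e b) ↔ Relation.EqvGen r a b := by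
  constructor
  · suffices ∀ u v, Relation.EqvGen r' u v → Relation.EqvGen r (e.symm u) (e.symm v) by
      intro huv; simpa using this _ _ huv
    intro u v huv
    induction huv with
    | rel x y hxy => exact Relation.EqvGen.rel _ _ ((h _ _).1 (by simpa using hxy))
    | refl x => exact Relation.EqvGen.refl _
    | symm x y _ ih => exact Relation.EqvGen.symm _ _ ih
    | trans x y z _ _ ih₁ ih₂ => exact Relation.EqvGen.trans _ _ _ ih₁ ih₂
  · intro hab
    induction hab with
    | rel x y hxy => exact Relation.EqvGen.rel _ _ ((h _ _).2 hxy)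
    | refl x => exact Relation.EqvGen.refl _
    | symm x y _ ih => exact Relation.EqvGen.symm _ _ ih
    | trans x y z _ _ ih₁ ih₂ => exact Relation.EqvGen.trans _ _ _ ih₁ ih₂

variable {H S S' T : Type}

/-- The identifier of an end. -/
abbrev End (H S : Type) : Type := H × (S × Bool)

/-- The end of an edge on the given side (`false`: source, `true`: target). -/
def en (e : H × S) (b : Bool) : End H S := (e.1, (e.2, b))

/-- The edge of an end. -/
def edge (a : End H S) : H × S := (a.1, a.2.1)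

/-- The side of an end. -/
def side (a : End H S) : Bool := a.2.2

@[simp] lemma edge_en (e : H × S) (b : Bool) : edge (en e b) = e := rfl

@[simp] lemma side_en (e : H × S) (b : Bool) : side (en e b) = b := rfl

@[simp] lemma en_edge_side (a : End H S) : en (edge a) (side a) = a := rfl

@[simp] lemma tr_en [Group H] (h : H) (e : H × S) (b : Bool) :
    tr h (en e b) = en (tr h e) b := rfl

@[simp] lemma edge_tr [Group H] (h : H) (a : End H S) : edge (tr h a) = tr h (edge a) := rfl

@[simp] lemma side_tr [Group H] (h : H) (a : End H S) : side (tr h a) = side a := rfl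

/-- The action of an edge map on ends. -/
def endMap (φ : H × S' → H × S) (a : End H S') : End H S := en (φ (edge a)) (side a)

@[simp] lemma endMap_en (φ : H × S' → H × S) (e : H × S') (b : Bool) :
    endMap φ (en e b) = en (φ e) b := rfl

/-- A graph. -/
structure Gph (H S : Type) where
  /-- The edges. -/
  E : Set (H × S)
  /-- The relation of being at the same node. -/
  R : End H S → End H S → Prop
  /-- The marked nodes. -/
  Mk : End H S → Prop

namespace Gph

/-- An end is present if its edge is. -/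
def Pres (Γ : Gph H S) (a : End H S) : Prop := edge a ∈ Γ.E

/-- The number of present ends at the node of an end. -/
noncomputable def cnt (Γ : Gph H S) (a : End H S) : ℝ≥0∞ := ∑' b, ind (Γ.Pres b ∧ Γ.R a b)

/-- The edge weight. -/
noncomputable def eW (Γ : Gph H S) (e : H × S) : ℝ≥0∞ := ind (e ∈ Γ.E)

/-- The node weight: each unmarked node spreads one unit over its ends. -/
noncomputable def vW (Γ : Gph H S) (a : End H S) : ℝ≥0∞ :=
  ind (Γ.Pres a ∧ ¬Γ.Mk a) * (Γ.cnt a)⁻¹

end Gph

/-- An invariant random graph. -/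
structure IsRG [Group H] (Γ : Lab H → Gph H S) : Prop where
  measE : ∀ e, Measurable fun x => e ∈ (Γ x).E
  measR : ∀ a b, Measurable fun x => (Γ x).R a b
  measMk : ∀ a, Measurable fun x => (Γ x).Mk a
  equivE : ∀ h x e, tr h e ∈ (Γ (sh h x)).E ↔ e ∈ (Γ x).E
  equivR : ∀ h x a b, (Γ (sh h x)).R (tr h a) (tr h b) ↔ (Γ x).R a b
  equivMk : ∀ h x a, (Γ (sh h x)).Mk (tr h a) ↔ (Γ x).Mk a
  eqv : ∀ x, Equivalence (Γ x).R
  mk_congr : ∀ x a b, (Γ x).R a b → (Γ x).Mk a → (Γ x).Mk b

/-- The expected number of edges per group element. -/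
noncomputable def edens [Group H] (Γ : Lab H → Gph H S) : ℝ≥0∞ := dens fun x => (Γ x).eW

/-- The expected number of unmarked nodes per group element. -/
noncomputable def vdens [Group H] (Γ : Lab H → Gph H S) : ℝ≥0∞ := dens fun x => (Γ x).vW

section

variable [Group H] [Countable H] [Countable S] [Countable T] {Γ : Lab H → Gph H S}

omit [Countable H] [Countable S] in
lemma IsRG.measPres (hΓ : IsRG Γ) (a : End H S) : Measurable fun x => (Γ x).Pres a := hΓ.measE _

omit [Countable H] [Countable S] in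
lemma IsRG.equivPres (hΓ : IsRG Γ) (h : H) (x : Lab H) (a : End H S) :
    (Γ (sh h x)).Pres (tr h a) ↔ (Γ x).Pres a := hΓ.equivE h x (edge a)

omit [Countable H] [Countable S] in
/-- A sum over indices is invariant under translation. -/
lemma tsum_tr (h : H) (f : H × S → ℝ≥0∞) : ∑' a, f (tr h a) = ∑' a, f a :=
  ((Equiv.mulLeft h).prodCongr (Equiv.refl S)).tsum_eq f

omit [Countable H] [Countable S] in
lemma IsRG.cnt_equiv (hΓ : IsRG Γ) (h : H) (x : Lab H) (a : End H S) :
    (Γ (sh h x)).cnt (tr h a) = (Γ x).cnt a := by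
  rw [Gph.cnt, ← tsum_tr h]
  exact tsum_congr fun b => ind_congr (and_congr (hΓ.equivPres h x b) (hΓ.equivR h x a b))

lemma IsRG.measurable_cnt (hΓ : IsRG Γ) (a : End H S) : Measurable fun x => (Γ x).cnt a :=
  Measurable.tsum fun b => Measurable.ind ((hΓ.measPres b).and (hΓ.measR a b))

omit [Countable H] [Countable S] in
lemma IsRG.eW_weight (hΓ : IsRG Γ) : IsWeight fun x => (Γ x).eW :=
  ⟨fun e => Measurable.ind (hΓ.measE e), fun h x e => ind_congr (hΓ.equivE h x e)⟩

lemma IsRG.vW_weight (hΓ : IsRG Γ) : IsWeight fun x => (Γ x).vW :=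
  ⟨fun a => (Measurable.ind ((hΓ.measPres a).and (hΓ.measMk a).not)).mul
      (hΓ.measurable_cnt a).inv,
    fun h x a => by
      simp only [Gph.vW, hΓ.cnt_equiv h x a]
      rw [ind_congr (and_congr (hΓ.equivPres h x a) (not_congr (hΓ.equivMk h x a)))]⟩

omit [Countable H] [Countable S] in
lemma IsRG.cnt_congr (hΓ : IsRG Γ) {x : Lab H} {a b : End H S} (h : (Γ x).R a b) :
    (Γ x).cnt a = (Γ x).cnt b :=
  tsum_congr fun c => ind_congr (and_congr_right fun _ =>
    ⟨fun hac => (hΓ.eqv x).trans ((hΓ.eqv x).symm h) hac, fun hbc => (hΓ.eqv x).trans h hbc⟩)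

omit [Group H] [Countable H] [Countable S] in
lemma Gph.vW_ne_zero {Γ : Gph H S} {a : End H S} :
    Γ.vW a ≠ 0 ↔ Γ.Pres a ∧ ¬Γ.Mk a ∧ Γ.cnt a ≠ ∞ := by
  simp [Gph.vW, ind_ne_zero, and_assoc]

omit [Countable H] [Countable S] in
lemma IsRG.cnt_ne_zero (hΓ : IsRG Γ) {x : Lab H} {a : End H S} (h : (Γ x).Pres a) :
    (Γ x).cnt a ≠ 0 :=
  (lt_of_lt_of_le one_pos (one_le_tsum_ind (a := a) ⟨h, (hΓ.eqv x).refl a⟩)).ne'

omit [Countable H] [Countable S] in
/-- The weights at one node add up to at most one. -/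
lemma IsRG.tsum_vW_le (hΓ : IsRG Γ) (x : Lab H) {P : End H S → Prop}
    (hP : ∀ a b, P a → P b → (Γ x).R a b) : ∑' a, ind (P a) * (Γ x).vW a ≤ 1 := by
  rcases em (∃ a, P a ∧ (Γ x).vW a ≠ 0) with ⟨a₀, ha₀, hv⟩ | hne
  · obtain ⟨hp, hm, hc⟩ := Gph.vW_ne_zero.1 hv
    calc ∑' a, ind (P a) * (Γ x).vW a
        ≤ ∑' a, ind ((Γ x).Pres a ∧ (Γ x).R a₀ a) * ((Γ x).cnt a₀)⁻¹ := by
          refine ENNReal.tsum_le_tsum fun a => ?_
          rcases em (P a) with ha | ha
          · rw [ind_pos ha, one_mul, Gph.vW, hΓ.cnt_congr (hP a₀ a ha₀ ha)]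
            gcongr
            exact ind_mono fun hh => ⟨hh.1, hP a₀ a ha₀ ha⟩
          · simp [ind_neg ha]
      _ = (Γ x).cnt a₀ * ((Γ x).cnt a₀)⁻¹ := ENNReal.tsum_mul_right
      _ = 1 := ENNReal.mul_inv_cancel (hΓ.cnt_ne_zero hp) hc
  · refine le_of_eq_of_le ?_ zero_le
    rw [ENNReal.tsum_eq_zero]
    intro a
    rcases em (P a) with ha | ha
    · simp [not_not.1 fun hv => hne ⟨a, ha, hv⟩]
    · simp [ind_neg ha]

omit [Countable H] [Countable S] in
/-- The weights at one finite unmarked node add up to one. -/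
lemma IsRG.one_le_tsum_vW (hΓ : IsRG Γ) {x : Lab H} {a₀ : End H S} (hv : (Γ x).vW a₀ ≠ 0)
    {P : End H S → Prop} (hP : ∀ a, (Γ x).R a₀ a → P a) :
    1 ≤ ∑' a, ind (P a) * (Γ x).vW a := by
  obtain ⟨hp, hm, hc⟩ := Gph.vW_ne_zero.1 hv
  calc (1 : ℝ≥0∞) = (Γ x).cnt a₀ * ((Γ x).cnt a₀)⁻¹ :=
        (ENNReal.mul_inv_cancel (hΓ.cnt_ne_zero hp) hc).symm
    _ = ∑' a, ind ((Γ x).Pres a ∧ (Γ x).R a₀ a) * ((Γ x).cnt a₀)⁻¹ :=
        ENNReal.tsum_mul_right.symm
    _ ≤ _ := by
      refine ENNReal.tsum_le_tsum fun a => ?_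
      rcases em ((Γ x).Pres a ∧ (Γ x).R a₀ a) with ha | ha
      · rw [ind_pos ha, ind_pos (hP a ha.2), one_mul, one_mul, Gph.vW,
          ind_pos (P := (Γ x).Pres a ∧ ¬(Γ x).Mk a) ⟨ha.1,
            fun hma => hm (hΓ.mk_congr x a a₀ ((hΓ.eqv x).symm ha.2) hma)⟩,
          one_mul, hΓ.cnt_congr ha.2]
      · simp [ind_neg ha]

omit [Countable H] [Countable S] in
/-- Monotonicity of the density, almost surely at the origin. -/
lemma dens_mono_ae {f f' : Lab H → H × S → ℝ≥0∞}
    (h : ∀ᵐ x ∂law H, ∀ s, f x (1, s) ≤ f' x (1, s)) : dens f ≤ dens f' :=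
  lintegral_mono_ae (h.mono fun _ hx => ENNReal.tsum_le_tsum hx)

omit [Countable H] in
lemma dens_add {f f' : Lab H → H × S → ℝ≥0∞} (hf : ∀ a, Measurable fun x => f x a) :
    dens (fun x a => f x a + f' x a) = dens f + dens f' := by
  rw [dens, dens, dens, ← lintegral_add_left (Measurable.tsum fun s => hf _)]
  exact lintegral_congr fun x => ENNReal.tsum_add

omit [Countable H] in
lemma dens_const_mul (c : ℝ≥0∞) {f : Lab H → H × S → ℝ≥0∞}
    (hf : ∀ a, Measurable fun x => f x a) :
    dens (fun x a => c * f x a) = c * dens f := by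
  rw [dens, dens, ← lintegral_const_mul c (Measurable.tsum fun s => hf _)]
  exact lintegral_congr fun x => ENNReal.tsum_mul_left

/-- A transport with almost surely enough output and not too much input compares densities. -/
lemma dens_le_of_kernel_ae {f : Lab H → H × S → ℝ≥0∞} {f' : Lab H → H × T → ℝ≥0∞}
    {k : Lab H → H × S → H × T → ℝ≥0∞} (hk : IsKernel k)
    (hout : ∀ᵐ x ∂law H, ∀ a, f x a ≤ ∑' b, k x a b)
    (hin : ∀ᵐ x ∂law H, ∀ b, ∑' a, k x a b ≤ f' x b) : dens f ≤ dens f' :=
  (dens_mono_ae (hout.mono fun _ hx s => hx _)).trans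
    ((mass_transport hk).trans_le (dens_mono_ae (hin.mono fun _ hx t => hx _)))

/-- An indexed quantity sent injectively to finite unmarked nodes is at most the node density. -/
lemma dens_le_vdens {f : Lab H → H × T → ℝ≥0∞} (hf : IsWeight f) (hΓ : IsRG Γ)
    (Q : Lab H → H × T → End H S → Prop) (hQm : ∀ a b, Measurable fun x => Q x a b)
    (hQe : ∀ h x a b, Q (sh h x) (tr h a) (tr h b) ↔ Q x a b)
    (hR : ∀ᵐ x ∂law H, ∀ a b b', Q x a b → (Γ x).R b b' → Q x a b')
    (hin : ∀ᵐ x ∂law H, ∀ b, ∑' a, ind (Q x a b) * f x a ≤ 1)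
    (hout : ∀ᵐ x ∂law H, ∀ a, f x a ≠ 0 → ∃ b, Q x a b ∧ (Γ x).vW b ≠ 0) :
    dens f ≤ vdens Γ := by
  let k : Lab H → H × T → End H S → ℝ≥0∞ := fun x a b => (ind (Q x a b) * f x a) * (Γ x).vW b
  have hk : IsKernel k := ⟨fun a b => ((Measurable.ind (hQm a b)).mul (hf.meas a)).mul
    (hΓ.vW_weight.meas b), fun h x a b => by
      simp only [k, hf.equiv h x a]
      have h2 : (Γ (sh h x)).vW (tr h b) = (Γ x).vW b := hΓ.vW_weight.equiv h x b
      rw [h2, ind_congr (hQe h x a b)]⟩
  refine dens_le_of_kernel_ae hk ?_ ?_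
  · filter_upwards [hR, hout] with x hR hout a
    rcases eq_or_ne (f x a) 0 with h | h
    · simp [h]
    obtain ⟨b₀, hb₀, hv⟩ := hout a h
    calc f x a = f x a * 1 := (mul_one _).symm
      _ ≤ f x a * ∑' b, ind (Q x a b) * (Γ x).vW b :=
          mul_le_mul_right (hΓ.one_le_tsum_vW hv fun b hb => hR a b₀ b hb₀ hb) _
      _ = ∑' b, k x a b := by
          rw [← ENNReal.tsum_mul_left]; exact tsum_congr fun b => by simp only [k]; ring
  · filter_upwards [hin] with x hin b
    calc ∑' a, k x a b = (∑' a, ind (Q x a b) * f x a) * (Γ x).vW b := ENNReal.tsum_mul_right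
      _ ≤ 1 * (Γ x).vW b := mul_le_mul_left (hin b) _
      _ = _ := one_mul _

/-- A finite density is received from at most finitely many at every point. -/
lemma ae_in_lt_top {k : Lab H → H × S → H × T → ℝ≥0∞} (hk : IsKernel k)
    (hfin : dens (fun x a => ∑' b, k x a b) ≠ ∞) :
    ∀ᵐ x ∂law H, ∀ b, ∑' a, k x a b < ∞ := by
  have h := ae_forall_of_dens hk.symm.out (by rwa [← mass_transport hk])
  filter_upwards [h] with x hx b
  exact lt_of_le_of_lt (ENNReal.le_tsum (f := fun t => ∑' a, k x a (b.1, t)) b.2) (hx b.1)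

end

/-- The fold closure of the node relation along an edge map. -/
inductive FoldRel (Γ : Gph H S') (φ : H × S' → H × S) : End H S' → End H S' → Prop
  | base {a b} : Γ.R a b → FoldRel Γ φ a b
  | symm {a b} : FoldRel Γ φ a b → FoldRel Γ φ b a
  | trans {a b c} : FoldRel Γ φ a b → FoldRel Γ φ b c → FoldRel Γ φ a c
  | fold {e e' b} : e ∈ Γ.E → e' ∈ Γ.E → φ e = φ e' → FoldRel Γ φ (en e b) (en e' b) →
      FoldRel Γ φ (en e (!b)) (en e' (!b))

/-- The fold closure in stages: stage `n + 1` folds the pairs meeting on side `n % 2` at stage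
`n`. -/
def foldStage (Γ : Gph H S') (φ : H × S' → H × S) : ℕ → End H S' → End H S' → Prop
  | 0 => Γ.R
  | n + 1 => Relation.EqvGen fun a b => foldStage Γ φ n a b ∨
      ∃ e e', e ∈ Γ.E ∧ e' ∈ Γ.E ∧ φ e = φ e' ∧
        foldStage Γ φ n (en e (decide (n % 2 = 0))) (en e' (decide (n % 2 = 0))) ∧
        a = en e (!decide (n % 2 = 0)) ∧ b = en e' (!decide (n % 2 = 0))

lemma foldStage_succ {Γ : Gph H S'} {φ : H × S' → H × S} {n : ℕ} {a b : End H S'}
    (h : foldStage Γ φ n a b) : foldStage Γ φ (n + 1) a b :=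
  Relation.EqvGen.rel _ _ (Or.inl h)

lemma foldStage_mono {Γ : Gph H S'} {φ : H × S' → H × S} {m n : ℕ} (hmn : m ≤ n)
    {a b : End H S'} (h : foldStage Γ φ m a b) : foldStage Γ φ n a b := by
  induction hmn with
  | refl => exact h
  | step _ ih => exact foldStage_succ ih

lemma foldStage_equivalence {Γ : Gph H S'} {φ : H × S' → H × S} (hΓ : Equivalence Γ.R) :
    ∀ n, Equivalence (foldStage Γ φ n)
  | 0 => hΓ
  | _ + 1 => Relation.EqvGen.is_equivalence _

lemma foldRel_iff {Γ : Gph H S'} {φ : H × S' → H × S} (hΓ : Equivalence Γ.R) {a b : End H S'} :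
    FoldRel Γ φ a b ↔ ∃ n, foldStage Γ φ n a b := by
  constructor
  · intro h
    induction h with
    | base h => exact ⟨0, h⟩
    | symm _ ih => exact ⟨_, (foldStage_equivalence hΓ _).symm ih.choose_spec⟩
    | trans _ _ ih₁ ih₂ =>
      exact ⟨max ih₁.choose ih₂.choose, (foldStage_equivalence hΓ _).trans
        (foldStage_mono (le_max_left _ _) ih₁.choose_spec)
        (foldStage_mono (le_max_right _ _) ih₂.choose_spec)⟩
    | @fold e e' b he he' hφ _ ih =>
      obtain ⟨n, hn⟩ := ih
      obtain ⟨m, hm, hb⟩ : ∃ m, n ≤ m ∧ decide (m % 2 = 0) = b := by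
        rcases Nat.mod_two_eq_zero_or_one n with h | h <;> cases b
        · exact ⟨n + 1, by omega, by simp; omega⟩
        · exact ⟨n, le_rfl, by simp [h]⟩
        · exact ⟨n, le_rfl, by simp [h]⟩
        · exact ⟨n + 1, by omega, by simp; omega⟩
      exact ⟨m + 1, Relation.EqvGen.rel _ _ (Or.inr ⟨e, e', he, he', hφ,
        by rw [hb]; exact foldStage_mono hm hn, by rw [hb], by rw [hb]⟩)⟩
  · rintro ⟨n, hn⟩
    induction n generalizing a b with
    | zero => exact FoldRel.base hn
    | succ n ih =>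
      induction hn with
      | rel x y h =>
        rcases h with h | ⟨e, e', he, he', hφ, h, rfl, rfl⟩
        · exact ih h
        · exact FoldRel.fold he he' hφ (ih h)
      | refl x => exact FoldRel.base (hΓ.refl x)
      | symm x y _ ih₁ => exact FoldRel.symm ih₁
      | trans x y z _ _ ih₁ ih₂ => exact FoldRel.trans ih₁ ih₂

lemma foldRel_equivalence {Γ : Gph H S'} {φ : H × S' → H × S} (hΓ : Equivalence Γ.R) :
    Equivalence (FoldRel Γ φ) :=
  ⟨fun a => FoldRel.base (hΓ.refl a), FoldRel.symm, FoldRel.trans⟩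

section

variable [Group H] [Countable H] [Countable S] [Countable S'] {Γ : Lab H → Gph H S'}
  {φ : Lab H → H × S' → H × S}

omit [Group H] [Countable S'] in
lemma measurable_eq_map (hφ : ∀ e y, Measurable fun x => φ x e = y)
    (e e' : H × S') : Measurable fun x => φ x e = φ x e' := by
  have : (fun x => φ x e = φ x e') = fun x => ∃ y, φ x e = y ∧ φ x e' = y := by
    funext x; exact propext ⟨fun h => ⟨_, h, rfl⟩, fun ⟨y, h, h'⟩ => h.trans h'.symm⟩
  rw [this]
  exact Measurable.exists fun y => (hφ e y).and (hφ e' y)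

lemma measurable_foldStage (hΓ : IsRG Γ) (hφ : ∀ e y, Measurable fun x => φ x e = y) :
    ∀ n a b, Measurable fun x => foldStage (Γ x) (φ x) n a b
  | 0, a, b => hΓ.measR a b
  | n + 1, a, b => measurable_eqvGen (fun c d =>
      (measurable_foldStage hΓ hφ n c d).or <| Measurable.exists fun e => Measurable.exists fun e' =>
        (hΓ.measE e).and <| (hΓ.measE e').and <| (measurable_eq_map hφ e e').and <|
          (measurable_foldStage hΓ hφ n _ _).and measurable_const) a b

lemma measurable_foldRel (hΓ : IsRG Γ) (hφ : ∀ e y, Measurable fun x => φ x e = y)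
    (a b : End H S') : Measurable fun x => FoldRel (Γ x) (φ x) a b := by
  simp only [foldRel_iff (hΓ.eqv _)]
  exact Measurable.exists fun n => measurable_foldStage hΓ hφ n a b

omit [Countable H] [Countable S] [Countable S'] in
lemma foldStage_equiv (hΓ : IsRG Γ) (hφ : ∀ h x e, φ (sh h x) (tr h e) = tr h (φ x e)) (h : H)
    (x : Lab H) : ∀ n a b, foldStage (Γ (sh h x)) (φ (sh h x)) n (tr h a) (tr h b) ↔
      foldStage (Γ x) (φ x) n a b
  | 0, a, b => hΓ.equivR h x a b
  | n + 1, a, b => by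
    refine eqvGen_equiv ((Equiv.mulLeft h).prodCongr (Equiv.refl (S' × Bool))) (fun c d => ?_) a b
    refine or_congr (foldStage_equiv hΓ hφ h x n c d) ⟨?_, ?_⟩
    · rintro ⟨e, e', he, he', hee, hs, h1, h2⟩
      have i1 : ∀ e : H × S', tr h (tr h⁻¹ e) = e := fun e => by simp [tr]
      have i2 : Injective (tr (S := S') h) := fun u v huv => by
        simpa [tr, Prod.ext_iff] using huv
      have i3 : Injective (tr (S := S) h) := fun u v huv => by
        simpa [tr, Prod.ext_iff] using huv
      have i4 : Injective (tr (S := S' × Bool) h) := fun u v huv => by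
        simpa [tr, Prod.ext_iff] using huv
      refine ⟨tr h⁻¹ e, tr h⁻¹ e', ?_, ?_, i3 ?_, ?_, i4 ?_, i4 ?_⟩
      · rw [← hΓ.equivE h, i1]; exact he
      · rw [← hΓ.equivE h, i1]; exact he'
      · rw [← hφ, ← hφ, i1, i1]; exact hee
      · rw [← foldStage_equiv hΓ hφ h x n, tr_en, tr_en, i1, i1]; exact hs
      · rw [tr_en, i1]; exact h1
      · rw [tr_en, i1]; exact h2
    · rintro ⟨e, e', he, he', hee, hs, rfl, rfl⟩
      exact ⟨tr h e, tr h e', (hΓ.equivE h x e).2 he, (hΓ.equivE h x e').2 he',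
        by rw [hφ, hφ, hee], (foldStage_equiv hΓ hφ h x n _ _).2 hs, rfl, rfl⟩

omit [Countable H] [Countable S] [Countable S'] in
lemma foldRel_equiv (hΓ : IsRG Γ) (hφ : ∀ h x e, φ (sh h x) (tr h e) = tr h (φ x e)) (h : H)
    (x : Lab H) (a b : End H S') :
    FoldRel (Γ (sh h x)) (φ (sh h x)) (tr h a) (tr h b) ↔ FoldRel (Γ x) (φ x) a b := by
  rw [foldRel_iff (hΓ.eqv _), foldRel_iff (hΓ.eqv _)]
  exact exists_congr fun n => foldStage_equiv hΓ hφ h x n a b

end

end Vale.Agent.P189
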