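import Vale.Agent.P189.State

/-!
The initial state: arcs of a generating family, subdivided along words of lamps.
-/

namespace Vale.Agent.P189

open MeasureTheory Function
open scoped ENNReal unitInterval

section

variable {p : ℕ} {ι : Type} [Fintype ι] (D : ι → Set (Lab (G p)))
  (w : ι → List (Lamp p × Bool))

/-- The value of a word of lamps. -/
def wval : List (Lamp p × Bool) → N p := fun l =>
  (l.map fun z => cond z.2 (lamp z.1) (lamp z.1)⁻¹).prod

lemma exists_wval (n : N p) : ∃ l : List (Lamp p × Bool), wval l = n := by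
  obtain ⟨u, rfl⟩ := PresentedGroup.mk_surjective (Set.range (relator (p := p))) n
  obtain ⟨L, rfl⟩ := Quot.exists_rep u
  refine ⟨L, ?_⟩
  show wval L = PresentedGroup.mk _ (FreeGroup.mk L)
  induction L with
  | nil =>
    rw [← FreeGroup.one_eq_mk, map_one]
    rfl
  | cons z L ih =>
    have h : FreeGroup.mk (z :: L) = FreeGroup.mk [z] * FreeGroup.mk L := by
      rw [FreeGroup.mul_mk]; rfl
    rw [h, map_mul, ← ih]
    obtain ⟨l, b⟩ := z
    show cond b (lamp l) (lamp l)⁻¹ * wval L = _
    congr 1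
    cases b
    · show (PresentedGroup.of l)⁻¹ = _
      rw [show FreeGroup.mk [(l, false)] = (FreeGroup.of l)⁻¹ from rfl, map_inv]; rfl
    · rfl

/-- The position of the junction before a letter, seen from the start of the arc. -/
def wpre (i : ι) (v : ℕ) : N p := wval ((w i).take v)

omit [Fintype ι] in
lemma wpre_succ {i : ι} {j : ℕ} (hj : j < (w i).length) :
    wpre w i (j + 1) = wpre w i j * cond (w i)[j].2 (lamp (w i)[j].1) (lamp (w i)[j].1)⁻¹ := by
  simp only [wpre, wval, List.take_succ_eq_append_getElem hj, List.map_append, List.map_cons,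
    List.map_nil, List.prod_append, List.prod_singleton]

/-- The base of the edge of a letter, seen from the start of the arc. -/
def base (i : ι) (j : ℕ) : G p :=
  match (w i)[j]? with
  | none => 1
  | some z => ⟨wpre w i (cond z.2 j (j + 1)), z.1.2⟩

/-- The junction at a side of the edge of a letter. -/
def jct (i : ι) (j : ℕ) (side : Bool) : ℕ :=
  match (w i)[j]? with
  | none => 0
  | some z => if side = z.2 then j + 1 else j

/-- The start of the arc of an edge. -/
def arcAt (e : EdgeId p (ι × ℕ)) : G p := e.1 * (base w e.2.2.1 e.2.2.2)⁻¹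

/-- An end inside its arc. -/
def Inner (a : End (G p) (Fin p × (ι × ℕ))) : Prop :=
  0 < jct w (edge a).2.2.1 (edge a).2.2.2 (side a) ∧
    jct w (edge a).2.2.1 (edge a).2.2.2 (side a) < (w (edge a).2.2.1).length

open Classical in
/-- The node of an end. -/
noncomputable def key (a : End (G p) (Fin p × (ι × ℕ))) : N p ⊕ (G p × ι × ℕ) :=
  if Inner w a then Sum.inr (arcAt w (edge a), (edge a).2.2.1,
    jct w (edge a).2.2.1 (edge a).2.2.2 (side a)) else Sum.inl (pos a)

/-- The edge is a letter of the word of a present arc. -/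
def present (x : Lab (G p)) (e : EdgeId p (ι × ℕ)) : Prop :=
  sh (arcAt w e)⁻¹ x ∈ D e.2.2.1 ∧
    ∃ h : e.2.2.2 < (w e.2.2.1).length, e.2.1 = ((w e.2.2.1)[e.2.2.2]).1.1

/-- The state of the arcs. -/
noncomputable def arcs (x : Lab (G p)) : Gph (G p) (Fin p × (ι × ℕ)) where
  E := {e | present D w x e}
  R a b := key w a = key w b
  Mk a := ¬Inner w a

omit [Fintype ι] in
lemma arcAt_tr (h : G p) (e : EdgeId p (ι × ℕ)) : arcAt w (tr h e) = h * arcAt w e := by
  simp [arcAt, tr, mul_assoc]

omit [Fintype ι] in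
lemma key_tr (h : G p) (a : End (G p) (Fin p × (ι × ℕ))) :
    key w (tr h a) = Sum.map (posMove h) (fun z => (h * z.1, z.2)) (key w a) := by
  have e1 : Inner w (tr h a) ↔ Inner w a := Iff.rfl
  by_cases ha : Inner w a
  · rw [key, key, if_pos (e1.2 ha), if_pos ha]
    simp only [edge_tr, arcAt_tr, Sum.map_inr]
    rfl
  · rw [key, key, if_neg (mt e1.1 ha), if_neg ha, pos_tr]
    rfl

omit [Fintype ι] in
lemma isRG_arcs (hD : ∀ i, MeasurableSet (D i)) : IsRG (arcs D w) where
  measE e := by
    have h1 : Measurable fun x : Lab (G p) => sh (arcAt w e)⁻¹ x ∈ D e.2.2.1 :=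
      measurableSet_setOfPred.1 (measurable_sh (arcAt w e)⁻¹ (hD e.2.2.1))
    exact h1.and measurable_const
  measR _ _ := measurable_const
  measMk _ := measurable_const
  equivE h x e := by
    show present D w (sh h x) (tr h e) ↔ present D w x e
    simp only [present, arcAt_tr, ← sh_mul, mul_inv_rev, inv_mul_cancel_right]
    rfl
  equivR h x a b := by
    show key w (tr h a) = key w (tr h b) ↔ key w a = key w b
    rw [key_tr, key_tr]
    have hinj : Injective (Sum.map (posMove h) fun z : G p × ι × ℕ => (h * z.1, z.2)) :=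
      (posMove_injective h).sumMap fun u v huv => by simpa [Prod.ext_iff] using huv
    exact hinj.eq_iff
  equivMk _ _ _ := Iff.rfl
  eqv _ := ⟨fun _ => rfl, Eq.symm, Eq.trans⟩
  mk_congr x a b hab ha hb := by
    change key w a = key w b at hab
    change ¬Inner w a at ha
    rw [key, key, if_neg ha, if_pos hb] at hab
    exact Sum.inl_ne_inr hab

omit [Fintype ι] in
/-- The position of an end of a present arc. -/
lemma pos_eq_pre {x : Lab (G p)} {a : End (G p) (Fin p × (ι × ℕ))}
    (ha : (arcs D w x).Pres a) :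
    pos a = posMove (arcAt w (edge a))
      (wpre w (edge a).2.2.1 (jct w (edge a).2.2.1 (edge a).2.2.2 (side a))) := by
  obtain ⟨g, ⟨m, i, j⟩, s⟩ := a
  obtain ⟨-, (hj : j < (w i).length), hm⟩ := ha
  obtain rfl : m = ((w i)[j]'hj).1.1 := hm
  simp only [edge, side]
  show ipos (g, (w i)[j].1.1) s = _
  have : (g, (w i)[j].1.1) = tr (g * (base w i j)⁻¹) (base w i j, (w i)[j].1.1) := by simp [tr]
  rw [this, ipos_tr]
  show _ = posMove (g * (base w i j)⁻¹) _
  congr 1
  have hz := wpre_succ w hj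
  rw [base, jct, List.getElem?_eq_getElem hj]
  generalize (w i)[j] = z at hz ⊢
  obtain ⟨⟨m, f⟩, b⟩ := z
  cases s <;> cases b <;> simp [ipos_false, ipos_true, hz]

omit [Fintype ι] in
lemma key_eq_inl {a : End (G p) (Fin p × (ι × ℕ))} (ha : ¬Inner w a) :
    key w a = Sum.inl (pos a) := if_neg ha

omit [Fintype ι] in
lemma pos_eq_of_key {x : Lab (G p)} {a b : End (G p) (Fin p × (ι × ℕ))}
    (ha : (arcs D w x).Pres a) (hb : (arcs D w x).Pres b) (h : key w a = key w b) :
    pos a = pos b := by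
  by_cases hia : Inner w a <;> by_cases hib : Inner w b <;> simp only [key, hia, hib, if_pos,
    if_neg, not_false_eq_true, reduceCtorEq, Sum.inl.injEq, Sum.inr.injEq, Prod.mk.injEq] at h
  · rw [pos_eq_pre D w ha, pos_eq_pre D w hb]
    obtain ⟨h1, h2, h3⟩ := h
    rw [h1, h3, h2]
  · exact h

/-- The end at a junction of an arc, on the edge of a letter. -/
def jEnd (g : G p) (i : ι) {j : ℕ} (hj : j < (w i).length) (after : Bool) :
    End (G p) (Fin p × (ι × ℕ)) :=
  en (g * base w i j, ((w i)[j].1.1, (i, j))) (if after then (w i)[j].2 else !(w i)[j].2)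

omit [Fintype ι] in
lemma arcAt_jEnd (g : G p) (i : ι) {j : ℕ} (hj : j < (w i).length) (t : Bool) :
    arcAt w (edge (jEnd w g i hj t)) = g := by
  simp [jEnd, arcAt]

omit [Fintype ι] in
lemma jct_jEnd (g : G p) (i : ι) {j : ℕ} (hj : j < (w i).length) (t : Bool) :
    jct w (edge (jEnd w g i hj t)).2.2.1 (edge (jEnd w g i hj t)).2.2.2 (side (jEnd w g i hj t)) =
      if t then j + 1 else j := by
  show jct w i j _ = _
  rw [jct, List.getElem?_eq_getElem hj]
  cases t <;> simp [jEnd]

omit [Fintype ι] in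
lemma pres_jEnd {x : Lab (G p)} {g : G p} {i : ι} (hx : sh g⁻¹ x ∈ D i) {j : ℕ}
    (hj : j < (w i).length) (t : Bool) : (arcs D w x).Pres (jEnd w g i hj t) := by
  show present D w x (edge (jEnd w g i hj t))
  refine ⟨?_, hj, rfl⟩
  rw [arcAt_jEnd]
  exact hx

omit [Fintype ι] in
lemma inner_jEnd (g : G p) (i : ι) {j : ℕ} (hj : j < (w i).length) (t : Bool) :
    Inner w (jEnd w g i hj t) ↔
      0 < (if t then j + 1 else j) ∧ (if t then j + 1 else j) < (w i).length := by
  unfold Inner
  rw [jct_jEnd w g i hj t]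
  rfl

omit [Fintype ι] in
/-- The ends along one arc are linked to its start. -/
lemma link_arc {x : Lab (G p)} {g : G p} {i : ι} (hx : sh g⁻¹ x ∈ D i) (h0 : 0 < (w i).length) :
    ∀ {j : ℕ} (hj : j < (w i).length) (t : Bool),
      (arcs D w x).Link (jEnd w g i h0 false) (jEnd w g i hj t) := by
  intro j
  induction j with
  | zero =>
    intro hj t
    exact Relation.EqvGen.rel _ _ ⟨pres_jEnd D w hx _ _, pres_jEnd D w hx _ _, Or.inr rfl⟩
  | succ j ih =>
    intro hj t
    have hj' : j < (w i).length := by omega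
    refine Relation.EqvGen.trans _ _ _ (ih hj' true) (Relation.EqvGen.trans _ (jEnd w g i hj false) _
      (Relation.EqvGen.rel _ _ ⟨pres_jEnd D w hx _ _, pres_jEnd D w hx _ _, Or.inl ?_⟩)
      (Relation.EqvGen.rel _ _ ⟨pres_jEnd D w hx _ _, pres_jEnd D w hx _ _, Or.inr rfl⟩))
    show key w _ = key w _
    rw [key, key, if_pos ((inner_jEnd w g i hj' true).2 (by simp; omega)),
      if_pos ((inner_jEnd w g i hj false).2 (by simp; omega)), arcAt_jEnd, arcAt_jEnd]
    rw [jct_jEnd, jct_jEnd]
    rfl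

omit [Fintype ι] in
/-- Every present end is linked to the start of its arc. -/
lemma link_start {x : Lab (G p)} {a : End (G p) (Fin p × (ι × ℕ))}
    (ha : (arcs D w x).Pres a) :
    ∃ b, (arcs D w x).Pres b ∧ (arcs D w x).Mk b ∧ (arcs D w x).Link a b := by
  obtain ⟨hx, hj, hm⟩ := ha
  have h0 : 0 < (w (edge a).2.2.1).length := by omega
  refine ⟨jEnd w (arcAt w (edge a)) _ h0 false, pres_jEnd D w hx _ _, ?_, ?_⟩
  · show ¬Inner w _
    rw [inner_jEnd]; simp
  · refine Relation.EqvGen.trans _ (jEnd w (arcAt w (edge a)) _ hj false) _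
      (Relation.EqvGen.rel _ _ ⟨⟨hx, hj, hm⟩, pres_jEnd D w hx _ _, Or.inr ?_⟩)
      (Relation.EqvGen.symm _ _ (link_arc D w hx h0 hj false))
    simp only [jEnd, edge_en, arcAt, inv_mul_cancel_right]
    exact Prod.ext rfl (Prod.ext hm rfl)

/-- Two cosets are the same or carry linked marked ends. -/
def Joined (Γ : Gph (G p) (Fin p × (ι × ℕ))) (n n' : N p) : Prop :=
  n = n' ∨ ∃ a b, Γ.Pres a ∧ Γ.Pres b ∧ Γ.Mk a ∧ Γ.Mk b ∧ pos a = n ∧ pos b = n' ∧ Γ.Link a b

omit [Fintype ι] in
lemma joined_symm {Γ : Gph (G p) (Fin p × (ι × ℕ))} {n n' : N p} (h : Joined Γ n n') :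
    Joined Γ n' n := by
  rcases h with h | ⟨a, b, ha, hb, hma, hmb, hpa, hpb, hl⟩
  · exact Or.inl h.symm
  · exact Or.inr ⟨b, a, hb, ha, hmb, hma, hpb, hpa, Relation.EqvGen.symm _ _ hl⟩

omit [Fintype ι] in
lemma link_of_mk {x : Lab (G p)} {a b : End (G p) (Fin p × (ι × ℕ))}
    (ha : (arcs D w x).Pres a) (hb : (arcs D w x).Pres b) (hma : (arcs D w x).Mk a)
    (hmb : (arcs D w x).Mk b) (h : pos a = pos b) : (arcs D w x).Link a b :=
  Relation.EqvGen.rel _ _ ⟨ha, hb, Or.inl (by
    show key w a = key w b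
    rw [key_eq_inl w hma, key_eq_inl w hmb, h])⟩

omit [Fintype ι] in
lemma joined_trans {x : Lab (G p)} {n n' n'' : N p} (h : Joined (arcs D w x) n n')
    (h' : Joined (arcs D w x) n' n'') : Joined (arcs D w x) n n'' := by
  rcases h with rfl | ⟨a, b, ha, hb, hma, hmb, hpa, hpb, hl⟩
  · exact h'
  rcases h' with rfl | ⟨c, d, hc, hd, hmc, hmd, hpc, hpd, hl'⟩
  · exact Or.inr ⟨a, b, ha, hb, hma, hmb, hpa, hpb, hl⟩
  exact Or.inr ⟨a, d, ha, hd, hma, hmd, hpa, hpd, Relation.EqvGen.trans _ _ _ hl
    (Relation.EqvGen.trans _ _ _ (link_of_mk D w hb hc hmb hmc (hpb.trans hpc.symm)) hl')⟩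

omit [Fintype ι] in
/-- An arc joins the cosets of its endpoints. -/
lemma joined_arc {k : ι → G p} (hw : ∀ i, wval (w i) = ((k i)⁻¹).left) {x : Lab (G p)} {g : G p}
    {i : ι} (hx : sh g⁻¹ x ∈ D i) :
    Joined (arcs D w x) g.left (g * (k i)⁻¹).left := by
  rcases Nat.eq_zero_or_pos (w i).length with h0 | h0
  · left
    have := hw i
    rw [List.length_eq_zero_iff.1 h0] at this
    rw [← posMove_left g (k i)⁻¹, ← this]
    simp [posMove, wval]
  · have hl : (w i).length - 1 < (w i).length := by omega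
    refine Or.inr ⟨jEnd w g i h0 false, jEnd w g i hl true, pres_jEnd D w hx _ _,
      pres_jEnd D w hx _ _, ?_, ?_, ?_, ?_, link_arc D w hx h0 hl true⟩
    · show ¬Inner w _
      rw [inner_jEnd]; simp
    · show ¬Inner w _
      rw [inner_jEnd]; simp; omega
    · rw [pos_eq_pre D w (pres_jEnd D w hx _ _), arcAt_jEnd]
      rw [jct_jEnd]
      simp [wpre, wval, posMove]
    · rw [pos_eq_pre D w (pres_jEnd D w hx _ _), arcAt_jEnd]
      rw [jct_jEnd, ← posMove_left, ← hw i]
      show posMove g (wpre w i _) = _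
      simp [wpre, Nat.sub_add_cancel h0]

omit [Fintype ι] in
/-- For distinct labels, orbit connectedness joins all cosets. -/
lemma joined_all {k : ι → G p} (hw : ∀ i, wval (w i) = ((k i)⁻¹).left) {x : Lab (G p)}
    (hinj : Injective x)
    (hgen : ∀ g, Relation.EqvGen (fun y z => ∃ i, y ∈ D i ∧ sh (k i) y = z) x (sh g x))
    (n n' : N p) : Joined (arcs D w x) n n' := by
  have hsh : ∀ {g g' : G p}, sh g x = sh g' x → g = g' := fun {g g'} h => by
    have := hinj (congrFun h g)
    rw [inv_mul_cancel] at this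
    exact (inv_mul_eq_one.1 this.symm).symm
  suffices key : ∀ y z, Relation.EqvGen (fun y z => ∃ i, y ∈ D i ∧ sh (k i) y = z) y z →
      (∀ g, y = sh g x → ∃ g', z = sh g' x ∧ Joined (arcs D w x) g⁻¹.left g'⁻¹.left) ∧
      (∀ g, z = sh g x → ∃ g', y = sh g' x ∧ Joined (arcs D w x) g⁻¹.left g'⁻¹.left) by
    have h1 : ∀ n, Joined (arcs D w x) 1 n := by
      intro n
      obtain ⟨g', hg', hj⟩ := (key _ _ (hgen (SemidirectProduct.inl n)⁻¹)).1 1 (sh_one x).symm
      rw [← hsh hg', inv_inv] at hj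
      simpa using hj
    exact joined_trans D w (joined_symm (h1 n)) (h1 n')
  intro y z h
  induction h with
  | rel y z h =>
    obtain ⟨i, hy, rfl⟩ := h
    constructor
    · intro g hg
      refine ⟨k i * g, by rw [hg, ← sh_mul], ?_⟩
      rw [mul_inv_rev]
      exact joined_arc D w hw (by rwa [inv_inv, ← hg])
    · intro g hg
      have hy' : y = sh ((k i)⁻¹ * g) x := by
        rw [sh_mul, ← hg, ← sh_mul, inv_mul_cancel, sh_one]
      refine ⟨(k i)⁻¹ * g, hy', joined_symm ?_⟩
      have := joined_arc D w hw (g := ((k i)⁻¹ * g)⁻¹) (i := i) (x := x) (by rwa [inv_inv, ← hy'])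
      simpa [mul_assoc] using this
  | refl y => exact ⟨fun g hg => ⟨g, hg, Or.inl rfl⟩, fun g hg => ⟨g, hg, Or.inl rfl⟩⟩
  | symm y z _ ih => exact ⟨ih.2, ih.1⟩
  | trans y z u _ _ ih ih' =>
    constructor
    · intro g hg
      obtain ⟨g1, h1, j1⟩ := ih.1 g hg
      obtain ⟨g2, h2, j2⟩ := ih'.1 g1 h1
      exact ⟨g2, h2, joined_trans D w j1 j2⟩
    · intro g hg
      obtain ⟨g1, h1, j1⟩ := ih'.2 g hg
      obtain ⟨g2, h2, j2⟩ := ih.2 g1 h1
      exact ⟨g2, h2, joined_trans D w j1 j2⟩

omit [Fintype ι] in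
lemma isState_arcs (hp : 3 ≤ p) (hD : ∀ i, MeasurableSet (D i)) {k : ι → G p}
    (hw : ∀ i, wval (w i) = ((k i)⁻¹).left)
    (hgen : ∀ᵐ x ∂law (G p), ∀ g,
      Relation.EqvGen (fun y z => ∃ i, y ∈ D i ∧ sh (k i) y = z) x (sh g x)) :
    IsState (arcs D w) where
  rg := isRG_arcs D w hD
  pos_eq := ae_of_all _ fun _ _ _ ha hb h => pos_eq_of_key D w ha hb h
  mark_eq := ae_of_all _ fun _ a b _ _ hma hmb h => by
    show key w a = key w b
    rw [key_eq_inl w hma, key_eq_inl w hmb, h]
  conn := by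
    filter_upwards [hgen, ae_injective] with x hx hinj a b ha hb
    obtain ⟨a', ha', hma', hla⟩ := link_start D w ha
    obtain ⟨b', hb', hmb', hlb⟩ := link_start D w hb
    refine Relation.EqvGen.trans _ _ _ hla
      (Relation.EqvGen.trans _ _ _ ?_ (Relation.EqvGen.symm _ _ hlb))
    rcases joined_all D w hw hinj hx (pos a') (pos b') with h | ⟨c, d, hc, hd, hmc, hmd, hpc, hpd, hl⟩
    · exact link_of_mk D w ha' hb' hma' hmb' h
    · exact Relation.EqvGen.trans _ _ _ (link_of_mk D w ha' hc hma' hmc hpc.symm)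
        (Relation.EqvGen.trans _ _ _ hl (link_of_mk D w hd hb' hmd hmb' hpd))
  marked := by
    filter_upwards [hgen, ae_injective] with x hx hinj n
    have hne : n ≠ n * lamp (⟨0, by omega⟩, 1) := fun h =>
      lamp_ne_one hp _ (left_eq_mul.1 h)
    rcases joined_all D w hw hinj hx n (n * lamp (⟨0, by omega⟩, 1)) with
      h | ⟨c, d, hc, hd, hmc, hmd, hpc, hpd, hl⟩
    · exact absurd h hne
    · exact ⟨c, hc, hmc, hpc⟩

/-- Letters below given bounds have density at most the measures of the arcs so counted. -/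
lemma dens_letters_le (hD : ∀ i, MeasurableSet (D i)) (J : ι → ℕ) :
    dens (fun x (e : EdgeId p (ι × ℕ)) => ind (present D w x e ∧ e.2.2.2 < J e.2.2.1)) ≤
      ∑ i, (J i : ℝ≥0∞) * law (G p) (D i) := by
  have hm : ∀ (h : G p) (i : ι), Measurable fun x : Lab (G p) => sh h x ∈ D i := fun h i =>
    measurableSet_setOfPred.1 (measurable_sh h (hD i))
  calc _ ≤ ∫⁻ x, ∑ i, ∑ j ∈ Finset.range (J i), ind (sh (base w i j) x ∈ D i) ∂law (G p) := by
        refine lintegral_mono fun x => ?_
        rw [ENNReal.tsum_prod', ENNReal.tsum_comm, ENNReal.tsum_prod', tsum_fintype]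
        refine Finset.sum_le_sum fun i _ => ?_
        rw [tsum_eq_sum (s := Finset.range (J i)) fun j hj => by
          simp only [Finset.mem_range] at hj
          rw [ENNReal.tsum_eq_zero]
          exact fun m => ind_neg fun h => hj h.2]
        refine Finset.sum_le_sum fun j _ => ?_
        by_cases hx : sh (base w i j) x ∈ D i
        · rw [ind_pos hx]
          refine tsum_ind_le_one fun m m' hm hm' => ?_
          obtain ⟨⟨-, _, h1⟩, -⟩ := hm
          obtain ⟨⟨-, _, h2⟩, -⟩ := hm'
          exact h1.trans h2.symm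
        · rw [ind_neg hx, nonpos_iff_eq_zero, ENNReal.tsum_eq_zero]
          refine fun m => ind_neg fun h => hx ?_
          have := h.1.1
          simpa [arcAt] using this
    _ = ∑ i, (J i : ℝ≥0∞) * law (G p) (D i) := by
        rw [lintegral_finsetSum _ fun i _ =>
          Finset.measurable_sum _ fun j _ => Measurable.ind (hm _ _)]
        refine Finset.sum_congr rfl fun i _ => ?_
        rw [lintegral_finsetSum _ fun j _ => Measurable.ind (hm _ _)]
        have : ∀ j ∈ Finset.range (J i),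
            ∫⁻ x, ind (sh (base w i j) x ∈ D i) ∂law (G p) = law (G p) (D i) := by
          intro j _
          rw [lintegral_sh (base w i j) (f := fun y => ind (y ∈ D i))
            (Measurable.ind (measurableSet_setOfPred.1 (hD i)))]
          have : (fun y => ind (y ∈ D i)) = (D i).indicator fun _ => (1 : ℝ≥0∞) := by
            funext y
            by_cases hy : y ∈ D i <;> simp [ind_pos, ind_neg, hy]
          rw [this, lintegral_indicator_const (hD i), one_mul]
        rw [Finset.sum_congr rfl this, Finset.sum_const, Finset.card_range, nsmul_eq_mul]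

omit [Fintype ι] in
/-- A present end with a given node is one of four. -/
lemma mem_four {x : Lab (G p)} {b : End (G p) (Fin p × (ι × ℕ))} (hb : (arcs D w x).Pres b)
    {g : G p} {i : ι} {v : ℕ} (hkey : key w b = Sum.inr (g, i, v)) :
    ∃ j : ℕ, ∃ hj : j < (w i).length, ∃ t : Bool, b = jEnd w g i hj t ∧ (j = v ∨ j + 1 = v) := by
  obtain ⟨g', ⟨m, i', j⟩, s⟩ := b
  obtain ⟨-, (hj : j < (w i').length), hm⟩ := hb
  obtain rfl : m = ((w i')[j]'hj).1.1 := hm
  unfold key at hkey
  split at hkey
  · simp only [Sum.inr.injEq, Prod.mk.injEq] at hkey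
    obtain ⟨rfl, h2, rfl⟩ := hkey
    simp only [edge] at h2
    subst h2
    refine ⟨j, hj, decide (s = (w i')[j].2), ?_, ?_⟩
    · simp only [jEnd, en, edge, arcAt, inv_mul_cancel_right]
      cases s <;> cases (w i')[j].2 <;> simp
    · simp only [edge, side, jct, List.getElem?_eq_getElem hj]
      by_cases hs : s = (w i')[j].2 <;> simp [hs]
  · simp at hkey

omit [Fintype ι] in
lemma cnt_inner_ne_top {x : Lab (G p)} {a : End (G p) (Fin p × (ι × ℕ))} (ha : Inner w a) :
    (arcs D w x).cnt a ≠ ∞ := by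
  set g := arcAt w (edge a)
  set i := (edge a).2.2.1
  set v := jct w (edge a).2.2.1 (edge a).2.2.2 (side a)
  have hk : key w a = Sum.inr (g, i, v) := if_pos ha
  have hfin : {b | (arcs D w x).Pres b ∧ (arcs D w x).R a b}.Finite := by
    let f : Fin (w i).length × Bool → End (G p) (Fin p × (ι × ℕ)) := fun z =>
      jEnd w g i z.1.2 z.2
    refine (Set.finite_range f).subset fun b hb => ?_
    obtain ⟨j, hj, t, rfl, -⟩ := mem_four D w hb.1 (hb.2.symm.trans hk)
    exact ⟨(⟨j, hj⟩, t), rfl⟩
  rw [Gph.cnt, tsum_eq_sum (s := hfin.toFinset)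
    (f := fun b => ind ((arcs D w x).Pres b ∧ (arcs D w x).R a b))
    fun b hb => ind_neg fun h => hb (hfin.mem_toFinset.2 h)]
  exact ENNReal.sum_ne_top.2 fun b _ => ((ind_le_one _).trans_lt ENNReal.one_lt_top).ne

/-- A family of total measure six gives a state of finite length and cost six. -/
theorem mlen_six_ne_top {p : ℕ} (hp : 3 ≤ p) {ι : Type} [Fintype ι] (D : ι → Set (Lab (G p)))
    (hD : ∀ i, MeasurableSet (D i)) (k : ι → G p) (hc : ∑ i, law (G p) (D i) ≤ 6)
    (hgen : ∀ᵐ x ∂law (G p), ∀ g,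
      Relation.EqvGen (fun y z => ∃ i, y ∈ D i ∧ sh (k i) y = z) x (sh g x)) :
    mlen p 6 ≠ ∞ := by
  choose w hw using fun i => exists_wval ((k i)⁻¹).left
  have hs := isState_arcs D w hp hD hw hgen
  have hrg := hs.rg
  have hfin : edens (arcs D w) ≠ ∞ := by
    have hle : edens (arcs D w) ≤ ∑ i, ((w i).length : ℝ≥0∞) * law (G p) (D i) :=
      (dens_mono fun x e => ind_mono fun h => ⟨h, h.2.1⟩).trans
        (dens_letters_le D w hD fun i => (w i).length)
    exact ne_top_of_le_ne_top (ENNReal.sum_ne_top.2 fun i _ =>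
      ENNReal.mul_ne_top (ENNReal.natCast_ne_top _) (measure_ne_top _ _)) hle
  refine ne_top_of_le_ne_top hfin (mlen_le hs ?_)
  let first : Lab (G p) → EdgeId p (ι × ℕ) → ℝ≥0∞ := fun x e =>
    ind (present D w x e ∧ e.2.2.2 < 1)
  let later : Lab (G p) → EdgeId p (ι × ℕ) → ℝ≥0∞ := fun x e =>
    ind (present D w x e ∧ 1 ≤ e.2.2.2)
  have hsplit : edens (arcs D w) ≤ dens first + dens later := by
    rw [← dens_add (f := first) (f' := later)
      fun e => Measurable.ind ((hrg.measE e).and measurable_const)]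
    refine dens_mono fun x e => ?_
    rcases Nat.eq_zero_or_pos e.2.2.2 with h | h
    · exact (ind_mono fun h' => ⟨h', by omega⟩).trans le_self_add
    · exact (ind_mono fun h' => ⟨h', h⟩).trans le_add_self
  refine hsplit.trans (add_le_add ?_ ?_)
  · refine (dens_letters_le D w hD fun _ => 1).trans ?_
    simpa using hc
  · refine dens_le_vdens ⟨fun e => Measurable.ind ((hrg.measE e).and measurable_const),
        fun h x e => ind_congr (and_congr (hrg.equivE h x e) Iff.rfl)⟩ hrg
      (fun _ e b => key w b = Sum.inr (arcAt w e, e.2.2.1, e.2.2.2))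
      (fun _ _ => measurable_const) ?_ (ae_of_all _ fun x e b b' h h' => h'.symm.trans h)
      (ae_of_all _ fun x b => ?_) (ae_of_all _ fun x e he => ?_)
    · intro h x e b
      rw [key_tr, arcAt_tr]
      rcases key w b with n | z <;> simp [tr, Prod.ext_iff]
    · simp only [later, ← ind_and]
      refine tsum_ind_le_one fun e e' h h' => ?_
      have := h.1.symm.trans h'.1
      simp only [Sum.inr.injEq, Prod.mk.injEq] at this
      obtain ⟨h1, h2, h3⟩ := this
      have hp2 : e.2.2 = e'.2.2 := Prod.ext h2 h3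
      obtain ⟨-, _, hm⟩ := h.2.1
      obtain ⟨-, _, hm'⟩ := h'.2.1
      refine Prod.ext ?_ (Prod.ext ?_ hp2)
      · have h4 := h1
        simp only [arcAt, h2, h3] at h4
        exact mul_right_cancel h4
      · rw [hm, hm']
        simp only [h2, h3]
    · obtain ⟨he1, he2⟩ := ind_ne_zero.1 he
      obtain ⟨hx, hj, hm⟩ := he1
      have hk : Inner w (jEnd w (arcAt w e) _ hj false) := (inner_jEnd w _ _ hj false).2 (by
        simp only [Bool.false_eq_true, if_false]; omega)
      refine ⟨jEnd w (arcAt w e) _ hj false, ?_, Gph.vW_ne_zero.2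
        ⟨pres_jEnd D w hx _ _, fun h => h hk, cnt_inner_ne_top D w hk⟩⟩
      rw [key, if_pos hk, arcAt_jEnd]
      rw [jct_jEnd]
      rfl

end

end Vale.Agent.P189
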