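import Vale.Agent.P189.Bernoulli

/-!
The cheap action: Bernoulli times translation of the level modulo `L` through the exponent of `b`.
Both free generators everywhere and the `p` lamps on one level generate, so its cost is at most
`2 + p / L`.
-/

namespace Vale.Agent.P189

open MeasureTheory
open scoped unitInterval ENNReal

section family

variable {H : Type*} [Group H] {Z : Type*} [MeasurableSpace Z] [MulAction H Z] {μ : Measure Z}
variable {ι : Type*} [Fintype ι] (k : ι → H) (D : ι → Set Z)

/-- The element carried by the `n`-th map of a finite family. -/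
noncomputable def famEl (n : ℕ) : H :=
  if h : n < Fintype.card ι then k ((Fintype.equivFin ι).symm ⟨n, h⟩) else 1

/-- The domain of the `n`-th map of a finite family. -/
noncomputable def famSet (n : ℕ) : Set Z :=
  if h : n < Fintype.card ι then D ((Fintype.equivFin ι).symm ⟨n, h⟩) else ∅

variable {k D}

/-- The graphing moving the points of `D i` by `k i`. -/
noncomputable def Graphing.ofFamily (hμ : IsPMP H μ) (hD : ∀ i, MeasurableSet (D i))
    (hgen : ∀ᵐ x ∂μ, ∀ g : H,
      Relation.EqvGen (fun y z => ∃ i, y ∈ D i ∧ k i • y = z) x (g • x)) :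
    Graphing H μ where
  dom := famSet D
  toFun n x := famEl k n • x
  measurableSet_dom n := by
    unfold famSet; split_ifs with h
    · exact hD _
    · exact MeasurableSet.empty
  measurable_toFun n := (hμ _).measurable
  injOn n := Set.injOn_of_injective (MulAction.injective _)
  preserves n A _ hA := by
    show μ ((famEl k n • ·) '' A) = μ A
    rw [Set.image_smul, ← Set.preimage_smul_inv]
    exact (hμ _).measure_preimage hA.nullMeasurableSet
  mem_orbit n x _ := ⟨_, rfl⟩
  generates := hgen.mono fun x hx g => (hx g).mono fun y z hyz => by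
    obtain ⟨i, hi, rfl⟩ := hyz
    exact ⟨(Fintype.equivFin ι i : ℕ), by simp [famSet, hi], by simp [famEl]⟩

/-- A finite generating family bounds the cost. -/
lemma cost_le_sum (hμ : IsPMP H μ) (hD : ∀ i, MeasurableSet (D i))
    (hgen : ∀ᵐ x ∂μ, ∀ g : H,
      Relation.EqvGen (fun y z => ∃ i, y ∈ D i ∧ k i • y = z) x (g • x)) :
    cost H μ ≤ ∑ i, μ (D i) := by
  refine (iInf_le _ (Graphing.ofFamily hμ hD hgen)).trans (le_of_eq ?_)
  rw [tsum_eq_sum (s := Finset.range (Fintype.card ι)) fun n hn => by
    simp only [Finset.mem_range] at hn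
    simp [Graphing.ofFamily, famSet, hn]]
  rw [← Fin.sum_univ_eq_sum_range (fun n => μ ((Graphing.ofFamily hμ hD hgen).dom n))]
  refine Fintype.sum_equiv (Fintype.equivFin ι).symm _ _ fun n => ?_
  simp [Graphing.ofFamily, famSet, n.isLt]

end family

/-- The exponent of `b`. -/
def hgt : F2 →* Multiplicative ℤ :=
  FreeGroup.lift fun c => Multiplicative.ofAdd (if c then 1 else 0)

lemma hgt_u {p : ℕ} (m j : Fin p) : hgt (u m j) = Multiplicative.ofAdd 1 := by
  simp [u, hgt]

/-- The exponent of `b` modulo `L`, on the big group. -/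
def level (p L : ℕ) : G p →* Multiplicative (ZMod L) :=
  ((Int.castAddHom (ZMod L)).toMultiplicative.comp hgt).comp SemidirectProduct.rightHom

lemma level_inl {p L : ℕ} (n : N p) : (level p L (SemidirectProduct.inl n)).toAdd = 0 := by
  simp [level]

lemma level_inr {p L : ℕ} (g : F2) :
    (level p L (SemidirectProduct.inr g)).toAdd = ((hgt g).toAdd : ZMod L) := by
  simp [level]

/-- Bernoulli times the levels. -/
def Y (p L : ℕ) : Type := X p × ZMod L

instance instMeasurableSpaceY (p L : ℕ) : MeasurableSpace (Y p L) :=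
  inferInstanceAs (MeasurableSpace (X p × ZMod L))

instance instStandardBorelY (p L : ℕ) [NeZero L] : StandardBorelSpace (Y p L) :=
  inferInstanceAs (StandardBorelSpace (X p × ZMod L))

/-- The product of the shift and the translation of levels. -/
instance instMulActionY (p L : ℕ) : MulAction (G p) (Y p L) where
  smul g y := (g • y.1, (level p L g).toAdd + y.2)
  one_smul y := by
    show ((1 : G p) • y.1, (level p L 1).toAdd + y.2) = y
    rw [one_smul, map_one, toAdd_one, zero_add]
    rfl
  mul_smul g k y := by
    show ((g * k) • y.1, (level p L (g * k)).toAdd + y.2) =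
      (g • k • y.1, (level p L g).toAdd + ((level p L k).toAdd + y.2))
    rw [mul_smul, map_mul, toAdd_mul, add_assoc]

lemma smul_Y_snd {p L : ℕ} (g : G p) (y : Y p L) :
    (g • y).2 = (level p L g).toAdd + y.2 := rfl

variable (p L : ℕ) [NeZero L]

/-- The uniform measure on the levels. -/
noncomputable def levelMeasure : Measure (ZMod L) := (L : ℝ≥0∞)⁻¹ • Measure.count

instance instIsProbabilityMeasureLevel : IsProbabilityMeasure (levelMeasure L) := by
  refine ⟨?_⟩
  rw [levelMeasure, Measure.smul_apply, Measure.count_univ, ENat.card_eq_coe_fintype_card,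
    ZMod.card, smul_eq_mul]
  simpa using ENNReal.inv_mul_cancel (Nat.cast_ne_zero.2 (NeZero.ne L)) (ENNReal.natCast_ne_top L)

lemma measurePreserving_level (c : ZMod L) :
    MeasurePreserving (fun s => c + s) (levelMeasure L) (levelMeasure L) := by
  refine ⟨measurable_of_countable _, ?_⟩
  ext s hs
  rw [Measure.map_apply (measurable_of_countable _) hs, levelMeasure, Measure.smul_apply,
    Measure.smul_apply, Measure.count_apply (Set.to_countable _).measurableSet,
    Measure.count_apply hs]
  congr 2
  exact Set.encard_preimage_of_bijective (Equiv.addLeft c).bijective s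

/-- The measure of the cheap action. -/
noncomputable def μY : Measure (Y p L) := (μX p).prod (levelMeasure L)

instance instIsProbabilityMeasureμY : IsProbabilityMeasure (μY p L) :=
  inferInstanceAs (IsProbabilityMeasure ((μX p).prod (levelMeasure L)))

lemma isPMP_Y : IsPMP (G p) (μY p L) := fun g =>
  (isPMP_X p g).prod (measurePreserving_level L _)

lemma isEssFree_Y : IsEssFree (G p) (μY p L) := fun g hg => by
  refine measure_mono_null (t := {x : X p | g • x = x} ×ˢ (Set.univ : Set (ZMod L)))
    (fun y hy => ⟨congrArg Prod.fst hy, trivial⟩) ?_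
  show ((μX p).prod (levelMeasure L)) _ = 0
  rw [Measure.prod_prod, measure_fixed hg, zero_mul]

/-- The moving elements: `a`, `b` and the lamps at the origin. -/
def cheapEl : Bool ⊕ Fin p → G p :=
  Sum.elim (fun c => SemidirectProduct.inr (FreeGroup.of c)) T

/-- Their domains: everything, and one level. -/
def cheapSet : Bool ⊕ Fin p → Set (Y p L) :=
  Sum.elim (fun _ => Set.univ) fun _ => {y | y.2 = 0}

lemma measurableSet_cheapSet : ∀ i, MeasurableSet (cheapSet p L i)
  | Sum.inl _ => MeasurableSet.univ
  | Sum.inr _ => (measurable_snd : Measurable (Prod.snd : X p × ZMod L → ZMod L))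
      (measurableSet_singleton 0)

variable {p L}

/-- Being joined by a chain of the cheap maps. -/
def Linked (y z : Y p L) : Prop :=
  Relation.EqvGen (fun y z => ∃ i, y ∈ cheapSet p L i ∧ cheapEl p i • y = z) y z

lemma linked_inr (g : F2) : ∀ y : Y p L, Linked y ((SemidirectProduct.inr g : G p) • y) := by
  induction g using FreeGroup.induction_on with
  | C1 => intro y; rw [map_one, one_smul]; exact Relation.EqvGen.refl _
  | of c => intro y; exact Relation.EqvGen.rel _ _ ⟨Sum.inl c, trivial, rfl⟩
  | inv_of c ih =>
    intro y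
    refine Relation.EqvGen.symm _ _ ?_
    have := ih ((SemidirectProduct.inr (FreeGroup.of c)⁻¹ : G p) • y)
    rwa [← mul_smul, ← map_mul, mul_inv_cancel, map_one, one_smul] at this
  | mul g h ihg ihh =>
    intro y
    rw [map_mul, mul_smul]
    exact Relation.EqvGen.trans _ _ _ (ihh y) (ihg _)

/-- The lamps that link every point of the level `s` to its image. -/
def worksAt (s : ZMod L) : Subgroup (N p) where
  carrier := {n | ∀ y : Y p L, y.2 = s → Linked y ((SemidirectProduct.inl n : G p) • y)}
  one_mem' y _ := by rw [map_one, one_smul]; exact Relation.EqvGen.refl _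
  mul_mem' {n m} hn hm y hy := by
    rw [map_mul, mul_smul]
    exact Relation.EqvGen.trans _ _ _ (hm y hy)
      (hn _ (by rw [smul_Y_snd, level_inl, zero_add, hy]))
  inv_mem' {n} hn y hy := by
    refine Relation.EqvGen.symm _ _ ?_
    have := hn ((SemidirectProduct.inl n⁻¹ : G p) • y)
      (by rw [smul_Y_snd, level_inl, zero_add, hy])
    rwa [← mul_smul, ← map_mul, mul_inv_cancel, map_one, one_smul] at this

lemma inl_lamp_eq_conj (m : Fin p) (g : F2) :
    (SemidirectProduct.inl (lamp (m, g)) : G p) =
      SemidirectProduct.inr g * T m * SemidirectProduct.inr g⁻¹ := by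
  rw [T, ← SemidirectProduct.inl_aut]
  congr 1
  show lamp (m, g) = translateHom p g (lamp (m, 1))
  rw [translateHom_lamp, mul_one]

lemma lamp_eq_rhs (l : Lamp p) : lamp l = ((rhs l).map lamp).prod := by
  have h : PresentedGroup.mk (Set.range (relator (p := p))) (relator l) = 1 :=
    PresentedGroup.one_of_mem ⟨l, rfl⟩
  rw [relator, map_mul, map_inv, map_list_prod, List.map_map, inv_mul_eq_one] at h
  exact h

lemma lamp_worksAt_base (m : Fin p) (g : F2) :
    lamp (m, g) ∈ worksAt (p := p) (L := L) ((hgt g).toAdd : ZMod L) := by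
  intro y hy
  rw [inl_lamp_eq_conj, mul_smul, mul_smul]
  refine Relation.EqvGen.trans _ _ _ (linked_inr g⁻¹ y)
    (Relation.EqvGen.trans _ _ _ ?_ (linked_inr g _))
  refine Relation.EqvGen.rel _ _ ⟨Sum.inr m, ?_, rfl⟩
  show ((SemidirectProduct.inr g⁻¹ : G p) • y).2 = 0
  rw [smul_Y_snd, level_inr, hy, map_inv, toAdd_inv, Int.cast_neg, neg_add_cancel]

lemma lamp_worksAt (k : ℕ) : ∀ l : Lamp p,
    lamp l ∈ worksAt (p := p) (L := L) (((hgt l.2).toAdd : ZMod L) + (k : ZMod L)) := by
  induction k with
  | zero => intro l; simpa using lamp_worksAt_base l.1 l.2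
  | succ k ih =>
    intro l
    rw [lamp_eq_rhs]
    refine Subgroup.list_prod_mem _ fun n hn => ?_
    obtain ⟨z, hz, rfl⟩ := List.mem_map.1 hn
    obtain ⟨i, -, rfl⟩ := List.mem_map.1 hz
    convert! ih _ using 2
    simp only [map_mul, hgt_u, toAdd_mul, toAdd_ofAdd]
    push_cast
    ring

lemma linked_all (g : G p) (y : Y p L) : Linked y (g • y) := by
  rw [← SemidirectProduct.inl_left_mul_inr_right g, mul_smul]
  refine Relation.EqvGen.trans _ _ _ (linked_inr g.right y) ?_
  generalize (SemidirectProduct.inr g.right : G p) • y = z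
  have h : g.left ∈ worksAt (p := p) (L := L) z.2 := by
    refine PresentedGroup.generated_by _ _ (fun l => ?_) g.left
    have := lamp_worksAt (L := L) (z.2 - ((hgt l.2).toAdd : ZMod L)).val l
    rwa [ZMod.natCast_zmod_val, add_sub_cancel] at this
  exact h z rfl

variable (p L)

lemma μY_level_zero : μY p L {y | y.2 = 0} = (L : ℝ≥0∞)⁻¹ := by
  show ((μX p).prod (levelMeasure L)) {y : X p × ZMod L | y.2 = 0} = _
  rw [show {y : X p × ZMod L | y.2 = 0} = Set.univ ×ˢ {0} from Set.ext fun y => by simp,
    Measure.prod_prod, measure_univ, one_mul, levelMeasure, Measure.smul_apply,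
    Measure.count_singleton, smul_eq_mul, mul_one]

/-- The cheap action costs at most `2 + p / L`. -/
theorem cost_Y_le : cost (G p) (μY p L) ≤ 2 + (p : ℝ≥0∞) / L := by
  refine (cost_le_sum (k := cheapEl p) (D := cheapSet p L) (isPMP_Y p L)
    (measurableSet_cheapSet p L)
    (Filter.Eventually.of_forall fun y g => linked_all g y)).trans (le_of_eq ?_)
  rw [Fintype.sum_sum_type]
  simp [cheapSet, μY_level_zero, div_eq_mul_inv]

end Vale.Agent.P189
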