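import Vale.Agent.P189.Collapse

/-!
When to stop the closure: densities of the stages, and a threshold at which the cells have a
density in a prescribed window.
-/

namespace Vale.Agent.P189

open MeasureTheory Function
open scoped ENNReal unitInterval

section

variable {H S T : Type} [Group H] [Countable H] [Countable S] [Countable T]

/-- A relation sending the indices in `P` injectively to those in `Q` compares their densities. -/
lemma dens_le_of_rel {P : Lab H → H × S → Prop} {Q : Lab H → H × T → Prop}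
    (M : Lab H → H × S → H × T → Prop) (hm : ∀ a b, Measurable fun x => M x a b)
    (he : ∀ h x a b, M (sh h x) (tr h a) (tr h b) ↔ M x a b)
    (hout : ∀ x a, P x a → ∃ b, M x a b) (hin : ∀ x a b, M x a b → Q x b)
    (huniq : ∀ x a a' b, M x a b → M x a' b → a = a') :
    dens (fun x a => ind (P x a)) ≤ dens (fun x b => ind (Q x b)) := by
  refine dens_le_of_kernel (k := fun x a b => ind (M x a b))
    ⟨fun a b => Measurable.ind (hm a b), fun h x a b => ind_congr (he h x a b)⟩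
    (fun x a => ?_) (fun x b => ?_)
  · by_cases h : P x a
    · obtain ⟨b, hb⟩ := hout x a h
      rw [ind_pos h]
      exact one_le_tsum_ind hb
    · simp [ind_neg h]
  · by_cases h : Q x b
    · rw [ind_pos h]
      exact tsum_ind_le_one fun a a' ha ha' => huniq x a a' b ha ha'
    · rw [ind_neg h, nonpos_iff_eq_zero, ENNReal.tsum_eq_zero]
      exact fun a => ind_neg fun ha => h (hin x a b ha)

omit [Countable H] [Countable T] in
/-- Splitting a density. -/
lemma dens_le_add {P P₁ P₂ : Lab H → H × S → Prop} (hm : ∀ a, Measurable fun x => P₁ x a)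
    (h : ∀ x a, P x a → P₁ x a ∨ P₂ x a) :
    dens (fun x a => ind (P x a)) ≤
      dens (fun x a => ind (P₁ x a)) + dens (fun x a => ind (P₂ x a)) := by
  rw [← dens_add fun a => Measurable.ind (hm a)]
  refine dens_mono fun x a => ?_
  by_cases hP : P x a
  · rcases h x a hP with h | h <;> simp [ind_pos hP, ind_pos h]
  · simp [ind_neg hP]

omit [Countable H] [Countable T] in
/-- Splitting a density into finitely many. -/
lemma dens_le_sum {α : Type} [Fintype α] {P : Lab H → H × S → Prop}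
    {Q : α → Lab H → H × S → Prop} (hm : ∀ i a, Measurable fun x => Q i x a)
    (h : ∀ x a, P x a → ∃ i, Q i x a) :
    dens (fun x a => ind (P x a)) ≤ ∑ i, dens (fun x a => ind (Q i x a)) := by
  simp only [dens]
  rw [← lintegral_finsetSum _ fun i _ => Measurable.tsum fun s => Measurable.ind (hm i _)]
  refine lintegral_mono fun x => ?_
  rw [← Summable.tsum_finsetSum fun i _ => ENNReal.summable]
  refine ENNReal.tsum_le_tsum fun s => ?_
  by_cases hP : P x (1, s)
  · obtain ⟨i, hi⟩ := h x (1, s) hP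
    rw [ind_pos hP, ← ind_pos hi]
    exact Finset.single_le_sum (f := fun i => ind (Q i x (1, s))) (fun i _ => zero_le)
      (Finset.mem_univ i)
  · simp [ind_neg hP]

end

variable {p : ℕ} {S0 : Type}

/-- The edge in the slot after the one of a fresh edge. -/
def IsChild (hd : Fin p × Fin (p + 1)) (e c : CEdge p S0) : Prop :=
  img e = slotImg (opCell e hd) hd.2 ∧ img c = slotImg (opCell e hd) (hd.2 + 1) ∧
    e.2.2.1 = hd :: c.2.2.1 ∧ c.2.2.2 = e.2.2.2

lemma isChild_tr (h : G p) (hd : Fin p × Fin (p + 1)) (e c : CEdge p S0) :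
    IsChild hd (tr h e) (tr h c) ↔ IsChild hd e c := by
  have hC : opCell (tr h e) hd = tr h (opCell e hd) := cellBase_tr h e.1 hd
  simp only [IsChild, img_tr, hC, slotImg_tr, (tr_injective h).eq_iff]
  rfl

lemma isChild_unique {hd : Fin p × Fin (p + 1)} {e e' c : CEdge p S0} (h : IsChild hd e c)
    (h' : IsChild hd e' c) : e = e' := by
  obtain ⟨h1, h2, h3, h4⟩ := h
  obtain ⟨h1', h2', h3', h4'⟩ := h'
  have hbase : ∀ e : CEdge p S0, img c = slotImg (opCell e hd) (hd.2 + 1) →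
      opCell e hd = cellBase c.1 (hd.1, hd.2 + 1) := by
    intro e he
    have hty : (opCell e hd).2 = hd.1 := by
      unfold opCell cellBase; split <;> rfl
    have := cellBase_slotImg (opCell e hd) (hd.2 + 1)
    rw [← he, hty] at this
    exact this.symm
  have hi : img e = img e' := by rw [h1, h1', hbase e h2, hbase e' h2']
  simp only [img, Prod.mk.injEq] at hi
  exact Prod.ext hi.1 (Prod.ext hi.2 (Prod.ext (h3.trans h3'.symm) (h4.symm.trans h4')))

lemma exists_child {Z : Gph (G p) (Fin p × Lbl p S0)} {e : CEdge p S0} (h : ∃ lab, Cand Z e lab) :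
    ∃ hd c, IsChild hd e c ∧ c ∈ Z.E := by
  obtain ⟨lab, m, k₀, l, hl, hle, hp, hlab⟩ := h
  refine ⟨(m, k₀), liftE (cellBase e.1 (m, k₀)) lab (k₀ + 1), ⟨?_, rfl, ?_, ?_⟩,
    (hp _ (fin_add_one_ne (cellBase e.1 (m, k₀)) k₀)).1⟩
  · have := congrArg img hle
    rw [img_liftE] at this
    exact this.symm
  · simp [liftE, hlab, hl]
  · simp [liftE, hlab]

variable [Countable S0] {Ψ : Lab (G p) → Gph (G p) (Fin p × S0)} {t : ℕ → ℝ} {n : ℕ}

/-- The fresh edges of a stage. -/
lemma measurable_fresh_clo (hΨ : IsRG Ψ) (t : ℕ → ℝ) (n : ℕ) (s : ℝ) (e : CEdge p S0) :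
    Measurable fun x => e ∈ fresh (clo Ψ t n x) x s :=
  measurable_fresh (clo_rg hΨ t n).measE (clo_rg hΨ t n).measR s e

lemma fresh_clo_tr (hΨ : IsRG Ψ) (t : ℕ → ℝ) (n : ℕ) (s : ℝ) (h : G p) (x : Lab (G p))
    (e : CEdge p S0) :
    tr h e ∈ fresh (clo Ψ t n (sh h x)) (sh h x) s ↔ e ∈ fresh (clo Ψ t n x) x s :=
  fresh_tr h ((clo_rg hΨ t n).equivE h x) ((clo_rg hΨ t n).equivR h x) s e

lemma dens_fresh_le (hΨ : IsRG Ψ) (t : ℕ → ℝ) (n : ℕ) (s : ℝ) :
    dens (fun x e => ind (e ∈ fresh (clo Ψ t n x) x s)) ≤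
      ∑ _hd : Fin p × Fin (p + 1), edens (clo Ψ t n) := by
  have hZ := clo_rg hΨ t n
  have hm : ∀ (hd : Fin p × Fin (p + 1)) e,
      Measurable fun x => e ∈ fresh (clo Ψ t n x) x s ∧ ∃ c, IsChild hd e c ∧ c ∈ (clo Ψ t n x).E :=
    fun hd e => (measurable_fresh_clo hΨ t n s e).and <|
      Measurable.exists fun c => measurable_const.and (hZ.measE c)
  refine (dens_le_sum hm fun x e he => ?_).trans (Finset.sum_le_sum fun hd _ => ?_)
  · obtain ⟨hd, c, hc⟩ := exists_child he.2.1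
    exact ⟨hd, he, c, hc⟩
  · exact dens_le_of_rel (fun x e c => IsChild hd e c ∧ c ∈ (clo Ψ t n x).E)
      (fun e c => measurable_const.and (hZ.measE c))
      (fun h x e c => and_congr (isChild_tr h hd e c) (hZ.equivE h x c)) (fun x e he => he.2)
      (fun x e c h => h.2) (fun x e e' c h h' => isChild_unique h.1 h'.1)

/-- Every stage has finite length. -/
theorem edens_clo_ne_top (hΨ : IsState Ψ) (hfin : edens Ψ ≠ ∞) (t : ℕ → ℝ) :
    ∀ n, edens (clo Ψ t n) ≠ ∞
  | 0 => by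
    refine ne_top_of_le_ne_top hfin ?_
    exact dens_le_of_rel (fun x e e' => e' ∈ (Ψ x).E ∧ emb e' = e)
      (fun e e' => (hΨ.rg.measE e').and measurable_const)
      (fun h x e e' => and_congr (hΨ.rg.equivE h x e')
        (by rw [emb_tr]; exact (tr_injective h).eq_iff))
      (fun x e he => he) (fun x e e' h => h.1) (fun x e e₁ e' h h' => h.2.symm.trans h'.2)
  | n + 1 => by
    have ih := edens_clo_ne_top hΨ hfin t n
    refine ne_top_of_le_ne_top (ENNReal.add_ne_top.2 ⟨ih, ne_top_of_le_ne_top ?_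
      (dens_fresh_le hΨ.rg t n (t n))⟩) (dens_le_add (clo_rg hΨ.rg t n).measE fun x e he => he)
    exact ENNReal.sum_ne_top.2 fun _ _ => ih

/-- Each cell takes an edge. -/
theorem cellDens_le_edens (hΨ : IsState Ψ) :
    cellDens (clo Ψ t n) ≤ edens (clo Ψ t n) :=
  dens_le_of_rel (fun x a e => OpOf (clo Ψ t n x) a e)
    (fun a e => measurable_opOf (clo_rg hΨ.rg t n) a e)
    (fun h x a e => opOf_tr (clo_rg hΨ.rg t n) h x a e) (fun _ _ h => h)
    (fun _ _ _ h => h.choose_spec.choose_spec.choose_spec.1) fun _ _ _ _ h h' => h.unique h'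

/-- The class of `r` first appears with the fresh edge `e` of stage `j`. -/
def FirstAt (Ψ : Gph (G p) (Fin p × S0)) (x : Lab (G p)) (t : ℕ → ℝ) (n j : ℕ)
    (r e : CEdge p S0) : Prop :=
  e ∈ fresh (stage Ψ x t j).Z x (t j) ∧ Same (stage Ψ x t n).Z e r ∧
    ∀ e' ∈ (stage Ψ x t j).Z.E, ¬Same (stage Ψ x t n).Z e' r

section

variable {Φ : Gph (G p) (Fin p × S0)} {x : Lab (G p)}

lemma exists_first {r : CEdge p S0} (hr : r ∈ (stage Φ x t n).Z.E)
    (hno : ∀ e' ∈ Φ.E, ¬Same (stage Φ x t n).Z (emb e') r) :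
    ∃ j < n, ∃ e, FirstAt Φ x t n j r e := by
  classical
  have hex : ∃ i, ∃ e ∈ (stage Φ x t i).Z.E, Same (stage Φ x t n).Z e r :=
    ⟨n, r, hr, same_refl n r⟩
  obtain ⟨e, he, hs⟩ := Nat.find_spec hex
  have hle : Nat.find hex ≤ n := Nat.find_min' hex ⟨r, hr, same_refl n r⟩
  rcases h : Nat.find hex with _ | j
  · rw [h] at he
    obtain ⟨e', he', rfl⟩ := stage_zero_E.1 he
    exact absurd hs (hno e' he')
  · rw [h] at he
    have hmin : ∀ e' ∈ (stage Φ x t j).Z.E, ¬Same (stage Φ x t n).Z e' r := fun e' he' hs' =>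
      Nat.find_min hex (by omega : j < Nat.find hex) ⟨e', he', hs'⟩
    rcases stage_E_succ.1 he with he | he
    · exact absurd hs (hmin e he)
    · exact ⟨j, by omega, e, he, hs, hmin⟩

/-- If two classes share their cell, one appears strictly before the other, unless they agree. -/
lemma first_lt {j j' : ℕ} (hj : j' < n) {r r' e e' a : CEdge p S0}
    (hr : IsRep (stage Φ x t n).Z r) (hr' : IsRep (stage Φ x t n).Z r')
    (h : FirstAt Φ x t n j r e) (h' : FirstAt Φ x t n j' r' e')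
    (ha : OpOf (stage Φ x t n).Z a e) (ha' : OpOf (stage Φ x t n).Z a e') :
    r = r' ∨ j < j' := by
  obtain ⟨-, hs, hmin⟩ := h
  obtain ⟨hf', hs', -⟩ := h'
  obtain ⟨hd, l, lab, -, hl, hC, hc, hse⟩ := ha
  obtain ⟨⟨m, k'⟩, l', lab', -, hl', hC', hc', hse'⟩ := ha'
  by_cases hk : hd.2 = k'
  · left
    have h1 := cellLift_unique hc hc' hd.2
    refine rep_unique hr hr' (same_trans (same_symm hs) (same_trans (same_symm hse)
      (same_trans h1 ?_)))
    rw [hk]
    exact same_trans hse' hs'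
  right
  by_contra hlt
  push Not at hlt
  obtain ⟨lab₀, hch⟩ := exists_chosen hf'.2.1
  obtain ⟨hcl, hle⟩ := fresh_closed hf' hch hl'
  obtain ⟨⟨m₀, k₀, l₀, hl₀, -, hpath, -⟩, -⟩ := id hch
  rw [hl'] at hl₀
  simp only [List.cons.injEq, Prod.mk.injEq] at hl₀
  obtain ⟨⟨rfl, rfl⟩, rfl⟩ := hl₀
  have hC'' : cellBase e'.1 (m, k') = img a := hC'
  rw [hC''] at hcl hle hpath
  have hcl' : IsClosed (stage Φ x t n).Z (img a) lab₀ := hcl.mono (by omega)
  have hall := closed_unique hcl' hc'.1 (k := k') (by rw [hle]; exact same_symm hse') hd.2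
  refine hmin _ (stage_E_mono hlt (hpath hd.2 hk).1) ?_
  exact same_trans hall (same_trans (cellLift_unique hc' hc hd.2) (same_trans hse hs))

lemma first_unique {j j' : ℕ} (hj : j < n) (hj' : j' < n) {r r' e e' a : CEdge p S0}
    (hr : IsRep (stage Φ x t n).Z r) (hr' : IsRep (stage Φ x t n).Z r')
    (h : FirstAt Φ x t n j r e) (h' : FirstAt Φ x t n j' r' e')
    (ha : OpOf (stage Φ x t n).Z a e) (ha' : OpOf (stage Φ x t n).Z a e') : r = r' := by
  rcases first_lt hj' hr hr' h h' ha ha' with h1 | h1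
  · exact h1
  rcases first_lt hj hr' hr h' h ha' ha with h2 | h2
  · exact h2.symm
  · omega

end

lemma measurable_first (hΨ : IsRG Ψ) (j : ℕ) (r e : CEdge p S0) :
    Measurable fun x => FirstAt (Ψ x) x t n j r e :=
  (measurable_fresh_clo hΨ t j (t j) e).and <| (measurable_same (clo_rg hΨ t n) e r).and <|
    Measurable.forall fun e' => ((clo_rg hΨ t j).measE e').imp
      (measurable_same (clo_rg hΨ t n) e' r).not

lemma first_tr (hΨ : IsRG Ψ) (h : G p) (x : Lab (G p)) (j : ℕ) (r e : CEdge p S0) :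
    FirstAt (Ψ (sh h x)) (sh h x) t n j (tr h r) (tr h e) ↔ FirstAt (Ψ x) x t n j r e :=
  and_congr (fresh_clo_tr hΨ t j (t j) h x e) <| and_congr (same_tr (clo_rg hΨ t n) h x e r) <|
    (trEquiv h).surjective.forall.trans <| forall_congr' fun e' =>
      imp_congr ((clo_rg hΨ t j).equivE h x e') (not_congr (same_tr (clo_rg hΨ t n) h x e' r))

/-- The edge classes number at most the old edges and the cells. -/
theorem edens_quot_clo_le (hΨ : IsState Ψ) :
    edens (fun x => quot (clo Ψ t n x)) ≤ edens Ψ + cellDens (clo Ψ t n) := by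
  have hZ := clo_rg hΨ.rg t n
  have hm : ∀ r, Measurable fun x => IsRep (clo Ψ t n x) r ∧
      ∃ e' ∈ (Ψ x).E, Same (clo Ψ t n x) (emb e') r := fun r =>
    (measurable_isRep hZ r).and <| Measurable.exists fun e' =>
      (hΨ.rg.measE e').and (measurable_same hZ _ r)
  refine (dens_le_add (P₂ := fun x r => IsRep (clo Ψ t n x) r ∧
      ∀ e' ∈ (Ψ x).E, ¬Same (clo Ψ t n x) (emb e') r) hm fun x r hr => ?_).trans
    (add_le_add ?_ ?_)
  · by_cases h : ∃ e' ∈ (Ψ x).E, Same (clo Ψ t n x) (emb e') r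
    · exact Or.inl ⟨hr, h⟩
    · exact Or.inr ⟨hr, fun e' he' hs => h ⟨e', he', hs⟩⟩
  · exact dens_le_of_rel
      (fun x r e' => IsRep (clo Ψ t n x) r ∧ e' ∈ (Ψ x).E ∧ Same (clo Ψ t n x) (emb e') r)
      (fun r e' => (measurable_isRep hZ r).and <| (hΨ.rg.measE e').and (measurable_same hZ _ r))
      (fun h x r e' => and_congr (isRep_tr hZ h x r) <| and_congr (hΨ.rg.equivE h x e') <| by
        rw [emb_tr]; exact same_tr hZ h x _ r)
      (fun x r h => ⟨h.2.choose, h.1, h.2.choose_spec⟩) (fun x r e' h => h.2.1)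
      (fun x r r' e' h h' => rep_unique h.1 h'.1 (same_trans (same_symm h.2.2) h'.2.2))
  · refine dens_le_of_rel (fun x r a => IsRep (clo Ψ t n x) r ∧ ∃ j, j < n ∧ ∃ e,
        FirstAt (Ψ x) x t n j r e ∧ OpOf (clo Ψ t n x) a e)
      (fun r a => (measurable_isRep hZ r).and <| Measurable.exists fun j => measurable_const.and <|
        Measurable.exists fun e => (measurable_first hΨ.rg j r e).and (measurable_opOf hZ a e))
      (fun h x r a => and_congr (isRep_tr hZ h x r) <| exists_congr fun j => and_congr Iff.rfl <|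
        (exists_tr h _).symm.trans <| exists_congr fun e =>
          and_congr (first_tr hΨ.rg h x j r e) (opOf_tr hZ h x a e))
      (fun x r h => ?_) (fun x r a h => ?_) (fun x r r' a h h' => ?_)
    · obtain ⟨j, hj, e, he⟩ := exists_first h.1.1 h.2
      obtain ⟨-, m, k₀, l, hl, -⟩ := he.1.2.1
      obtain ⟨a, ha⟩ := exists_opOf (n := n) (stage_E_mono hj (Or.inr he.1)) hl
      exact ⟨a, h.1, j, hj, e, he, ha⟩
    · obtain ⟨-, j, -, e, -, he⟩ := h
      exact ⟨e, he⟩
    · obtain ⟨hr, j, hj, e, hf, ha⟩ := h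
      obtain ⟨hr', j', hj', e', hf', ha'⟩ := h'
      exact first_unique hj hj' hr hr' hf hf' ha ha'

section

variable {Z Z' : Gph (G p) (Fin p × Lbl p S0)}

omit [Countable S0] in
lemma foldRel_le {H S S' : Type} {Γ Γ' : Gph H S'} {φ : H × S' → H × S} (hE : Γ.E ⊆ Γ'.E)
    (hR : ∀ a b, Γ.R a b → Γ'.R a b) {a b : End H S'} (h : FoldRel Γ φ a b) :
    FoldRel Γ' φ a b := by
  induction h with
  | base h => exact FoldRel.base (hR _ _ h)
  | symm _ ih => exact FoldRel.symm ih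
  | trans _ _ ih₁ ih₂ => exact FoldRel.trans ih₁ ih₂
  | fold he he' hφ _ ih => exact FoldRel.fold (hE he) (hE he') hφ ih

lemma stage_congr {Φ : Gph (G p) (Fin p × S0)} {x : Lab (G p)} {t' : ℕ → ℝ} :
    ∀ {n : ℕ}, (∀ i < n, t i = t' i) → stage Φ x t n = stage Φ x t' n
  | 0, _ => rfl
  | n + 1, h => by
    simp only [stage, stage_congr (n := n) fun i hi => h i (hi.trans n.lt_succ_self),
      h n n.lt_succ_self]

lemma clo_congr {t' : ℕ → ℝ} (h : ∀ i < n, t i = t' i) : clo Ψ t n = clo Ψ t' n :=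
  funext fun x => congrArg Stg.Z (stage_congr h)

/-- Extending a stage adds no more cells than edges. -/
lemma cellDens_le_of_ext (hΨ : IsRG Ψ) {t' : ℕ → ℝ} {n' : ℕ}
    (hE : ∀ x, (clo Ψ t n x).E ⊆ (clo Ψ t' n' x).E)
    (hR : ∀ x a b, (clo Ψ t n x).R a b → (clo Ψ t' n' x).R a b) :
    cellDens (clo Ψ t' n') ≤ cellDens (clo Ψ t n) +
      dens (fun x e => ind (e ∈ (clo Ψ t' n' x).E ∧ e ∉ (clo Ψ t n x).E)) := by
  have hZ := clo_rg hΨ t n
  have hZ' := clo_rg hΨ t' n'
  refine (dens_le_add (P₂ := fun x a => ∃ e, OpOf (clo Ψ t' n' x) a e ∧ e ∉ (clo Ψ t n x).E)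
    (P₁ := fun x a => ∃ e, OpOf (clo Ψ t' n' x) a e ∧ e ∈ (clo Ψ t n x).E)
    (fun a => Measurable.exists fun e => (measurable_opOf hZ' a e).and (hZ.measE e))
    fun x a ha => ?_).trans (add_le_add ?_ ?_)
  · obtain ⟨e, he⟩ := ha
    exact (em (e ∈ (clo Ψ t n x).E)).imp (fun h => ⟨e, he, h⟩) (fun h => ⟨e, he, h⟩)
  · refine dens_le_of_rel (fun x a' a => ∃ e, OpOf (clo Ψ t' n' x) a' e ∧ OpOf (clo Ψ t n x) a e)
      (fun a' a => Measurable.exists fun e =>
        (measurable_opOf hZ' a' e).and (measurable_opOf hZ a e))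
      (fun h x a' a => (exists_tr h _).symm.trans <| exists_congr fun e =>
        and_congr (opOf_tr hZ' h x a' e) (opOf_tr hZ h x a e))
      (fun x a' h => ?_) (fun x a' a h => ?_) (fun x a₁ a₂ a h₁ h₂ => ?_)
    · obtain ⟨e, he, hmem⟩ := h
      obtain ⟨hd, l, lab, -, hl, -⟩ := id he
      obtain ⟨a, ha⟩ := exists_opOf hmem hl
      exact ⟨a, e, he, ha⟩
    · obtain ⟨e, -, he⟩ := h
      exact ⟨e, he⟩
    · obtain ⟨e₁, ⟨hd₁, l₁, lab₁, -, hl₁, hC₁, hc₁, hs₁⟩,
        ⟨hd₁', l₁', lab, -, hl₁', hC₁', hc, hs⟩⟩ := h₁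
      obtain ⟨e₂, ⟨hd₂, l₂, lab₂, -, hl₂, hC₂, hc₂, hs₂⟩,
        ⟨hd₂', l₂', lab', -, hl₂', hC₂', hc', hs'⟩⟩ := h₂
      rw [hl₁] at hl₁'
      rw [hl₂] at hl₂'
      simp only [List.cons.injEq] at hl₁' hl₂'
      obtain ⟨rfl, rfl⟩ := hl₁'
      obtain ⟨rfl, rfl⟩ := hl₂'
      have e1 : img a₁ = img a := hC₁.symm.trans hC₁'
      have e2 : img a₂ = img a := hC₂.symm.trans hC₂'
      have push : ∀ {u v : CEdge p S0}, Same (clo Ψ t n x) u v → Same (clo Ψ t' n' x) u v :=
        fun h => ⟨h.1, hR x _ _ h.2⟩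
      have hcl : IsClosed (clo Ψ t' n' x) (img a) lab :=
        fun k => ⟨hE x (hc.1 k).1, hR x _ _ (hc.1 k).2⟩
      have hcl₁ : IsClosed (clo Ψ t' n' x) (img a) lab₁ := e1 ▸ hc₁.1
      have hcl₂ : IsClosed (clo Ψ t' n' x) (img a) lab₂ := e2 ▸ hc₂.1
      rw [e1] at hs₁
      rw [e2] at hs₂
      have k1 := closed_unique hcl₁ hcl (k := hd₁.2)
        (same_trans hs₁ (push (same_symm hs))) hd₂.2
      obtain ⟨r, hr⟩ := exists_rep (hcl₁ hd₂.2).1
      refine cell_unique (e1.trans e2.symm) (k := hd₂.2) (r := r)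
        ⟨lab₁, hc₁, hr.1, e1 ▸ hr.2⟩ ⟨lab₂, hc₂, hr.1, e2 ▸ ?_⟩
      exact same_trans hs₂ (same_trans (push (same_symm (same_trans (cellLift_unique hc hc' hd₂.2) hs')))
        (same_trans (same_symm k1) hr.2))
  · exact dens_le_of_rel
      (fun x a e => OpOf (clo Ψ t' n' x) a e ∧ e ∉ (clo Ψ t n x).E)
      (fun a e => (measurable_opOf hZ' a e).and (hZ.measE e).not)
      (fun h x a e => and_congr (opOf_tr hZ' h x a e) (not_congr (hZ.equivE h x e)))
      (fun x a h => h) (fun x a e h => ⟨h.1.choose_spec.choose_spec.choose_spec.1, h.2⟩)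
      (fun x a a' e h h' => h.1.unique h'.1)

end

lemma cellDens_zero (t : ℕ → ℝ) : cellDens (clo Ψ t 0) = 0 := by
  have h : ∀ x (a : CEdge p S0), ind (CellAt (clo Ψ t 0 x) a) = 0 := by
    intro x a
    refine ind_neg ?_
    rintro ⟨e, hd, l, lab, he, hl, -⟩
    obtain ⟨e', -, rfl⟩ := stage_zero_E.1 he
    simp [emb] at hl
  simp [cellDens, dens, h]

/-- A small window of labels carries few fresh edges. -/
lemma exists_window (hΨ : IsState Ψ) (hfin : edens Ψ ≠ ∞) (t : ℕ → ℝ) (n : ℕ) (s : ℝ)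
    {δ : ℝ≥0∞} (hδ : 0 < δ) :
    ∃ η : ℝ, 0 < η ∧ dens (fun x e => ind (e ∈ fresh (clo Ψ t n x) x 2 ∧
      s - η ≤ (x e.1 : ℝ) ∧ (x e.1 : ℝ) < s + η)) ≤ δ := by
  have hf := measurable_fresh_clo hΨ.rg t n 2
  have hlab : ∀ g : G p, Measurable fun x : Lab (G p) => (x g : ℝ) := fun g =>
    (measurable_pi_apply g).subtype_coe
  let W : ℕ → Lab (G p) → ℝ≥0∞ := fun k x => ∑' z : Fin p × Lbl p S0,
    ind (((1 : G p), z) ∈ fresh (clo Ψ t n x) x 2 ∧
      s - 1 / ((k : ℝ) + 1) ≤ (x 1 : ℝ) ∧ (x 1 : ℝ) < s + 1 / ((k : ℝ) + 1))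
  have hbound : ∫⁻ x, ∑' z : Fin p × Lbl p S0,
      ind (((1 : G p), z) ∈ fresh (clo Ψ t n x) x 2) ∂law (G p) ≠ ∞ :=
    ne_top_of_le_ne_top
      (ENNReal.sum_ne_top.2 fun _ _ => edens_clo_ne_top hΨ hfin t n) (dens_fresh_le hΨ.rg t n 2)
  have hne : ∀ᵐ x ∂law (G p), (x 1 : ℝ) ≠ s := by
    rw [ae_iff]
    simp only [not_not]
    by_cases hs : s ∈ Set.Icc (0 : ℝ) 1
    · have e : {x : Lab (G p) | (x 1 : ℝ) = s} = (fun x => x 1) ⁻¹' {(⟨s, hs⟩ : I)} := by
        ext x; simp [Subtype.ext_iff]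
      rw [e, ← Measure.map_apply (measurable_pi_apply 1) (measurableSet_singleton _),
        Measure.infinitePi_map_eval]
      exact measure_singleton _
    · have e : {x : Lab (G p) | (x 1 : ℝ) = s} = ∅ := by
        ext x
        simp only [Set.mem_ofPred_eq, Set.mem_empty_iff_false, iff_false]
        exact fun h => hs (h ▸ (x 1).2)
      simp [e]
  have hlim : Filter.Tendsto (fun k => ∫⁻ x, W k x ∂law (G p)) Filter.atTop
      (nhds (∫⁻ _x, 0 ∂law (G p))) := by
    refine tendsto_lintegral_of_dominated_convergence _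
      (fun k => Measurable.tsum fun z => Measurable.ind ((hf _).and
        ((measurableSet_setOfPred.1 (measurableSet_le measurable_const (hlab 1))).and
          (measurableSet_setOfPred.1 (measurableSet_lt (hlab 1) measurable_const)))))
      (fun k => ae_of_all _ fun x => ENNReal.tsum_le_tsum fun z => ind_mono And.left) hbound ?_
    filter_upwards [hne] with x hx
    obtain ⟨N, hN⟩ := exists_nat_one_div_lt (abs_pos.2 (sub_ne_zero.2 hx))
    refine tendsto_const_nhds.congr' (Filter.eventually_atTop.2 ⟨N, fun k hk => ?_⟩)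
    refine (ENNReal.tsum_eq_zero.2 fun z => ind_neg ?_).symm
    rintro ⟨-, h1, h2⟩
    have : 1 / ((k : ℝ) + 1) ≤ 1 / ((N : ℝ) + 1) :=
      one_div_le_one_div_of_le (by positivity) (by gcongr)
    rcases abs_cases ((x 1 : ℝ) - s) with h | h <;> linarith
  rw [lintegral_zero] at hlim
  obtain ⟨k, hk⟩ := (hlim.eventually_lt_const hδ).exists
  exact ⟨1 / ((k : ℝ) + 1), by positivity, hk.le⟩

/-- The closure can be stopped with the cells in a window, or it runs up to a given stage. -/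
theorem exists_stop_or (hΨ : IsState Ψ) (hfin : edens Ψ ≠ ∞) {δ : ℝ≥0∞} (hδ : 0 < δ) (N : ℕ) :
    (∃ t n, δ < cellDens (clo Ψ t n) ∧ cellDens (clo Ψ t n) ≤ 2 * δ) ∨
      cellDens (clo Ψ (fun _ => 2) N) ≤ δ := by
  classical
  by_cases hN : cellDens (clo Ψ (fun _ => 2) N) ≤ δ
  · exact Or.inr hN
  left
  have hex : ∃ i, δ < cellDens (clo Ψ (fun _ => 2) i) := ⟨N, not_le.1 hN⟩
  have hbig := Nat.find_spec hex
  obtain ⟨n, hn⟩ : ∃ n, Nat.find hex = n + 1 := by
    rcases h : Nat.find hex with _ | n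
    · rw [h, cellDens_zero] at hbig
      exact absurd hbig (by simp)
    · exact ⟨n, rfl⟩
  rw [hn] at hbig
  have hsmall : cellDens (clo Ψ (fun _ => 2) n) ≤ δ :=
    not_lt.1 (Nat.find_min hex (by omega))
  let T : ℝ → ℕ → ℝ := fun s i => if i = n then s else 2
  have hTn : ∀ s, clo Ψ (T s) n = clo Ψ (fun _ => 2) n := fun s =>
    clo_congr fun i hi => by simp [T, hi.ne]
  have hT2 : T 2 = fun _ => 2 := funext fun i => by simp [T]
  let F : ℝ → ℝ≥0∞ := fun s => cellDens (clo Ψ (T s) (n + 1))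
  have hstage : ∀ s x, stage (Ψ x) x (T s) n = stage (Ψ x) x (fun _ => 2) n := fun s x =>
    stage_congr fun i hi => by simp [T, hi.ne]
  have hTs : ∀ s, T s n = s := fun s => by simp [T]
  have hEs : ∀ s x e, e ∈ (clo Ψ (T s) (n + 1) x).E ↔ e ∈ (clo Ψ (fun _ => 2) n x).E ∨
      e ∈ fresh (clo Ψ (fun _ => 2) n x) x s := by
    intro s x e
    show e ∈ (stage (Ψ x) x (T s) (n + 1)).Z.E ↔ _
    rw [stage_E_succ, hTs, hstage]
    rfl
  -- thresholds below all labels add no cells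
  have hlow : ∀ s ≤ 0, F s ≤ δ := by
    intro s hs
    have h := cellDens_le_of_ext (t := T s) (n := n) (t' := T s) (n' := n + 1) hΨ.rg
      (fun x e he => Or.inl he) (fun x a b h => stage_R_succ h)
    refine h.trans ?_
    rw [hTn]
    refine le_of_le_of_eq (add_le_add hsmall (le_of_eq ?_)) (add_zero δ)
    have : ∀ x (e : CEdge p S0), ind (e ∈ (clo Ψ (T s) (n + 1) x).E ∧
        e ∉ (clo Ψ (fun _ => 2) n x).E) = 0 := by
      intro x e
      refine ind_neg ?_
      rintro ⟨he, hne⟩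
      rcases (hEs s x e).1 he with he | he
      · exact hne he
      · exact absurd he.2.2 (not_lt.2 (hs.trans (x e.1).2.1))
    simp [dens, this]
  -- raising the threshold adds at most the fresh edges in between
  have hstep : ∀ s s', s ≤ s' → s' ≤ 2 → F s' ≤ F s + dens (fun x e =>
      ind (e ∈ fresh (clo Ψ (fun _ => 2) n x) x 2 ∧ s ≤ (x e.1 : ℝ) ∧ (x e.1 : ℝ) < s')) := by
    intro s s' hss h2
    have hfr : ∀ (Z : Gph (G p) (Fin p × Lbl p S0)) x, fresh Z x s ⊆ fresh Z x s' :=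
      fun Z x e he => ⟨he.1, he.2.1, he.2.2.trans_le hss⟩
    refine (cellDens_le_of_ext (t := T s) (n := n + 1) (t' := T s') (n' := n + 1) hΨ.rg
      (fun x e he => ?_) (fun x a b h => ?_)).trans ?_
    · exact (hEs s' x e).2 (((hEs s x e).1 he).imp id fun h => hfr _ x h)
    · show (stage (Ψ x) x (T s') (n + 1)).Z.R a b
      change (stage (Ψ x) x (T s) (n + 1)).Z.R a b at h
      rw [stage_succ, hTs, hstage] at h ⊢
      refine foldRel_le (Set.union_subset_union_right _ (hfr _ x)) (fun c d hcd => ?_) h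
      exact Relation.EqvGen.mono (fun u v huv => huv.imp id fun w => ⟨hfr _ x w.1, w.2⟩) _ _ hcd
    · refine add_le_add le_rfl (dens_mono fun x e => ind_mono fun h => ?_)
      rw [hEs, hEs] at h
      rcases h.1 with he | he
      · exact absurd (Or.inl he) h.2
      · exact ⟨⟨he.1, he.2.1, he.2.2.trans_le h2⟩,
          not_lt.1 fun hlt => h.2 (Or.inr ⟨he.1, he.2.1, hlt⟩), he.2.2⟩
  let A : Set ℝ := {s | s ≤ 2 ∧ δ < F s}
  have hA2 : (2 : ℝ) ∈ A := ⟨le_rfl, by show δ < cellDens _; rwa [hT2]⟩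
  have hbdd : BddBelow A := ⟨0, fun s hs => le_of_not_gt fun h => not_le.2 hs.2 (hlow s h.le)⟩
  obtain ⟨η, hη, hW⟩ := exists_window hΨ hfin (fun _ => 2) n (sInf A) hδ
  obtain ⟨s', hs', hlt⟩ := exists_lt_of_csInf_lt ⟨2, hA2⟩ (show sInf A < sInf A + η by linarith)
  have hge : sInf A ≤ s' := csInf_le hbdd hs'
  have hbelow : F (sInf A - η) ≤ δ := not_lt.1 fun h => by
    have := csInf_le hbdd (show sInf A - η ∈ A from ⟨by linarith [hs'.1], h⟩)
    linarith
  refine ⟨T s', n + 1, hs'.2, ?_⟩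
  refine (hstep (sInf A - η) s' (by linarith) hs'.1).trans ?_
  rw [two_mul]
  refine add_le_add hbelow (le_trans (dens_mono fun x e => ind_mono fun h => ?_) hW)
  exact ⟨h.1, h.2.1, h.2.2.trans hlt⟩

/-- The stop rule: the cells reach a window, or they stay few while the marked edges fill up;
`hN` is the conclusion of the completion argument. -/
theorem exists_stop (hΨ : IsState Ψ) (hfin : edens Ψ ≠ ∞) {δ : ℝ} (hδ : 0 < δ)
    (hN : ∃ N, ENNReal.ofReal ((p : ℝ) - 1) ≤
      dens (fun x y => ind (MarkedEdge (clo Ψ (fun _ => 2) N x) y))) :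
    ∃ t n, (ENNReal.ofReal δ < cellDens (clo Ψ t n) ∧
        cellDens (clo Ψ t n) ≤ 2 * ENNReal.ofReal δ) ∨
      (cellDens (clo Ψ t n) ≤ ENNReal.ofReal δ ∧ ENNReal.ofReal ((p : ℝ) - 1) ≤
        dens (fun x y => ind (MarkedEdge (clo Ψ t n x) y))) := by
  obtain ⟨N, hN⟩ := hN
  rcases exists_stop_or hΨ hfin (ENNReal.ofReal_pos.2 hδ) N with ⟨t, n, h⟩ | h
  · exact ⟨t, n, Or.inl h⟩
  · exact ⟨_, N, Or.inr ⟨h, hN⟩⟩

end Vale.Agent.P189
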