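import Vale.Agent.P189.Subdivide
import Vale.Agent.P189.Stop

/-!
The densities of the subdivided graph: every piece after the first of its edge adds one edge and
one unmarked node.
-/

namespace Vale.Agent.P189

open MeasureTheory Function
open scoped ENNReal

variable {p : ℕ} {S0 : Type} [Countable S0] {Ψ : Lab (G p) → Gph (G p) (Fin p × S0)}
  {t : ℕ → ℝ} {n K : ℕ}

section

variable {Φ : Gph (G p) (Fin p × S0)} {x : Lab (G p)}

/-- A piece is determined by its edge and its position. -/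
lemma pieceAt_unique {u u' : Piece p S0} (h : PieceAt (stage Φ x t n).Z K u)
    (h' : PieceAt (stage Φ x t n).Z K u') (he : srcE u = srcE u') (hi : idx u = idx u') :
    u = u' := by
  obtain ⟨w, hw, hz⟩ := h.2
  have hz' := (h'.length (w := w) (he ▸ hw)).1
  rw [← hi, hz, Option.some_inj] at hz'
  rw [← piece_eta u, ← piece_eta u', he, hi, hz']

lemma pieceAt_piece {e : CEdge p S0} (he : Kept (stage Φ x t n).Z K e)
    {w : List (CEdge p S0 × Bool)} (hw : ExpTop (stage Φ x t n).Z K e w) {i : ℕ}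
    (hi : i < w.length) : PieceAt (stage Φ x t n).Z K (piece e i w[i]) :=
  ⟨by simpa using he, w, by simpa using hw, by simp [List.getElem?_eq_getElem hi]⟩

omit [Countable S0] in
lemma jIdx_before (u : Piece p S0) : jIdx (en u (!pieceDir u)) = idx u := by
  simp [jIdx]

omit [Countable S0] in
lemma jIdx_after (u : Piece p S0) : jIdx (en u (pieceDir u)) = idx u + 1 := by
  simp [jIdx]

/-- Every old end has an end of a piece at it. -/
lemma exists_atEnd {o : End (G p) (Fin p × S0)} (ho : Φ.Pres o) :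
    ∃ b, AtEnd (stage Φ x t n) K b o := by
  have hE : emb (edge o) ∈ (stage Φ x t n).Z.E := mem_of_emb ho
  obtain ⟨w, hw⟩ := exists_expTop (K := K) hE
  have hlen : 0 < w.length := List.length_pos_of_ne_nil (expTop_ne_nil hw)
  have hk : Kept (stage Φ x t n).Z K (emb (edge o)) := ⟨hE, Or.inl rfl⟩
  have hrt : (stage Φ x t n).rt (embEnd o) o := stage_rt_mono (Nat.zero_le n) ⟨ho, rfl⟩
  rcases hs : side o with _ | _
  · set u := piece (emb (edge o)) 0 w[0]
    refine ⟨en u (!pieceDir u), pieceAt_piece hk hw hlen, w, by simpa [u] using hw, Or.inl ⟨?_, ?_⟩⟩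
    · rw [jIdx_before]; simp [u]
    · simp only [u, edge_en, srcE_piece]
      rw [embEnd, hs] at hrt
      exact hrt
  · set u := piece (emb (edge o)) (w.length - 1) (w[w.length - 1]'(by omega))
    refine ⟨en u (pieceDir u), pieceAt_piece hk hw (by omega), w, by simpa [u] using hw,
      Or.inr ⟨?_, ?_⟩⟩
    · rw [jIdx_after]; simp [u]; omega
    · simp only [u, edge_en, srcE_piece]
      rw [embEnd, hs] at hrt
      exact hrt

/-- The ends of the pieces of one edge form a finite set. -/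
lemma finite_ends_src (e : CEdge p S0) :
    {c : End (G p) (PLbl p S0) | PieceAt (stage Φ x t n).Z K (edge c) ∧
      srcE (edge c) = e}.Finite := by
  by_cases he : ∃ w, ExpTop (stage Φ x t n).Z K e w
  · obtain ⟨w, hw⟩ := he
    refine (Set.finite_range fun z : Fin w.length × Bool =>
      en (piece e z.1 w[z.1]) z.2).subset fun c hc => ?_
    obtain ⟨hp, rfl⟩ := hc
    obtain ⟨hz, hlt⟩ := hp.length hw
    refine ⟨(⟨idx (edge c), hlt⟩, side c), ?_⟩
    rw [List.getElem?_eq_getElem hlt, Option.some_inj] at hz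
    simp only [Fin.getElem_fin, hz, piece_eta, en_edge_side]
  · refine Set.finite_empty.subset fun c hc => ?_
    obtain ⟨⟨-, w, hw, -⟩, rfl⟩ := hc
    exact he ⟨w, hw⟩

end

omit [Countable S0] in
/-- An indicator sum that is finite has finite support. -/
lemma finite_of_tsum_ind {α : Type*} {P : α → Prop} (h : ∑' a, ind (P a) ≠ ∞) :
    {a | P a}.Finite :=
  (ENNReal.finite_const_le_of_tsum_ne_top h one_ne_zero).subset fun _ ha => (ind_pos ha).ge

omit [Countable S0] in
lemma tsum_ind_ne_top {α : Type*} {P : α → Prop} (h : {a | P a}.Finite) : ∑' a, ind (P a) ≠ ∞ := by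
  rw [tsum_eq_sum (s := h.toFinset) (f := fun a => ind (P a))
    fun b hb => ind_neg fun hP => hb (h.mem_toFinset.2 hP)]
  exact ENNReal.sum_ne_top.2 fun b _ => ((ind_le_one _).trans_lt ENNReal.one_lt_top).ne

omit [Countable S0] in
lemma tsum_prod_sum {H A B : Type} (F : H × (A ⊕ B) → ℝ≥0∞) :
    ∑' a, F a = (∑' a : H × A, F (a.1, Sum.inl a.2)) + ∑' b : H × B, F (b.1, Sum.inr b.2) := by
  rw [← (Equiv.prodSumDistrib H A B).symm.tsum_eq F, Summable.tsum_sum ENNReal.summable ENNReal.summable]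
  rfl

/-- The pieces of the present edges. -/
lemma dens_pieces_le (hΨ : IsState Ψ) :
    edens (fun x => sub (Ψ x) x t n K) ≤ ∑ _i : Fin (p ^ K), edens (clo Ψ t n) := by
  have hZ := clo_rg hΨ.rg t n
  refine (dens_le_sum (Q := fun i x u => PieceAt (clo Ψ t n x) K u ∧ idx u = i.val)
    (fun i u => (measurable_pieceAt hZ u).and measurable_const) fun x u hu => ?_).trans
    (Finset.sum_le_sum fun i _ => ?_)
  · obtain ⟨w, hw, -⟩ := id hu.2
    exact ⟨⟨idx u, lt_of_lt_of_le (PieceAt.length hu hw).2 (expTop_length hw)⟩, hu, rfl⟩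
  · exact dens_le_of_rel
      (fun x u e => (PieceAt (clo Ψ t n x) K u ∧ idx u = i.val) ∧ srcE u = e)
      (fun u e => ((measurable_pieceAt hZ u).and measurable_const).and measurable_const)
      (fun h x u e => and_congr (and_congr (pieceAt_tr hZ h x u) Iff.rfl)
        (by rw [srcE_tr]; exact (tr_injective h).eq_iff))
      (fun x u hu => ⟨_, hu, rfl⟩) (fun x u e h => h.2 ▸ h.1.1.1.1)
      fun x u u' e h h' => pieceAt_unique h.1.1 h'.1.1 (h.2.trans h'.2.symm) (h.1.2.trans h'.1.2.symm)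

/-- The pieces at the start of their edges number at most the old edges and the remaining ones. -/
lemma dens_first_le (hΨ : IsState Ψ) :
    dens (fun x u => ind (PieceAt (clo Ψ t n x) K u ∧ idx u = 0)) ≤
      edens Ψ + dens (fun x e => ind (LeftOp (clo Ψ t n x) K e)) := by
  have hZ := clo_rg hΨ.rg t n
  have h1 : dens (fun x u => ind (PieceAt (clo Ψ t n x) K u ∧ idx u = 0)) ≤
      dens (fun x e => ind (Kept (clo Ψ t n x) K e)) :=
    dens_le_of_rel (fun x u e => (PieceAt (clo Ψ t n x) K u ∧ idx u = 0) ∧ srcE u = e)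
      (fun u e => ((measurable_pieceAt hZ u).and measurable_const).and measurable_const)
      (fun h x u e => and_congr (and_congr (pieceAt_tr hZ h x u) Iff.rfl)
        (by rw [srcE_tr]; exact (tr_injective h).eq_iff))
      (fun x u hu => ⟨_, hu, rfl⟩) (fun x u e h => h.2 ▸ h.1.1.1)
      fun x u u' e h h' => pieceAt_unique h.1.1 h'.1.1 (h.2.trans h'.2.symm) (h.1.2.trans h'.1.2.symm)
  refine h1.trans ((dens_le_add (P₁ := fun x e => e ∈ (clo Ψ t n x).E ∧ e.2.2.1 = [])
    (P₂ := fun x e => LeftOp (clo Ψ t n x) K e) (fun e => (hZ.measE e).and measurable_const)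
    fun x e he => he.2.imp (fun h => ⟨he.1, h⟩) id).trans (add_le_add ?_ le_rfl))
  refine dens_le_of_rel (fun x e e' => e' ∈ (Ψ x).E ∧ emb e' = e)
    (fun e e' => (hΨ.rg.measE e').and measurable_const)
    (fun h x e e' => and_congr (hΨ.rg.equivE h x e')
      (by rw [emb_tr]; exact (tr_injective h).eq_iff))
    (fun x e he => ?_) (fun x e e' h => h.1) (fun x e₁ e₂ e' h h' => h.2.symm.trans h'.2)
  rcases emb_or_cons he.1 with h | ⟨hd, l, hl⟩
  · exact h
  · rw [he.2] at hl
    simp at hl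

/-- Almost surely only finitely many ends of pieces lie at each old end. -/
lemma ae_finite_atEnd (hΨ : IsState Ψ) (hE : edens (clo Ψ t n) ≠ ∞) :
    ∀ᵐ x ∂law (G p), ∀ o, {c | AtEnd (stage (Ψ x) x t n) K c o}.Finite := by
  have hsub := sub_rg hΨ.rg t n K
  have hk : IsKernel fun x c o => ind (AtEnd (stage (Ψ x) x t n) K c o) :=
    ⟨fun c o => Measurable.ind (measurable_atEnd hΨ.rg c o),
      fun h x c o => ind_congr (atEnd_tr hΨ.rg h x c o)⟩
  have hfin : dens (fun x c => ∑' o, ind (AtEnd (stage (Ψ x) x t n) K c o)) ≠ ∞ := by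
    have hle : dens (fun x c => ∑' o, ind (AtEnd (stage (Ψ x) x t n) K c o)) ≤
        dens (fun x c => ind (PieceAt (clo Ψ t n x) K (edge c))) := by
      refine dens_mono fun x c => ?_
      by_cases h : PieceAt (clo Ψ t n x) K (edge c)
      · rw [ind_pos h]
        exact tsum_ind_le_one fun o o' ho ho' => ho.unique ho'
      · rw [ind_neg h, nonpos_iff_eq_zero, ENNReal.tsum_eq_zero]
        exact fun o => ind_neg fun ho => h ho.1
    refine ne_top_of_le_ne_top (ne_top_of_le_ne_top ?_ (dens_le_sum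
      (Q := fun (s : Bool) x c => PieceAt (clo Ψ t n x) K (edge c) ∧ side c = s)
      (fun s c => (hsub.measE (edge c)).and measurable_const) fun x c hc => ⟨_, hc, rfl⟩)) hle
    have hone : ∀ s : Bool, dens (fun x (c : End (G p) (PLbl p S0)) =>
        ind (PieceAt (clo Ψ t n x) K (edge c) ∧ side c = s)) ≤
          edens (fun x => sub (Ψ x) x t n K) := fun s =>
      dens_le_of_rel (fun x c u => (PieceAt (clo Ψ t n x) K (edge c) ∧ side c = s) ∧ edge c = u)
        (fun c u => ((hsub.measE (edge c)).and measurable_const).and measurable_const)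
        (fun h x c u => and_congr (and_congr (hsub.equivE h x (edge c)) Iff.rfl)
          (by rw [edge_tr]; exact (tr_injective h).eq_iff))
        (fun x c hc => ⟨_, hc, rfl⟩) (fun x c u h => h.2 ▸ h.1.1)
        fun x c c' u h h' => by
          rw [← en_edge_side c, ← en_edge_side c', h.2, h'.2, h.1.2, h'.1.2]
    refine ne_top_of_le_ne_top (ENNReal.sum_ne_top.2 fun _ _ => ?_)
      (Finset.sum_le_sum fun s (_ : s ∈ Finset.univ) => hone s)
    exact ne_top_of_le_ne_top (ENNReal.sum_ne_top.2 fun _ _ => hE) (dens_pieces_le hΨ)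
  filter_upwards [ae_in_lt_top hk hfin] with x hx o
  exact finite_of_tsum_ind (hx o).ne

/-- The weights behind the node count of the subdivision. -/
noncomputable def subWeight (Φ : Gph (G p) (Fin p × S0)) (x : Lab (G p)) (t : ℕ → ℝ) (n K : ℕ) :
    G p × ((Fin p × S0) × Bool ⊕ PLbl p S0) → ℝ≥0∞
  | (g, Sum.inl o) => Φ.vW (g, o)
  | (g, Sum.inr u) => ind (PieceAt (stage Φ x t n).Z K (g, u) ∧ 1 ≤ idx (S0 := S0) (g, u))

/-- The nodes that receive those weights. -/
def subTarget (Φ : Gph (G p) (Fin p × S0)) (x : Lab (G p)) (t : ℕ → ℝ) (n K : ℕ) :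
    G p × ((Fin p × S0) × Bool ⊕ PLbl p S0) → End (G p) (PLbl p S0) → Prop
  | (g, Sum.inl o), b => ∃ o', AtEnd (stage Φ x t n) K b o' ∧ Φ.R (g, o) o'
  | (g, Sum.inr u), b => InnerAt (stage Φ x t n).Z K b ∧ srcE (edge b) = srcE (S0 := S0) (g, u) ∧
      jIdx b = idx (S0 := S0) (g, u)

lemma later_le_vdens (hΨ : IsState Ψ) (hE : edens (clo Ψ t n) ≠ ∞) :
    vdens Ψ + dens (fun x u => ind (PieceAt (clo Ψ t n x) K u ∧ 1 ≤ idx u)) ≤
      vdens (fun x => sub (Ψ x) x t n K) := by
  have hZ := clo_rg hΨ.rg t n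
  have hsub := sub_rg hΨ.rg t n K
  have hw : IsWeight fun x => subWeight (Ψ x) x t n K := by
    refine ⟨fun a => ?_, fun h x a => ?_⟩ <;> obtain ⟨g, o | u⟩ := a
    · exact hΨ.rg.vW_weight.meas (g, o)
    · exact Measurable.ind ((measurable_pieceAt hZ (g, u)).and measurable_const)
    · exact hΨ.rg.vW_weight.equiv h x (g, o)
    · exact ind_congr (and_congr (pieceAt_tr hZ h x (g, u)) Iff.rfl)
  have hdens : vdens Ψ + dens (fun x u => ind (PieceAt (clo Ψ t n x) K u ∧ 1 ≤ idx u)) =
      dens (fun x => subWeight (Ψ x) x t n K) := by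
    rw [vdens, dens, dens, dens,
      ← lintegral_add_left (Measurable.tsum fun s => hΨ.rg.vW_weight.meas _)]
    refine lintegral_congr fun x => ?_
    rw [Summable.tsum_sum ENNReal.summable ENNReal.summable]
    rfl
  rw [hdens]
  refine dens_le_vdens hw hsub (fun x => subTarget (Ψ x) x t n K) ?_ ?_
    (ae_of_all _ fun x a b b' => ?_) ?_ ?_
  · rintro ⟨g, o | u⟩ b
    · exact Measurable.exists fun o' => (measurable_atEnd hΨ.rg b o').and (hΨ.rg.measR _ o')
    · exact (measurable_innerAt hZ b).and measurable_const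
  · rintro h x ⟨g, o | u⟩ b
    · exact (exists_tr h _).symm.trans <| exists_congr fun o' =>
        and_congr (atEnd_tr hΨ.rg h x b o') (hΨ.rg.equivR h x (g, o) o')
    · refine and_congr (innerAt_tr hZ h x b) (and_congr ?_ Iff.rfl)
      rw [edge_tr, srcE_tr]
      exact (tr_injective h).eq_iff (a := srcE (edge b)) (b := srcE (g, u))
  · obtain ⟨g, o | u⟩ := a <;> intro hQ hR
    · obtain ⟨o', ho', hr⟩ := hQ
      rcases hR with rfl | ⟨o₁, o₂, h1, h2, h3⟩ | ⟨h1, -⟩
      · exact ⟨o', ho', hr⟩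
      · obtain rfl := ho'.unique h1
        exact ⟨o₂, h2, (hΨ.rg.eqv x).trans hr h3⟩
      · exact absurd h1 ho'.not_inner
    · rcases hR with rfl | ⟨o₁, o₂, h1, -⟩ | ⟨-, h2, h3, h4⟩
      · exact hQ
      · exact absurd hQ.1 h1.not_inner
      · exact ⟨h2, h3.symm.trans hQ.2.1, h4.symm.trans hQ.2.2⟩
  · refine ae_of_all _ fun x b => ?_
    rw [tsum_prod_sum]
    by_cases hi : InnerAt (stage (Ψ x) x t n).Z K b
    · rw [ENNReal.tsum_eq_zero.2 fun o => ?_, zero_add]
      · show ∑' u : Piece p S0, ind (_ ∧ _) * ind (_ ∧ _) ≤ 1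
        simp only [← ind_and]
        refine tsum_ind_le_one fun u u' h h' => ?_
        exact pieceAt_unique h.2.1 h'.2.1 (h.1.2.1.symm.trans h'.1.2.1)
          (h.1.2.2.symm.trans h'.1.2.2)
      · rw [ind_neg, zero_mul]
        rintro ⟨o', ho', -⟩
        exact ho'.not_inner hi
    · rw [add_comm, ENNReal.tsum_eq_zero.2 fun u => ?_, zero_add]
      · by_cases ha : ∃ o, AtEnd (stage (Ψ x) x t n) K b o
        · obtain ⟨o, ho⟩ := ha
          refine le_trans (ENNReal.tsum_le_tsum fun o' => ?_)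
            (hΨ.rg.tsum_vW_le x (P := fun o' => (Ψ x).R o' o)
              fun a c hac hc => (hΨ.rg.eqv x).trans hac ((hΨ.rg.eqv x).symm hc))
          refine mul_le_mul_left (ind_mono fun h => ?_) _
          obtain ⟨o'', h1, h2⟩ := h
          obtain rfl := ho.unique h1
          exact h2
        · rw [ENNReal.tsum_eq_zero.2 fun o => ?_]
          · exact zero_le
          · rw [ind_neg, zero_mul]
            rintro ⟨o', ho', -⟩
            exact ha ⟨o', ho'⟩
      · rw [ind_neg, zero_mul]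
        exact fun h => hi h.1
  · filter_upwards [ae_finite_atEnd (K := K) hΨ hE] with x hfinx a ha
    obtain ⟨g, o | u⟩ := a
    · obtain ⟨hp, hm, hc⟩ := Gph.vW_ne_zero.1 (show (Ψ x).vW (g, o) ≠ 0 from ha)
      obtain ⟨b, hb⟩ := exists_atEnd (x := x) (t := t) (n := n) (K := K) hp
      refine ⟨b, ⟨(g, o), hb, (hΨ.rg.eqv x).refl _⟩, Gph.vW_ne_zero.2 ⟨hb.1, ?_, ?_⟩⟩
      · rintro ⟨o', ho', hmo⟩
        exact hm (hb.unique ho' ▸ hmo)
      · refine tsum_ind_ne_top ?_
        have hcls := finite_of_tsum_ind hc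
        refine ((hcls.biUnion fun o' _ => hfinx o').union (Set.finite_singleton b)).subset ?_
        rintro c ⟨-, rfl | ⟨o₁, o₂, h1, h2, h3⟩ | ⟨h1, -⟩⟩
        · exact Or.inr rfl
        · obtain rfl := hb.unique h1
          exact Or.inl (Set.mem_biUnion (x := o₂) ⟨(rt_pres h2), h3⟩ h2)
        · exact absurd h1 hb.not_inner
    · obtain ⟨hp, hi⟩ := ind_ne_zero.1 (show ind _ ≠ 0 from ha)
      obtain ⟨w, hw, -⟩ := id hp.2
      have hlt := (hp.length hw).2
      have hin : InnerAt (stage (Ψ x) x t n).Z K (en (g, u) (!pieceDir (g, u))) := by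
        refine ⟨hp, w, hw, ?_, ?_⟩ <;> rw [jIdx_before] <;> omega
      refine ⟨_, ⟨hin, rfl, jIdx_before _⟩, Gph.vW_ne_zero.2 ⟨hp, ?_, ?_⟩⟩
      · rintro ⟨o', ho', -⟩
        exact ho'.not_inner hin
      · refine tsum_ind_ne_top ((finite_ends_src (Φ := Ψ x) (x := x) (t := t) (n := n) (K := K)
          (srcE (g, u))).subset ?_)
        rintro c ⟨hc, rfl | ⟨o₁, o₂, h1, -⟩ | ⟨-, -, h3, -⟩⟩
        · exact ⟨hc, rfl⟩
        · exact absurd hin h1.not_inner
        · exact ⟨hc, h3.symm⟩
where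
  rt_pres {x : Lab (G p)} {c : End (G p) (PLbl p S0)} {o : End (G p) (Fin p × S0)}
      (h : AtEnd (stage (Ψ x) x t n) K c o) : (Ψ x).Pres o := by
    obtain ⟨-, w, -, ⟨-, h⟩ | ⟨-, h⟩⟩ := h <;> exact (rt_spec h).2.1

/-- The subdivision has finite length, and its length exceeds its nodes by at most the old
excess and the remaining fresh edges. -/
theorem sub_density (hΨ : IsState Ψ) (_hfin : edens Ψ ≠ ∞) (hE : edens (clo Ψ t n) ≠ ∞) (K : ℕ) :
    edens (fun x => sub (Ψ x) x t n K) ≠ ∞ ∧ ∃ I : ℝ≥0∞, I ≠ ∞ ∧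
      edens (fun x => sub (Ψ x) x t n K) ≤
        edens Ψ + dens (fun x e => ind (LeftOp (clo Ψ t n x) K e)) + I ∧
      vdens Ψ + I ≤ vdens (fun x => sub (Ψ x) x t n K) := by
  have hZ := clo_rg hΨ.rg t n
  have htop : edens (fun x => sub (Ψ x) x t n K) ≠ ∞ :=
    ne_top_of_le_ne_top (ENNReal.sum_ne_top.2 fun _ _ => hE) (dens_pieces_le hΨ)
  refine ⟨htop, dens (fun x u => ind (PieceAt (clo Ψ t n x) K u ∧ 1 ≤ idx u)), ?_, ?_,
    later_le_vdens hΨ hE⟩
  · exact ne_top_of_le_ne_top htop (dens_mono fun x u => ind_mono And.left)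
  · refine (dens_le_add (P₁ := fun x u => PieceAt (clo Ψ t n x) K u ∧ idx u = 0)
      (P₂ := fun x u => PieceAt (clo Ψ t n x) K u ∧ 1 ≤ idx u)
      (fun u => (measurable_pieceAt hZ u).and measurable_const) fun x u hu => ?_).trans
      (add_le_add (dens_first_le hΨ) le_rfl)
    rcases Nat.eq_zero_or_pos (idx u) with h | h
    · exact Or.inl ⟨hu, h⟩
    · exact Or.inr ⟨hu, h⟩

end Vale.Agent.P189
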