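import Vale.Agent.P189.Subdivide
import Vale.Agent.P189.Fold
import Vale.Agent.P189.SubDens

/-!
The subdivided graph folds onto the collapsed graph.

Every edge of the closure has a walk in the subdivided graph between the old nodes below its ends,
whose image reduces to the expansion of its class. For a fresh edge of a collapsed cell this is
the walk through the rest of the cell, built at an earlier stage.
-/

namespace Vale.Agent.P189

open MeasureTheory Function
open Fin.NatCast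
open scoped ENNReal

variable {p : ℕ} {S0 : Type} [Countable S0] {Ψ : Gph (G p) (Fin p × S0)} {x : Lab (G p)}
  {t : ℕ → ℝ} {n K : ℕ}

/-- The pieces of an edge along a list of letters, counted from `i`. -/
def pieces (e : CEdge p S0) : ℕ → List (CEdge p S0 × Bool) → List (Piece p S0 × Bool)
  | _, [] => []
  | i, z :: w => (piece e i z, z.2) :: pieces e (i + 1) w

omit [Countable S0] in
lemma imgW_pieces (e : CEdge p S0) : ∀ (i : ℕ) (w : List (CEdge p S0 × Bool)),
    imgW pieceMap (pieces e i w) = w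
  | _, [] => rfl
  | i, z :: w => by
    have h1 := imgW_pieces e (i + 1) w
    simp only [imgW] at h1
    simp [pieces, imgW, h1]

omit [Countable S0] in
lemma jIdx_en (u : Piece p S0) (b : Bool) :
    jIdx (en u b) = if b = pieceDir u then idx u + 1 else idx u := rfl

/-- Two ends over one junction of one edge are at one node. -/
lemma sub_R_junction (hΨ : Equivalence Ψ.R) {a b : End (G p) (PLbl p S0)}
    (ha : PieceAt (stage Ψ x t n).Z K (edge a)) (hb : PieceAt (stage Ψ x t n).Z K (edge b))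
    (he : srcE (edge a) = srcE (edge b)) (hj : jIdx a = jIdx b) :
    (sub Ψ x t n K).R a b := by
  rcases atEnd_or_inner ha with ⟨o, ho⟩ | hi
  · have ho' : AtEnd (stage Ψ x t n) K b o := by
      obtain ⟨-, w, hw, hr⟩ := ho
      rw [he] at hw hr
      rw [hj] at hr
      exact ⟨hb, w, hw, hr⟩
    exact Or.inr (Or.inl ⟨o, o, ho, ho', hΨ.refl o⟩)
  · obtain ⟨-, w, hw, h1, h2⟩ := id hi
    rw [he] at hw
    rw [hj] at h1 h2
    exact Or.inr (Or.inr ⟨hi, ⟨hb, w, hw, h1, h2⟩, he, hj⟩)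

/-- Two ends at one old node are at one node. -/
lemma sub_R_atEnd (hΨ : Equivalence Ψ.R) {a b : End (G p) (PLbl p S0)}
    {o : End (G p) (Fin p × S0)} (ha : AtEnd (stage Ψ x t n) K a o)
    (hb : AtEnd (stage Ψ x t n) K b o) : (sub Ψ x t n K).R a b :=
  Or.inr (Or.inl ⟨o, o, ha, hb, hΨ.refl o⟩)

lemma pieceAt_letter {e : CEdge p S0} (he : Kept (stage Ψ x t n).Z K e)
    {w : List (CEdge p S0 × Bool)} (hw : ExpTop (stage Ψ x t n).Z K e w) {i : ℕ}
    {z : CEdge p S0 × Bool} (hz : w[i]? = some z) :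
    PieceAt (stage Ψ x t n).Z K (piece e i z) :=
  ⟨he, w, hw, by simpa using hz⟩

/-- The pieces of a kept edge form a walk between its junctions. -/
lemma pieces_walk (hΨ : Equivalence Ψ.R) {e : CEdge p S0} (he : Kept (stage Ψ x t n).Z K e)
    {w : List (CEdge p S0 × Bool)} (hw : ExpTop (stage Ψ x t n).Z K e w) :
    ∀ (rest : List (CEdge p S0 × Bool)) (i : ℕ), (∀ j, rest[j]? = w[i + j]?) →
      i + rest.length = w.length → ∀ a b : End (G p) (PLbl p S0),
      PieceAt (stage Ψ x t n).Z K (edge a) → srcE (edge a) = e → jIdx a = i →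
      PieceAt (stage Ψ x t n).Z K (edge b) → srcE (edge b) = e → jIdx b = w.length →
      Walk (FoldRel (sub Ψ x t n K) pieceMap) (sub Ψ x t n K).E a (pieces e i rest) b
  | [], i, _, hlen, a, b, ha, hae, haj, hb, hbe, hbj => by
    refine FoldRel.base (sub_R_junction hΨ ha hb (hae.trans hbe.symm) ?_)
    simp at hlen
    omega
  | z :: rest, i, hget, hlen, a, b, ha, hae, haj, hb, hbe, hbj => by
    have hz : w[i]? = some z := by simpa using (hget 0).symm
    have hp := pieceAt_letter he hw hz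
    refine ⟨FoldRel.base (sub_R_junction hΨ ha hp (by simpa using hae) ?_), hp, ?_⟩
    · rw [jIdx_en]; simp [haj]
    · refine pieces_walk hΨ he hw rest (i + 1) (fun j => ?_) ?_ _ b hp (by simp) ?_ hb hbe hbj
      · have := hget (j + 1)
        rw [List.getElem?_cons_succ] at this
        rw [this, Nat.add_assoc, Nat.add_comm 1]
      · simp at hlen; omega
      · rw [jIdx_en]; simp

/-- A walk over the edge `e` between the old nodes below its ends. -/
def EdgeWalk (Ψ : Gph (G p) (Fin p × S0)) (x : Lab (G p)) (t : ℕ → ℝ) (n K : ℕ)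
    (e : CEdge p S0) : Prop :=
  ∀ o o', (stage Ψ x t n).rt (en e false) o → (stage Ψ x t n).rt (en e true) o' →
    ∃ a b W w, AtEnd (stage Ψ x t n) K a o ∧ AtEnd (stage Ψ x t n) K b o' ∧
      Walk (FoldRel (sub Ψ x t n K) pieceMap) (sub Ψ x t n K).E a W b ∧
      ExpTop (stage Ψ x t n).Z K e w ∧
      FreeGroup.mk (imgW pieceMap W) = FreeGroup.mk w

/-- The ends at two old nodes are identified by folding. -/
def RootRel (Ψ : Gph (G p) (Fin p × S0)) (x : Lab (G p)) (t : ℕ → ℝ) (n K : ℕ)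
    (o o' : End (G p) (Fin p × S0)) : Prop :=
  ∀ a b, AtEnd (stage Ψ x t n) K a o → AtEnd (stage Ψ x t n) K b o' →
    FoldRel (sub Ψ x t n K) pieceMap a b

/-- The walk of a kept edge. -/
lemma edgeWalk_kept (hΨ : Equivalence Ψ.R) {e : CEdge p S0}
    (he : Kept (stage Ψ x t n).Z K e) : EdgeWalk Ψ x t n K e := by
  intro o o' ho ho'
  obtain ⟨w, hw⟩ := exists_expTop (K := K) he.1
  have hne := List.length_pos_of_ne_nil (expTop_ne_nil hw)
  obtain ⟨z₀, hz₀⟩ : ∃ z, w[0]? = some z := ⟨_, List.getElem?_eq_getElem hne⟩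
  obtain ⟨z₁, hz₁⟩ : ∃ z, w[w.length - 1]? = some z :=
    ⟨_, List.getElem?_eq_getElem (by omega)⟩
  have h0 := pieceAt_letter he hw hz₀
  have h1 := pieceAt_letter he hw hz₁
  refine ⟨en (piece e 0 z₀) (!z₀.2), en (piece e (w.length - 1) z₁) z₁.2, pieces e 0 w, w,
    ⟨h0, w, hw, Or.inl ⟨by simp [jIdx_en], ho⟩⟩,
    ⟨h1, w, hw, Or.inr ⟨by simp [jIdx_en]; omega, ho'⟩⟩,
    pieces_walk hΨ he hw w 0 (fun j => by simp) (by simp) _ _ h0 rfl (by simp [jIdx_en]) h1 rfl
      (by simp [jIdx_en]; omega), hw, by rw [imgW_pieces]⟩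

/-- Every present old end has an end of a piece at it. -/
lemma exists_end_at (hΨ : Equivalence Ψ.R) {o : End (G p) (Fin p × S0)} (ho : Ψ.Pres o) :
    ∃ a, AtEnd (stage Ψ x t n) K a o := by
  have hk : Kept (stage Ψ x t n).Z K (emb (edge o)) := ⟨mem_of_emb ho, Or.inl rfl⟩
  have hrt : (stage Ψ x t n).rt (embEnd o) o := stage_rt_mono (Nat.zero_le n) ⟨ho, rfl⟩
  obtain ⟨o', ho'⟩ := exists_rt (n := n) (Ψ := Ψ) (x := x) (t := t)
    (a := en (emb (edge o)) (!side o)) hk.1
  cases hs : side o with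
  | false =>
    rw [hs] at ho'
    obtain ⟨a, -, -, -, ha, -⟩ := edgeWalk_kept hΨ hk o o' (hs ▸ hrt) ho'
    exact ⟨a, ha⟩
  | true =>
    rw [hs] at ho'
    obtain ⟨-, b, -, -, -, hb, -⟩ := edgeWalk_kept hΨ hk o' o ho' (hs ▸ hrt)
    exact ⟨b, hb⟩

lemma RootRel.refl (hΨ : Equivalence Ψ.R) (o : End (G p) (Fin p × S0)) :
    RootRel Ψ x t n K o o :=
  fun _ _ ha hb => FoldRel.base (sub_R_atEnd hΨ ha hb)

/-- Equal root classes follow from each relation of a stage. -/
def RelClaim (Ψ : Gph (G p) (Fin p × S0)) (x : Lab (G p)) (t : ℕ → ℝ) (n K j : ℕ) : Prop :=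
  ∀ a b o o', (stage Ψ x t j).Z.R a b → (stage Ψ x t n).rt a o → (stage Ψ x t n).rt b o' →
    RootRel Ψ x t n K o o'

lemma relClaim_of_base (hΨ : Equivalence Ψ.R) {E : Set (CEdge p S0)}
    {R : CEnd p S0 → CEnd p S0 → Prop} (hE : E ⊆ (stage Ψ x t n).Z.E)
    (hsub : ∀ a b, FoldRel ⟨E, R, fun _ => False⟩ img a b → (stage Ψ x t n).Z.R a b)
    (hpres : ∀ a b, FoldRel ⟨E, R, fun _ => False⟩ img a b →
      a = b ∨ ((stage Ψ x t n).Z.Pres a ∧ (stage Ψ x t n).Z.Pres b))
    (hR : ∀ a b, R a b → ∀ o o', (stage Ψ x t n).rt a o → (stage Ψ x t n).rt b o' →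
      RootRel Ψ x t n K o o')
    (hW : ∀ e ∈ E, EdgeWalk Ψ x t n K e) :
    ∀ a b, FoldRel ⟨E, R, fun _ => False⟩ img a b → ∀ o o', (stage Ψ x t n).rt a o →
      (stage Ψ x t n).rt b o' → RootRel Ψ x t n K o o' := by
  intro a b h
  induction h with
  | base h => exact hR _ _ h
  | symm _ ih => exact fun o o' ho ho' c d hc hd => FoldRel.symm (ih o' o ho' ho d c hd hc)
  | @trans a b c h₁ h₂ ih₁ ih₂ =>
    intro o o' ho ho'
    rcases hpres a b h₁ with rfl | hb
    · exact ih₂ o o' ho ho'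
    obtain ⟨ob, hob⟩ := exists_rt hb.2
    obtain ⟨m, hm⟩ := exists_end_at (K := K) (n := n) (x := x) (t := t) hΨ (rt_spec hob).2.1
    exact fun c d hc hd => FoldRel.trans (ih₁ o ob ho hob c m hc hm) (ih₂ ob o' hob ho' m d hm hd)
  | @fold e e' side he he' hφ h ih =>
    intro o o' ho ho'
    obtain ⟨o₁, ho₁⟩ := exists_rt (a := en e side) (Ψ := Ψ) (x := x) (t := t) (n := n) (hE he)
    obtain ⟨o₁', ho₁'⟩ := exists_rt (a := en e' side) (Ψ := Ψ) (x := x) (t := t) (n := n) (hE he')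
    have hs : Same (stage Ψ x t n).Z e e' := same_of_end (hE he) (hE he') hφ (hsub _ _ h)
    have hq := foldRel_equivalence (φ := pieceMap) (sub_eqv (x := x) (t := t) (n := n) (K := K) hΨ)
    have hroot := ih o₁ o₁' ho₁ ho₁'
    cases side with
    | false =>
      obtain ⟨a, b, W, w, ha, hb, hWk, hw, hm⟩ := hW e he o₁ o ho₁ ho
      obtain ⟨a', b', W', w', ha', hb', hWk', hw', hm'⟩ := hW e' he' o₁' o' ho₁' ho'
      obtain rfl := expTop_unique hw (expTop_same hw' hs)
      have hnull : FoldRel (sub Ψ x t n K) pieceMap b b' :=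
        Walk.null (sub_eqv hΨ) (w := invW W ++ W')
          ((hWk.inv hq).append hq (hWk'.congr_left hq (hroot a a' ha ha'))) (by
            rw [imgW_append, ← FreeGroup.mul_mk, imgW_invW, mk_invW, hm, hm', inv_mul_cancel])
      exact fun c d hc hd => FoldRel.trans (FoldRel.base (sub_R_atEnd hΨ hc hb))
        (FoldRel.trans hnull (FoldRel.base (sub_R_atEnd hΨ hb' hd)))
    | true =>
      obtain ⟨a, b, W, w, ha, hb, hWk, hw, hm⟩ := hW e he o o₁ ho ho₁
      obtain ⟨a', b', W', w', ha', hb', hWk', hw', hm'⟩ := hW e' he' o' o₁' ho' ho₁'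
      obtain rfl := expTop_unique hw (expTop_same hw' hs)
      have hnull : FoldRel (sub Ψ x t n K) pieceMap a a' :=
        Walk.null (sub_eqv hΨ) (w := W ++ invW W')
          (hWk.append hq ((hWk'.inv hq).congr_left hq (hroot b b' hb hb'))) (by
            rw [imgW_append, ← FreeGroup.mul_mk, imgW_invW, mk_invW, hm, hm', mul_inv_cancel])
      exact fun c d hc hd => FoldRel.trans (FoldRel.base (sub_R_atEnd hΨ hc ha))
        (FoldRel.trans hnull (FoldRel.base (sub_R_atEnd hΨ ha' hd)))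

omit [Countable S0] in
lemma mk_arcW_congr {α : Type} {g g' : Fin (p + 1) → List (α × Bool)} :
    ∀ {m : ℕ} {k : Fin (p + 1)},
      (∀ i : ℕ, i < m → FreeGroup.mk (g (k + (i + 1 : ℕ))) =
        FreeGroup.mk (g' (k + (i + 1 : ℕ)))) →
      FreeGroup.mk (arcW g k m) = FreeGroup.mk (arcW g' k m)
  | 0, _, _ => rfl
  | m + 1, k, h => by
    have h0 := h 0 (by omega)
    simp only [Nat.zero_add, Nat.cast_one] at h0
    rw [arcW, arcW, ← FreeGroup.mul_mk, ← FreeGroup.mul_mk,
      mk_arcW_congr (g := g) (g' := g') (k := k + 1) fun i hi => by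
        rw [cast_shift]; exact h (i + 1) (by omega)]
    cases orient (k + 1) <;> simp [dirW, mk_invW, h0, -FreeGroup.mul_mk, -FreeGroup.inv_mk]

omit [Countable S0] in
lemma imgW_arcW {H S S' : Type} (φ : H × S' → H × S)
    (g : Fin (p + 1) → List ((H × S') × Bool)) :
    ∀ (m : ℕ) (k : Fin (p + 1)), imgW φ (arcW g k m) = arcW (fun l => imgW φ (g l)) k m
  | 0, _ => rfl
  | m + 1, k => by simp only [arcW, imgW_append, imgW_dirW, imgW_arcW φ g m]

/-- The walk of a fresh edge of a collapsed cell. -/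
lemma edgeWalk_collapsed (hΨ : Equivalence Ψ.R) {j : ℕ} (hj : j + 1 ≤ n)
    (hW : ∀ e ∈ (stage Ψ x t j).Z.E, EdgeWalk Ψ x t n K e) (hR : RelClaim Ψ x t n K j)
    {e : CEdge p S0} (he : e ∈ fresh (stage Ψ x t j).Z x (t j))
    (hleft : ¬LeftOp (stage Ψ x t n).Z K e) : EdgeWalk Ψ x t n K e := by
  classical
  have heN : e ∈ (stage Ψ x t n).Z.E := stage_E_mono hj (Or.inr he)
  obtain ⟨lab, hlab⟩ := exists_chosen he.2.1
  obtain ⟨⟨m, k₀, l, hl, hle, hpath, -⟩, -⟩ := id hlab
  set C := cellBase e.1 (m, k₀) with hCdef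
  obtain ⟨hclosed, -⟩ := fresh_closed he hlab hl
  have hclN : IsClosed (stage Ψ x t n).Z C lab := hclosed.mono hj
  obtain ⟨a₀, ha₀⟩ := exists_opOf heN hl
  obtain ⟨hd, l', lab', -, hl', hC', hc', hs'⟩ := id ha₀
  rw [hl] at hl'
  simp only [List.cons.injEq] at hl'
  obtain ⟨rfl, rfl⟩ := hl'
  have hC : C = img a₀ := hC'
  have hsame : ∀ i, Same (stage Ψ x t n).Z (liftE C lab i) (liftE (img a₀) lab' i) := fun i => by
    rw [hC] at hclN ⊢
    exact closed_unique hclN hc'.1 (k := k₀)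
      (by rw [← hC, hle, hC]; exact same_symm hs') i
  choose f hf using exists_inSlot hc'
  choose g hg using fun i => exists_exp (Ψ := Ψ) (x := x) (t := t) (n := n) (K := K)
    (d := K) (r := f i)
  have hsf : ∀ i, Same (stage Ψ x t n).Z (liftE C lab i) (f i) := fun i =>
    same_trans (hsame i) <| by
      obtain ⟨lab'', hl'', hr, hs⟩ := hf i
      exact same_trans (cellLift_unique hc' hl'' i) hs
  have htop : ∀ i, ExpTop (stage Ψ x t n).Z K (liftE C lab i) (g i) := fun i =>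
    ⟨f i, (hf i).rep, hsf i, hg i⟩
  intro o o' ho ho'
  have hnullC := boundary_null (⟨e, ha₀⟩ : CellAt (stage Ψ x t n).Z a₀)
    (fun h => hleft ⟨a₀, ha₀, h⟩) hf hg k₀
  have hpr : ∀ i b, (stage Ψ x t n).Z.Pres (en (liftE C lab i) b) := fun i b => (hclN i).1
  choose ri hri using fun i b => exists_rt (hpr i b)
  choose sa sb W ww hsa hsb hwalk hww hmk using fun i (hi : i ≠ k₀) =>
    hW _ (hpath i hi).1 _ _ (hri i false) (hri i true)
  obtain ⟨oe, hoe⟩ : ∃ oe, (stage Ψ x t n).rt (exitEnd k₀ e) oe := exists_rt heN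
  obtain ⟨oi, hoi⟩ : ∃ oi, (stage Ψ x t n).rt (enterEnd k₀ e) oi := exists_rt heN
  obtain ⟨A, hA⟩ := exists_end_at (K := K) (n := n) (x := x) (t := t) hΨ (rt_spec hoe).2.1
  let ex : Fin (p + 1) → End (G p) (PLbl p S0) := fun i =>
    if hi : i = k₀ then A else if orient i then sb i hi else sa i hi
  let en' : Fin (p + 1) → End (G p) (PLbl p S0) := fun i =>
    if hi : i = k₀ then A else if orient i then sa i hi else sb i hi
  let W' : Fin (p + 1) → List (Piece p S0 × Bool) := fun i =>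
    if hi : i = k₀ then [] else W i hi
  have hq := foldRel_equivalence (φ := pieceMap) (sub_eqv (x := x) (t := t) (n := n) (K := K) hΨ)
  have hw' : ∀ i, Walk (FoldRel (sub Ψ x t n K) pieceMap) (sub Ψ x t n K).E (en' i)
      (dirW (orient i) (W' i)) (ex i) := by
    intro i
    by_cases hi : i = k₀
    · simp only [en', ex, W', dif_pos hi]
      cases orient i <;> exact hq.refl A
    · simp only [en', ex, W', dif_neg hi]
      cases orient i
      · simpa [dirW] using (hwalk i hi).inv hq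
      · simpa [dirW] using hwalk i hi
  have hexit : ∀ i (hi : i ≠ k₀), ∃ oi', (stage Ψ x t n).rt (exitEnd i (liftE C lab i)) oi' ∧
      AtEnd (stage Ψ x t n) K (ex i) oi' := by
    intro i hi
    simp only [ex, dif_neg hi]
    refine ⟨ri i (orient i), hri i _, ?_⟩
    cases orient i
    · exact hsa i hi
    · exact hsb i hi
  have henter : ∀ i (hi : i ≠ k₀), ∃ oi', (stage Ψ x t n).rt (enterEnd i (liftE C lab i)) oi' ∧
      AtEnd (stage Ψ x t n) K (en' i) oi' := by
    intro i hi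
    simp only [en', dif_neg hi]
    refine ⟨ri i (!orient i), hri i _, ?_⟩
    cases orient i
    · exact hsb i hi
    · exact hsa i hi
  have hfirst : ∀ c o₁, AttachTo (stage Ψ x t j).Z c o₁ → edge c = e →
      ∀ r r', (stage Ψ x t n).rt c r → (stage Ψ x t n).rt o₁ r' → r = r' := by
    intro c o₁ hatt hce r r' hr hr'
    obtain ⟨o₂, ho₂⟩ := exists_rt (attach_pres hatt)
    have h1 : (stage Ψ x t (j + 1)).rt c o₂ := Or.inr ⟨hce ▸ he, o₁, hatt, ho₂⟩
    exact (rt_unique hr (stage_rt_mono hj h1)).trans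
      (rt_unique (stage_rt_mono (by omega) ho₂) hr')
  have harc := arcW_walk hq W' ex en' hw' p k₀ fun i hi => by
    have hne : k₀ + ((i + 1 : ℕ) : Fin (p + 1)) ≠ k₀ :=
      fin_add_cast_ne C k₀ (by omega) (by omega)
    obtain ⟨o2, ho2, ha2⟩ := henter _ hne
    rcases Nat.eq_zero_or_pos i with rfl | hi0
    · simp only [Nat.cast_zero, add_zero, Nat.zero_add, Nat.cast_one] at ha2 ho2 ⊢
      have hA' : AtEnd (stage Ψ x t n) K (ex k₀) oe := by simp only [ex, dif_pos rfl]; exact hA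
      obtain rfl := hfirst (exitEnd k₀ e) _
        ⟨lab, m, k₀, l, hl, hlab, Or.inl ⟨rfl, rfl⟩⟩ rfl oe o2 hoe ho2
      exact FoldRel.base (sub_R_atEnd hΨ hA' ha2)
    · have hne1 : k₀ + (i : Fin (p + 1)) ≠ k₀ := fin_add_cast_ne C k₀ (by omega) (by omega)
      obtain ⟨o1, ho1, ha1⟩ := hexit _ hne1
      have hsucc : k₀ + (i : Fin (p + 1)) + 1 = k₀ + ((i + 1 : ℕ) : Fin (p + 1)) := by
        rw [Nat.cast_succ, ← add_assoc]
      have hcons := (hpath _ hne1).2 (by rw [hsucc]; exact hne)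
      rw [Cons, hsucc] at hcons
      exact hR _ _ o1 o2 hcons ho1 ho2 _ _ ha1 ha2
  have hlast : AtEnd (stage Ψ x t n) K (ex (k₀ + ((p : ℕ) : Fin (p + 1)))) oi := by
    have hk : k₀ + ((p : ℕ) : Fin (p + 1)) = k₀ - 1 := by
      rw [eq_sub_iff_add_eq]; exact inSlot_wrap k₀
    rw [hk]
    obtain ⟨o3, ho3, ha3⟩ := hexit (k₀ - 1) (fin_sub_one_ne C k₀)
    obtain rfl := hfirst (enterEnd k₀ e) _
      ⟨lab, m, k₀, l, hl, hlab, Or.inr ⟨rfl, rfl⟩⟩ rfl oi o3 hoi ho3
    exact ha3
  have hA0 : ex k₀ = A := by simp only [ex, dif_pos rfl]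
  rw [hA0] at harc
  have himg : FreeGroup.mk (imgW pieceMap (arcW W' k₀ p)) = FreeGroup.mk (arcW g k₀ p) := by
    rw [imgW_arcW]
    refine mk_arcW_congr fun i hi => ?_
    have hne : k₀ + ((i + 1 : ℕ) : Fin (p + 1)) ≠ k₀ :=
      fin_add_cast_ne C k₀ (by omega) (by omega)
    simp only [W', dif_neg hne]
    rw [hmk, expTop_unique (hww _ hne) (htop _)]
  have hinv : FreeGroup.mk (arcW g k₀ p) = (FreeGroup.mk (dirW (orient k₀) (g k₀)))⁻¹ :=
    eq_inv_of_mul_eq_one_right hnullC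
  have hge : ExpTop (stage Ψ x t n).Z K e (g k₀) := hle ▸ htop k₀
  cases hor : orient k₀ with
  | true =>
    simp only [exitEnd, enterEnd, hor, Bool.not_true] at hoe hoi
    obtain rfl := rt_unique hoe ho'
    obtain rfl := rt_unique hoi ho
    refine ⟨_, A, invW (arcW W' k₀ p), g k₀, hlast, hA, harc.inv hq, hge, ?_⟩
    rw [imgW_invW, mk_invW, himg, hinv, inv_inv, hor]
    rfl
  | false =>
    simp only [exitEnd, enterEnd, hor, Bool.not_false] at hoe hoi
    obtain rfl := rt_unique hoe ho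
    obtain rfl := rt_unique hoi ho'
    refine ⟨A, _, arcW W' k₀ p, g k₀, hA, hlast, harc, hge, ?_⟩
    rw [himg, hinv, hor]
    simp [dirW, mk_invW, -FreeGroup.inv_mk]

/-- Relations and walks at every stage. -/
lemma claims (hΨ : Equivalence Ψ.R) : ∀ j ≤ n,
    (∀ e ∈ (stage Ψ x t j).Z.E, EdgeWalk Ψ x t n K e) ∧ RelClaim Ψ x t n K j
  | 0, _ => by
    have hW : ∀ e ∈ (stage Ψ x t 0).Z.E, EdgeWalk Ψ x t n K e := by
      rintro _ ⟨e', he', rfl⟩
      exact edgeWalk_kept hΨ ⟨mem_of_emb he', Or.inl rfl⟩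
    refine ⟨hW, fun a b o o' h => relClaim_of_base hΨ (stage_E_mono (Nat.zero_le n))
      (fun _ _ h => stage_R_mono (Nat.zero_le n) h)
      (fun _ _ h => (stage_R_pres hΨ 0 h).imp id fun hp =>
        ⟨stage_E_mono (Nat.zero_le n) hp.1, stage_E_mono (Nat.zero_le n) hp.2⟩)
      ?_ hW a b h o o'⟩
    intro a b hab o o' ho ho'
    rcases oldRel_eqvGen hΨ hab with rfl | ⟨a', b', rfl, rfl, ha', hb', hr⟩
    · obtain rfl := rt_unique ho ho'
      exact RootRel.refl hΨ o
    · obtain rfl := rt_unique ho (stage_rt_mono (Nat.zero_le n) ⟨ha', rfl⟩)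
      obtain rfl := rt_unique ho' (stage_rt_mono (Nat.zero_le n) ⟨hb', rfl⟩)
      exact fun c d hc hd => FoldRel.base (Or.inr (Or.inl ⟨_, _, hc, hd, hr⟩))
  | j + 1, hj => by
    obtain ⟨hWj, hRj⟩ := claims hΨ j (by omega)
    have hW : ∀ e ∈ (stage Ψ x t (j + 1)).Z.E, EdgeWalk Ψ x t n K e := by
      rintro e (he | he)
      · exact hWj e he
      · by_cases hleft : LeftOp (stage Ψ x t n).Z K e
        · exact edgeWalk_kept hΨ ⟨stage_E_mono hj (Or.inr he), Or.inr hleft⟩
        · exact edgeWalk_collapsed hΨ hj hWj hRj he hleft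
    refine ⟨hW, fun a b o o' h => relClaim_of_base hΨ (stage_E_mono hj)
      (fun _ _ h => stage_R_mono hj h)
      (fun _ _ h => (stage_R_pres hΨ (j + 1) h).imp id fun hp =>
        ⟨stage_E_mono hj hp.1, stage_E_mono hj hp.2⟩)
      ?_ hW a b h o o'⟩
    intro a b hab
    induction hab with
    | rel u v h =>
      intro o o' ho ho'
      rcases h with h | ⟨hu, hatt⟩
      · exact hRj u v o o' h ho ho'
      · obtain ⟨o₂, ho₂⟩ := exists_rt (attach_pres hatt)
        obtain rfl := rt_unique ho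
          (stage_rt_mono hj (show (stage Ψ x t (j + 1)).rt u o₂ from Or.inr ⟨hu, v, hatt, ho₂⟩))
        obtain rfl := rt_unique ho' (stage_rt_mono (by omega : j ≤ n) ho₂)
        exact RootRel.refl hΨ _
    | refl u =>
      intro o o' ho ho'
      obtain rfl := rt_unique ho ho'
      exact RootRel.refl hΨ o
    | symm _ _ _ ih => exact fun o o' ho ho' c d hc hd => FoldRel.symm (ih o' o ho' ho d c hd hc)
    | trans u v w h₁ h₂ ih₁ ih₂ =>
      intro o o' ho ho'
      rcases stage_R_pres hΨ (j + 1) (FoldRel.base h₁) with rfl | hp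
      · exact ih₂ o o' ho ho'
      obtain ⟨ov, hov⟩ := exists_rt (n := n) (a := v) (stage_E_mono hj hp.2)
      obtain ⟨md, hmd⟩ := exists_end_at (K := K) (n := n) (x := x) (t := t) hΨ (rt_spec hov).2.1
      exact fun c d hc hd =>
        FoldRel.trans (ih₁ o ov ho hov c md hc hmd) (ih₂ ov o' hov ho' md d hmd hd)

/-- A surviving class has a piece over it, at the old nodes below its ends. -/
lemma exists_over (hΨ : Equivalence Ψ.R) {y : CEdge p S0}
    (hy : y ∈ (collapsed (stage Ψ x t n).Z K).E) :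
    ∃ u ∈ (sub Ψ x t n K).E, pieceMap u = y ∧
      ∀ b o, (stage Ψ x t n).rt (en y b) o → ∀ c, AtEnd (stage Ψ x t n) K c o →
        FoldRel (sub Ψ x t n K) pieceMap (en u b) c := by
  obtain ⟨hrep, hdel⟩ := hy
  obtain ⟨of', hof⟩ := exists_rt (a := en y false) (Ψ := Ψ) (x := x) (t := t) (n := n) hrep.1
  obtain ⟨ot, hot⟩ := exists_rt (a := en y true) (Ψ := Ψ) (x := x) (t := t) (n := n) hrep.1
  obtain ⟨a, b, W, w, ha, hb, hWk, hw, hm⟩ := (claims hΨ n le_rfl).1 y hrep.1 of' ot hof hot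
  obtain rfl := expTop_unique hw ⟨y, hrep, same_refl n y, exp_of_kept le_rfl hdel⟩
  obtain ⟨u, hu, hmap, h1, h2⟩ := hWk.single (sub_eqv hΨ) hm
  refine ⟨u, hu, hmap, fun s o ho c hc => ?_⟩
  cases s with
  | false =>
    obtain rfl := rt_unique ho hof
    exact FoldRel.trans (FoldRel.symm h1) (FoldRel.base (sub_R_atEnd hΨ ha hc))
  | true =>
    obtain rfl := rt_unique ho hot
    exact FoldRel.trans h2 (FoldRel.base (sub_R_atEnd hΨ hb hc))

lemma pieceMap_kept {u : Piece p S0} (hu : PieceAt (stage Ψ x t n).Z K u) :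
    pieceMap u ∈ (collapsed (stage Ψ x t n).Z K).E := by
  obtain ⟨w, hw, hi⟩ := hu.2
  exact expTop_kept hw (pieceMap u, pieceDir u) (List.mem_of_getElem? hi)

/-- Each end of a piece is folded to the old node below its image. -/
lemma piece_anchor (hΨ : Equivalence Ψ.R) : ∀ (i : ℕ) {u : Piece p S0},
    PieceAt (stage Ψ x t n).Z K u → idx u = i → ∀ b o,
      (stage Ψ x t n).rt (en (pieceMap u) b) o → ∀ c, AtEnd (stage Ψ x t n) K c o →
        FoldRel (sub Ψ x t n K) pieceMap (en u b) c := by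
  intro i
  induction i with
  | zero => ?_
  | succ i ih => ?_
  all_goals
    intro u hu hi
    obtain ⟨w, hw, -⟩ := hu.2
    have hget := (hu.length hw).1
    have hlen := (hu.length hw).2
    have hwalk := expTop_walk hu.1.1 hw
    obtain ⟨v, hv, hmap, hv'⟩ := exists_over hΨ (pieceMap_kept hu)
    have hy : (pieceMap u) ∈ (stage Ψ x t n).Z.E := (pieceMap_kept hu).1.1
    -- the starting side
    suffices hstart : ∀ o, (stage Ψ x t n).rt (en (pieceMap u) (!pieceDir u)) o →
        ∀ c, AtEnd (stage Ψ x t n) K c o →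
          FoldRel (sub Ψ x t n K) pieceMap (en u (!pieceDir u)) c by
      intro b o ho c hc
      by_cases hb : b = pieceDir u
      · subst hb
        obtain ⟨o₀, ho₀⟩ := exists_rt (a := en (pieceMap u) (!pieceDir u)) hy
        obtain ⟨c₀, hc₀⟩ := exists_end_at (K := K) (n := n) (x := x) (t := t) hΨ
          (rt_spec ho₀).2.1
        have h1 := FoldRel.trans (hstart o₀ ho₀ c₀ hc₀) (FoldRel.symm (hv' _ o₀ ho₀ c₀ hc₀))
        have h2 := FoldRel.fold (φ := pieceMap) (show u ∈ (sub Ψ x t n K).E from hu) hv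
          hmap.symm h1
        rw [Bool.not_not] at h2
        exact FoldRel.trans h2 (hv' _ o ho c hc)
      · obtain rfl : b = !pieceDir u := Bool.eq_not.2 hb
        exact hstart o ho c hc
  · intro o ho c hc
    have hfirst := (hwalk.getElem 0 _ (hi ▸ hget)).1 rfl
    obtain ⟨oe, hoe⟩ := exists_rt (a := en (srcE u) false) (Ψ := Ψ) (x := x) (t := t) (n := n)
      hu.1.1
    have hat : AtEnd (stage Ψ x t n) K (en u (!pieceDir u)) oe :=
      ⟨hu, w, hw, Or.inl ⟨by simp [jIdx_en, hi], hoe⟩⟩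
    exact (claims hΨ n le_rfl).2 _ _ oe o hfirst hoe ho _ _ hat hc
  · intro o ho c hc
    obtain ⟨z, hz⟩ : ∃ z, w[i]? = some z := ⟨_, List.getElem?_eq_getElem (by omega)⟩
    have hp := pieceAt_letter hu.1 hw hz
    have hnext := (hwalk.getElem i z hz).2.2 (pieceMap u, pieceDir u) (by rw [← hi]; exact hget)
    obtain ⟨o₁, ho₁⟩ := exists_rt (a := en z.1 z.2) (Ψ := Ψ) (x := x) (t := t) (n := n)
      (expTop_kept hw z (List.mem_of_getElem? hz)).1.1
    obtain ⟨c₁, hc₁⟩ := exists_end_at (K := K) (n := n) (x := x) (t := t) hΨ (rt_spec ho₁).2.1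
    have h1 := ih hp (by simp) z.2 o₁ (by simpa using ho₁) c₁ hc₁
    have hj : (sub Ψ x t n K).R (en u (!pieceDir u)) (en (piece (srcE u) i z) z.2) :=
      sub_R_junction hΨ hu hp (by simp) (by simp [jIdx_en, hi])
    exact FoldRel.trans (FoldRel.base hj)
      (FoldRel.trans h1 ((claims hΨ n le_rfl).2 _ _ o₁ o hnext ho₁ ho c₁ c hc₁ hc))

/-- An end at an old node maps into the class of that node. -/
lemma atEnd_image {a : End (G p) (PLbl p S0)} {o : End (G p) (Fin p × S0)}
    (h : AtEnd (stage Ψ x t n) K a o) :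
    (stage Ψ x t n).Z.R (endMap pieceMap a) (embEnd o) := by
  obtain ⟨hp, w, hw, h⟩ := h
  have hget := (hp.length hw).1
  have hlen := (hp.length hw).2
  have hwalk := expTop_walk hp.1.1 hw
  have hq : Equivalence (stage Ψ x t n).Z.R := stage_eqv n
  obtain ⟨h0, h1, -⟩ := hwalk.getElem _ _ hget
  rcases h with ⟨hj, hr⟩ | ⟨hj, hr⟩
  · have hside : side a ≠ pieceDir (edge a) := fun hs => by simp [jIdx, hs] at hj
    rw [jIdx, if_neg hside] at hj
    rw [endMap, Bool.eq_not.2 hside]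
    exact hq.trans (hq.symm (h0 hj)) (rt_spec hr).2.2
  · have hside : side a = pieceDir (edge a) := by
      by_contra hs
      rw [jIdx, if_neg hs] at hj
      omega
    rw [jIdx, if_pos hside] at hj
    rw [endMap, hside]
    exact hq.trans (h1 hj) (rt_spec hr).2.2

section

variable {Ψ : Lab (G p) → Gph (G p) (Fin p × S0)}

/-- The subdivided graph folds onto the collapsed graph. -/
theorem isFold_sub (hΨ : IsState Ψ) (t : ℕ → ℝ) (n K : ℕ) :
    IsFold (fun x => sub (Ψ x) x t n K) (fun x => collapsed (clo Ψ t n x) K)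
      (fun _ => pieceMap) where
  meas _ _ := measurable_const
  equiv h _ u := pieceMap_tr h u
  pres := ae_of_all _ fun _ _ hu => pieceMap_kept hu
  surj := ae_of_all _ fun x y hy => by
    obtain ⟨u, hu, hmap, -⟩ := exists_over (hΨ.rg.eqv x) hy
    exact ⟨u, hu, hmap⟩
  mark_surj := ae_of_all _ fun x c _ hc => by
    obtain ⟨o, ho, hm, hr⟩ : ∃ o, (Ψ x).Pres o ∧ (Ψ x).Mk o ∧
        (stage (Ψ x) x t n).Z.R (embEnd o) c := by
      cases n <;> exact hc
    obtain ⟨a, ha⟩ := exists_end_at (K := K) (n := n) (x := x) (t := t) (hΨ.rg.eqv x) ho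
    exact ⟨a, ha.1, ⟨o, ha, hm⟩, (stage_eqv n).trans (atEnd_image ha) hr⟩
  fold := ae_of_all _ fun x a b ha hb hab => by
    have hq := hΨ.rg.eqv x
    have ha' : (pieceMap (edge a)) ∈ (stage (Ψ x) x t n).Z.E := (pieceMap_kept ha).1.1
    have hb' : (pieceMap (edge b)) ∈ (stage (Ψ x) x t n).Z.E := (pieceMap_kept hb).1.1
    obtain ⟨oa, hoa⟩ := exists_rt (a := endMap pieceMap a) ha'
    obtain ⟨ob, hob⟩ := exists_rt (a := endMap pieceMap b) hb'
    obtain ⟨ca, hca⟩ := exists_end_at (K := K) (n := n) (x := x) (t := t) hq (rt_spec hoa).2.1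
    obtain ⟨cb, hcb⟩ := exists_end_at (K := K) (n := n) (x := x) (t := t) hq (rt_spec hob).2.1
    have h1 := piece_anchor hq _ ha rfl (side a) oa hoa ca hca
    have h2 := piece_anchor hq _ hb rfl (side b) ob hob cb hcb
    rw [en_edge_side] at h1 h2
    exact FoldRel.trans h1
      (FoldRel.trans ((claims hq n le_rfl).2 _ _ oa ob hab hoa hob ca cb hca hcb)
        (FoldRel.symm h2))

/-- The collapse costs no more than the fresh edges left. -/
theorem lift_inequality (hΨ : IsState Ψ) (hfin : edens Ψ ≠ ∞)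
    (hE : edens (clo Ψ t n) ≠ ∞) (K : ℕ) :
    edens (fun x => collapsed (clo Ψ t n x) K) + vdens Ψ ≤
      edens Ψ + dens (fun x e => ind (LeftOp (clo Ψ t n x) K e)) +
        vdens (fun x => collapsed (clo Ψ t n x) K) := by
  obtain ⟨hsfin, I, hI, hEsub, hVsub⟩ := sub_density hΨ hfin hE K
  have h := edens_add_vdens_le (sub_rg hΨ.rg t n K)
    (collapsed_rg (clo_rg hΨ.rg t n) K) (isFold_sub hΨ t n K) hsfin
  have h2 : edens (fun x => collapsed (clo Ψ t n x) K) + vdens Ψ + I ≤
      edens Ψ + dens (fun x e => ind (LeftOp (clo Ψ t n x) K e)) +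
        vdens (fun x => collapsed (clo Ψ t n x) K) + I := by
    calc _ = edens (fun x => collapsed (clo Ψ t n x) K) + (vdens Ψ + I) := add_assoc _ _ _
      _ ≤ edens (fun x => collapsed (clo Ψ t n x) K) + vdens (fun x => sub (Ψ x) x t n K) := by
          gcongr
      _ ≤ edens (fun x => sub (Ψ x) x t n K) +
          vdens (fun x => collapsed (clo Ψ t n x) K) := h
      _ ≤ (edens Ψ + dens (fun x e => ind (LeftOp (clo Ψ t n x) K e)) + I) +
          vdens (fun x => collapsed (clo Ψ t n x) K) := by gcongr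
      _ = _ := by abel
  exact (ENNReal.add_le_add_iff_right hI).1 h2

end

end Vale.Agent.P189
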