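import Vale.Agent.P189.Collapse
import Vale.Agent.P189.Fold
import Vale.Agent.P189.Used

/-!
Peeling: collapsing deletes exactly one class for each cell that does not remain, it does not raise
the number of nodes, and after enough rounds almost nothing remains, because a family of cells
without a private class would have too few classes.
-/

namespace Vale.Agent.P189

open MeasureTheory Function Filter
open scoped ENNReal unitInterval Topology

variable {p : ℕ} {S0 : Type} [Countable S0]

section pointwise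

variable {Z : Gph (G p) (Fin p × Lbl p S0)}

/-- The cell `a` deletes the class `r` in one of the first `K` rounds. -/
def Deletes (Z : Gph (G p) (Fin p × Lbl p S0)) (K : ℕ) (a r : CEdge p S0) : Prop :=
  ∃ i < K, ∃ k, DelSlot Z i a k ∧ InSlot Z a k r

lemma del_iff {K : ℕ} {r : CEdge p S0} : Del Z K r ↔ ∃ a, Deletes Z K a r :=
  ⟨fun ⟨i, hi, a, k, h⟩ => ⟨a, i, hi, k, h⟩, fun ⟨a, i, hi, k, h⟩ => ⟨i, hi, a, k, h⟩⟩

lemma delSlot_round {i j : ℕ} {a : CEdge p S0} {k l : Fin (p + 1)} (h : DelSlot Z i a k)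
    (h' : DelSlot Z j a l) : i = j := by
  rcases lt_trichotomy i j with hij | hij | hij
  · exact absurd ⟨k, h.2.1.1⟩ (remains_anti (Nat.succ_le_of_lt hij) h'.1).2
  · exact hij
  · exact absurd ⟨l, h'.2.1.1⟩ (remains_anti (Nat.succ_le_of_lt hij) h.1).2

lemma exists_delSlot_round {i : ℕ} {a : CEdge p S0} (h : remains Z i a)
    (h' : ∃ k, Private Z (remains Z i) a k) : ∃ k, DelSlot Z i a k := by
  classical
  have hne : ∃ k, Pref Z i a k := by
    by_cases hpair : i = 0 ∧ ∃ k', PairSlot Z a k'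
    · obtain ⟨rfl, k', hk'⟩ := hpair
      exact ⟨k', hk'.1, fun _ _ => hk'⟩
    · obtain ⟨k, hk⟩ := h'
      exact ⟨k, hk, fun hi hp => absurd ⟨hi, hp⟩ hpair⟩
  have hs : (Finset.univ.filter fun k => Pref Z i a k).Nonempty :=
    ⟨hne.choose, by simpa using hne.choose_spec⟩
  refine ⟨Finset.min' _ hs, h, ?_, fun k' hk' => Finset.min'_le _ _ (by simpa using hk')⟩
  simpa using Finset.min'_mem _ hs

lemma exists_deletes : ∀ {K : ℕ} {a : CEdge p S0}, CellAt Z a → ¬remains Z K a →
    ∃ r, Deletes Z K a r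
  | 0, _, ha, h => absurd ha h
  | K + 1, a, ha, h => by
    by_cases hK : remains Z K a
    · have hpriv : ∃ k, Private Z (remains Z K) a k := by
        by_contra hno
        exact h ⟨hK, hno⟩
      obtain ⟨k, hk⟩ := exists_delSlot_round hK hpriv
      obtain ⟨r, hr, -⟩ := hk.2.1.1
      exact ⟨r, K, Nat.lt_succ_self K, k, hk, hr⟩
    · obtain ⟨r, i, hi, hrest⟩ := exists_deletes ha hK
      exact ⟨r, i, hi.trans (Nat.lt_succ_self K), hrest⟩

lemma deletes_cell {K : ℕ} {a r : CEdge p S0} (h : Deletes Z K a r) : CellAt Z a := by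
  obtain ⟨i, -, k, hk, -⟩ := h
  exact remains_cellAt hk.1

variable {Ψ : Gph (G p) (Fin p × S0)} {x : Lab (G p)} {t : ℕ → ℝ} {n : ℕ}

lemma deletes_class_unique {K : ℕ} {a r r' : CEdge p S0}
    (h : Deletes (stage Ψ x t n).Z K a r) (h' : Deletes (stage Ψ x t n).Z K a r') : r = r' := by
  obtain ⟨i, -, k, hk, hr⟩ := h
  obtain ⟨j, -, l, hl, hr'⟩ := h'
  obtain rfl := delSlot_round hk hl
  obtain rfl := le_antisymm (hk.2.2 l hl.2.1) (hl.2.2 k hk.2.1)
  exact inSlot_unique hr hr'

lemma deletes_cell_unique {K : ℕ} {a a' r : CEdge p S0}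
    (h : Deletes (stage Ψ x t n).Z K a r) (h' : Deletes (stage Ψ x t n).Z K a' r) : a = a' := by
  have key : ∀ {i j : ℕ} {k l : Fin (p + 1)} {a a' : CEdge p S0}, i ≤ j →
      DelSlot (stage Ψ x t n).Z i a k → InSlot (stage Ψ x t n).Z a k r →
      DelSlot (stage Ψ x t n).Z j a' l → InSlot (stage Ψ x t n).Z a' l r → a' = a := by
    intro i j k l a a' hij hk hr hl hr'
    obtain ⟨r₀, hr₀, honly⟩ := hk.2.1.1
    obtain rfl := inSlot_unique hr₀ hr
    exact honly a' (remains_anti hij hl.1) l hr'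
  obtain ⟨i, -, k, hk, hr⟩ := h
  obtain ⟨j, -, l, hl, hr'⟩ := h'
  rcases le_total i j with hij | hij
  · exact (key hij hk hr hl hr').symm
  · exact key hij hl hr' hk hr

/-- A class used by finitely many cells, among the cells remaining for ever, is never private. -/
lemma two_users {a r : CEdge p S0} {k : Fin (p + 1)} (hr : InSlot (stage Ψ x t n).Z a k r)
    (ha : ∀ K, remains (stage Ψ x t n).Z K a)
    (hfin : {a' | CellAt (stage Ψ x t n).Z a' ∧ ∃ k', InSlot (stage Ψ x t n).Z a' k' r}.Finite) :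
    ∃ a', a' ≠ a ∧ (∀ K, remains (stage Ψ x t n).Z K a') ∧
      ∃ k', InSlot (stage Ψ x t n).Z a' k' r := by
  by_contra hno
  have hout : ∀ a' ∈ {a' | CellAt (stage Ψ x t n).Z a' ∧
      ∃ k', InSlot (stage Ψ x t n).Z a' k' r}, a' ≠ a →
        ∀ᶠ K in atTop, ¬remains (stage Ψ x t n).Z K a' := by
    intro a' ha' hne
    obtain ⟨K, hK⟩ : ∃ K, ¬remains (stage Ψ x t n).Z K a' := by
      by_contra hall
      exact hno ⟨a', hne, fun K => not_not.1 fun h => hall ⟨K, h⟩, ha'.2⟩
    exact eventually_atTop.2 ⟨K, fun L hL h => hK (remains_anti hL h)⟩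
  have hev : ∀ᶠ K in atTop, ∀ a' ∈ {a' | CellAt (stage Ψ x t n).Z a' ∧
      ∃ k', InSlot (stage Ψ x t n).Z a' k' r},
        a' ≠ a → ¬remains (stage Ψ x t n).Z K a' :=
    hfin.eventually_all.2 fun a' ha' => by
      by_cases hne : a' = a
      · exact Eventually.of_forall fun _ h => absurd hne h
      · exact (hout a' ha' hne).mono fun _ h _ => h
  obtain ⟨K, hK⟩ := hev.exists
  refine (ha (K + 1)).2 ⟨k, r, hr, fun a' ha' k' hk' => ?_⟩
  by_contra hne
  exact hK a' ⟨remains_cellAt ha', k', hk'⟩ hne ha'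

end pointwise

variable {Ψ : Lab (G p) → Gph (G p) (Fin p × S0)} {t : ℕ → ℝ} {n : ℕ}

lemma measurable_deletes (hZ : IsRG (clo Ψ t n)) (K : ℕ) (a r : CEdge p S0) :
    Measurable fun x => Deletes (clo Ψ t n x) K a r :=
  Measurable.exists fun i => measurable_const.and <| Measurable.exists fun k =>
    (measurable_delSlot hZ i a k).and (measurable_inSlot hZ a k r)

lemma deletes_tr (hZ : IsRG (clo Ψ t n)) (h : G p) (x : Lab (G p)) (K : ℕ) (a r : CEdge p S0) :
    Deletes (clo Ψ t n (sh h x)) K (tr h a) (tr h r) ↔ Deletes (clo Ψ t n x) K a r :=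
  exists_congr fun i => and_congr Iff.rfl <| exists_congr fun k =>
    and_congr (delSlot_tr hZ h x i a k) (inSlot_tr hZ h x a k r)

omit [Countable S0] in
lemma tsum_ind_congr_tr {T : Type} (h : G p) {P P' : G p × T → Prop}
    (hP : ∀ a, P' (tr h a) ↔ P a) : ∑' a, ind (P' a) = ∑' a, ind (P a) := by
  rw [← tsum_tr h fun a => ind (P' a)]
  exact tsum_congr fun a => ind_congr (hP a)

/-- The classes split into kept and deleted ones. -/
lemma edens_quot_eq (hZ : IsRG (clo Ψ t n)) (K : ℕ) :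
    edens (fun x => quot (clo Ψ t n x)) = edens (fun x => collapsed (clo Ψ t n x) K) +
      dens (fun x r => ind (Del (clo Ψ t n x) K r)) := by
  rw [edens, edens, ← dens_add fun e => (collapsed_rg hZ K).eW_weight.meas e]
  congr 1
  funext x e
  simp only [Gph.eW, quot, collapsed, Set.mem_ofPred_eq]
  rcases em (Del (clo Ψ t n x) K e) with h | h
  · have hrep : IsRep (clo Ψ t n x) e := by
      obtain ⟨a, i, hi, k, hk, hr⟩ := del_iff.1 h
      exact hr.rep
    rw [ind_pos hrep, ind_neg (P := IsRep _ e ∧ ¬Del _ K e) (fun hh => hh.2 h), ind_pos h, zero_add]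
  · rw [ind_neg h, add_zero]
    exact (ind_congr ⟨And.left, fun he => ⟨he, h⟩⟩).symm

lemma deletes_kernel (hZ : IsRG (clo Ψ t n)) (K : ℕ) :
    IsKernel fun x a r => ind (Deletes (clo Ψ t n x) K a r) :=
  ⟨fun a r => Measurable.ind (measurable_deletes hZ K a r),
    fun h x a r => ind_congr (deletes_tr hZ h x K a r)⟩

lemma dens_del_le_cellDens (hZ : IsRG (clo Ψ t n)) (K : ℕ) :
    dens (fun x r => ind (Del (clo Ψ t n x) K r)) ≤ cellDens (clo Ψ t n) := by
  refine dens_le_of_kernel (deletes_kernel hZ K).symm (fun x r => ?_) fun x a => ?_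
  · rcases em (Del (clo Ψ t n x) K r) with h | h
    · obtain ⟨a, ha⟩ := del_iff.1 h
      rw [ind_pos h]
      exact one_le_tsum_ind (a := a) ha
    · simp [ind_neg h]
  · rcases em (CellAt (clo Ψ t n x) a) with h | h
    · rw [ind_pos h]
      exact tsum_ind_le_one fun r r' hr hr' => deletes_class_unique hr hr'
    · exact (le_of_eq (ENNReal.tsum_eq_zero.2 fun r => ind_neg fun hd => h (deletes_cell hd))).trans
        zero_le

lemma cellDens_le_del_add_remains (hZ : IsRG (clo Ψ t n)) (K : ℕ) :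
    cellDens (clo Ψ t n) ≤ dens (fun x r => ind (Del (clo Ψ t n x) K r)) +
      dens (fun x a => ind (remains (clo Ψ t n x) K a)) := by
  have hm : ∀ a, Measurable fun x => ind (CellAt (clo Ψ t n x) a ∧ ¬remains (clo Ψ t n x) K a) :=
    fun a => Measurable.ind ((measurable_cellAt hZ a).and (measurable_remains hZ K a).not)
  have h1 : dens (fun x a => ind (CellAt (clo Ψ t n x) a ∧ ¬remains (clo Ψ t n x) K a)) ≤
      dens (fun x r => ind (Del (clo Ψ t n x) K r)) := by
    refine dens_le_of_kernel (deletes_kernel hZ K) (fun x a => ?_) fun x r => ?_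
    · rcases em (CellAt (clo Ψ t n x) a ∧ ¬remains (clo Ψ t n x) K a) with h | h
      · obtain ⟨r, hr⟩ := exists_deletes h.1 h.2
        rw [ind_pos h]
        exact one_le_tsum_ind (a := r) hr
      · simp [ind_neg h]
    · rcases em (Del (clo Ψ t n x) K r) with h | h
      · rw [ind_pos h]
        exact tsum_ind_le_one fun a a' ha ha' => deletes_cell_unique ha ha'
      · exact (le_of_eq (ENNReal.tsum_eq_zero.2 fun a => ind_neg fun hd =>
          h (del_iff.2 ⟨a, hd⟩))).trans zero_le
  refine le_trans ?_ (add_le_add h1 le_rfl)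
  rw [← dens_add hm, cellDens]
  refine dens_mono fun x a => ?_
  rcases em (remains (clo Ψ t n x) K a) with h | h
  · exact le_add_left (ind_mono fun _ => h)
  · exact le_add_right (ind_mono fun hc => ⟨hc, h⟩)

/-- Collapsing removes one class for every cell that does not remain. -/
theorem edens_collapsed_le (hΨ : IsState Ψ) (K : ℕ) :
    edens (fun x => collapsed (clo Ψ t n x) K) + cellDens (clo Ψ t n) ≤
      edens (fun x => quot (clo Ψ t n x)) +
        dens (fun x a => ind (remains (clo Ψ t n x) K a)) := by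
  have hZ := clo_rg hΨ.rg t n
  rw [edens_quot_eq hZ K, add_assoc]
  exact add_le_add le_rfl (cellDens_le_del_add_remains hZ K)

/-- Collapsing removes at most one class for every cell. -/
theorem edens_quot_le (hΨ : IsState Ψ) (K : ℕ) :
    edens (fun x => quot (clo Ψ t n x)) ≤
      edens (fun x => collapsed (clo Ψ t n x) K) + cellDens (clo Ψ t n) := by
  have hZ := clo_rg hΨ.rg t n
  rw [edens_quot_eq hZ K]
  exact add_le_add le_rfl (dens_del_le_cellDens hZ K)

lemma edens_quot_le_clo (t : ℕ → ℝ) (n : ℕ) :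
    edens (fun x => quot (clo Ψ t n x)) ≤ edens (clo Ψ t n) :=
  dens_mono fun _ _ => ind_mono fun he => he.1

/-- Collapsing does not create nodes. -/
theorem vdens_collapsed_le (hΨ : IsState Ψ) (hE : edens (clo Ψ t n) ≠ ∞) (K : ℕ) :
    vdens (fun x => collapsed (clo Ψ t n x) K) ≤ vdens (fun x => quot (clo Ψ t n x)) := by
  have hZ := clo_rg hΨ.rg t n
  have hQ := quot_rg hZ
  have hC := collapsed_rg hZ K
  let kk : Lab (G p) → CEnd p S0 → CEnd p S0 → ℝ≥0∞ := fun x c b =>
    ind ((quot (clo Ψ t n x)).Pres c ∧ (clo Ψ t n x).R c b ∧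
      (collapsed (clo Ψ t n x) K).Pres b) * ((collapsed (clo Ψ t n x) K).cnt b)⁻¹
  have hk : IsKernel kk :=
    ⟨fun c b => (Measurable.ind ((hQ.measPres c).and ((hZ.measR c b).and (hC.measPres b)))).mul
      (hC.measurable_cnt b).inv,
    fun h x c b => congrArg₂ (· * ·) (ind_congr (and_congr (hQ.equivPres h x c)
      (and_congr (hZ.equivR h x c b) (hC.equivPres h x b))))
      (congrArg Inv.inv (hC.cnt_equiv h x b))⟩
  have hout : ∀ x c, ∑' b, kk x c b ≤ ind ((quot (clo Ψ t n x)).Pres c) := by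
    intro x c
    rcases em ((quot (clo Ψ t n x)).Pres c) with hc | hc
    · rw [ind_pos hc]
      calc ∑' b, kk x c b ≤ ∑' b, ind ((collapsed (clo Ψ t n x) K).Pres b ∧
            (collapsed (clo Ψ t n x) K).R c b) * ((collapsed (clo Ψ t n x) K).cnt c)⁻¹ := by
            refine ENNReal.tsum_le_tsum fun b => ?_
            rcases em ((clo Ψ t n x).R c b) with hr | hr
            · simp only [kk]
              rw [hC.cnt_congr (x := x) (a := c) (b := b) hr]
              gcongr
              exact ind_mono fun h => ⟨h.2.2, h.2.1⟩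
            · simp [kk, ind_neg (P := (quot (clo Ψ t n x)).Pres c ∧ (clo Ψ t n x).R c b ∧ _)
                (fun h => hr h.2.1)]
        _ = (collapsed (clo Ψ t n x) K).cnt c * ((collapsed (clo Ψ t n x) K).cnt c)⁻¹ :=
            ENNReal.tsum_mul_right
        _ ≤ 1 := ENNReal.mul_inv_le_one _
    · simp [kk, ind_neg (fun h : (quot (clo Ψ t n x)).Pres c ∧ _ => hc h.1)]
  have hfinite : ∀ᵐ x ∂law (G p), ∀ b, ∑' c, kk x c b < ∞ := by
    refine ae_in_lt_top hk (ne_top_of_le_ne_top ?_ (dens_mono hout))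
    rw [dens_pres hQ]
    exact ENNReal.mul_ne_top ENNReal.ofNat_ne_top
      (ne_top_of_le_ne_top hE (edens_quot_le_clo t n))
  refine dens_le_vdens hC.vW_weight hQ (fun x a b => (clo Ψ t n x).R a b) hZ.measR hZ.equivR
    (Eventually.of_forall fun x a b b' hab hbb => (hZ.eqv x).trans hab hbb)
    (Eventually.of_forall fun x b => hC.tsum_vW_le x
      fun a a' ha ha' => (hZ.eqv x).trans ha ((hZ.eqv x).symm ha')) ?_
  filter_upwards [hfinite] with x hfin a ha
  obtain ⟨hpres, hmk, hcnt⟩ := Gph.vW_ne_zero.1 ha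
  refine ⟨a, (hZ.eqv x).refl a, Gph.vW_ne_zero.2 ⟨hpres.1, hmk, fun htop => ?_⟩⟩
  have h1 : (quot (clo Ψ t n x)).cnt a * ((collapsed (clo Ψ t n x) K).cnt a)⁻¹ ≤
      ∑' c, kk x c a := by
    rw [Gph.cnt, ← ENNReal.tsum_mul_right]
    refine ENNReal.tsum_le_tsum fun c => ?_
    simp only [kk]
    gcongr
    exact ind_mono fun h => ⟨h.1, (hZ.eqv x).symm h.2, hpres⟩
  rw [htop, ENNReal.top_mul (ENNReal.inv_ne_zero.2 hcnt)] at h1
  exact (hfin a).ne (top_le_iff.1 h1)

/-- A dominated sequence of predicates that eventually fails everywhere has densities tending to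
zero. -/
lemma tendsto_dens_zero {H T : Type} [Group H] [Countable T]
    {P : ℕ → Lab H → H × T → Prop} {f : Lab H → H × T → ℝ≥0∞}
    (hPm : ∀ K a, Measurable fun x => P K x a) (hfm : ∀ a, Measurable fun x => f x a)
    (hPf : ∀ K x a, ind (P K x a) ≤ f x a) (hfin : dens f ≠ ∞)
    (hev : ∀ᵐ x ∂law H, ∀ s, ∀ᶠ K in atTop, ¬P K x (1, s)) :
    Tendsto (fun K => dens (fun x a => ind (P K x a))) atTop (𝓝 0) := by
  have hm : Measurable fun x => ∑' s, f x ((1 : H), s) := Measurable.tsum fun s => hfm _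
  have h0 : (0 : ℝ≥0∞) = ∫⁻ _, 0 ∂law H := lintegral_zero.symm
  rw [h0]
  refine tendsto_lintegral_of_dominated_convergence (fun x => ∑' s, f x ((1 : H), s))
    (fun K => Measurable.tsum fun s => Measurable.ind (hPm K _))
    (fun K => Eventually.of_forall fun x => ENNReal.tsum_le_tsum fun s => hPf K x _) hfin ?_
  filter_upwards [hev, ae_lt_top hm hfin] with x hx hlt
  refine ENNReal.tendsto_nhds_zero.2 fun ε hε => ?_
  obtain ⟨s, hs⟩ := ((ENNReal.tendsto_tsum_compl_atTop_zero (f := fun b => f x ((1 : H), b))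
    hlt.ne).eventually (eventually_le_nhds hε)).exists
  filter_upwards [(s.eventually_all).2 fun i _ => hx i] with K hK
  calc ∑' i, ind (P K x ((1 : H), i))
      = ∑' b : ({i | i ∉ s} : Set T), ind (P K x ((1 : H), (b : T))) :=
        (tsum_subtype_eq_of_support_subset (f := fun i => ind (P K x ((1 : H), i))) fun i hi hmem =>
          hi (ind_neg (hK i hmem))).symm
    _ ≤ ∑' b : ({i | i ∉ s} : Set T), f x ((1 : H), (b : T)) :=
        ENNReal.tsum_le_tsum fun b => hPf K x _
    _ ≤ ε := hs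

/-- After enough rounds almost no fresh edge and almost no cell is left. -/
theorem exists_rounds (hΨ : IsState Ψ) (hp : 20 ≤ p) (hE : edens (clo Ψ t n) ≠ ∞)
    (hF : cellDens (clo Ψ t n) ≤ ENNReal.ofReal (Real.exp (-100))) {ε : ℝ≥0∞} (hε : 0 < ε) :
    ∃ K, 1 ≤ K ∧ dens (fun x e => ind (LeftOp (clo Ψ t n x) K e)) ≤ ε ∧
      dens (fun x a => ind (remains (clo Ψ t n x) K a)) ≤ ε := by
  have hZ := clo_rg hΨ.rg t n
  let Pinf : Lab (G p) → CEdge p S0 → Prop := fun x a => ∀ K, remains (clo Ψ t n x) K a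
  have hPm : ∀ a, Measurable fun x => Pinf x a := fun a =>
    Measurable.forall fun K => measurable_remains hZ K a
  have hPe : ∀ h x a, Pinf (sh h x) (tr h a) ↔ Pinf x a := fun h x a =>
    forall_congr' fun K => remains_tr hZ h x K a
  have hPw : IsWeight fun x a => ind (Pinf x a) :=
    ⟨fun a => Measurable.ind (hPm a), fun h x a => ind_congr (hPe h x a)⟩
  have hF' : cellDens (clo Ψ t n) ≠ ∞ := ne_top_of_le_ne_top ENNReal.ofReal_ne_top hF
  have hPle : dens (fun x a => ind (Pinf x a)) ≤ cellDens (clo Ψ t n) :=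
    dens_mono fun x a => ind_mono fun h => remains_cellAt (h 0)
  -- each class has finitely many users
  have hslots : ∀ x (a : CEdge p S0), ∑' r, ind (∃ k, InSlot (clo Ψ t n x) a k r) ≤
      ((p + 1 : ℕ) : ℝ≥0∞) := by
    intro x a
    calc ∑' r, ind (∃ k, InSlot (clo Ψ t n x) a k r)
        ≤ ∑' r, ∑ k, ind (InSlot (clo Ψ t n x) a k r) := by
          refine ENNReal.tsum_le_tsum fun r => ?_
          rcases em (∃ k, InSlot (clo Ψ t n x) a k r) with ⟨k, hk⟩ | h
          · rw [ind_pos ⟨k, hk⟩]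
            exact (ind_pos hk).ge.trans
              (Finset.single_le_sum (f := fun k => ind (InSlot (clo Ψ t n x) a k r))
                (fun _ _ => zero_le) (Finset.mem_univ k))
          · simp [ind_neg h]
      _ = ∑ k, ∑' r, ind (InSlot (clo Ψ t n x) a k r) :=
          Summable.tsum_finsetSum fun _ _ => ENNReal.summable
      _ ≤ ∑ _k : Fin (p + 1), (1 : ℝ≥0∞) :=
          Finset.sum_le_sum fun k _ => tsum_ind_le_one fun r r' h h' => inSlot_unique h h'
      _ = ((p + 1 : ℕ) : ℝ≥0∞) := by simp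
  have hku : ∀ P : Lab (G p) → CEdge p S0 → Prop, (∀ a, Measurable fun x => P x a) →
      (∀ h x a, P (sh h x) (tr h a) ↔ P x a) →
      IsKernel fun x a r => ind (P x a ∧ ∃ k, InSlot (clo Ψ t n x) a k r) := fun P hm he =>
    ⟨fun a r => Measurable.ind ((hm a).and
      (Measurable.exists fun k => measurable_inSlot hZ a k r)),
      fun h x a r => ind_congr (and_congr (he h x a)
        (exists_congr fun k => inSlot_tr hZ h x a k r))⟩
  have houtP : ∀ (P : Lab (G p) → CEdge p S0 → Prop) x a,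
      ∑' r, ind (P x a ∧ ∃ k, InSlot (clo Ψ t n x) a k r) ≤
        ((p + 1 : ℕ) : ℝ≥0∞) * ind (P x a) := by
    intro P x a
    rcases em (P x a) with h | h
    · rw [ind_pos h, mul_one]
      exact (ENNReal.tsum_le_tsum fun r => ind_mono And.right).trans (hslots x a)
    · exact (le_of_eq (ENNReal.tsum_eq_zero.2 fun r => ind_neg fun hh => h hh.1)).trans zero_le
  have hfinUsers : ∀ᵐ x ∂law (G p), ∀ r,
      {a | CellAt (clo Ψ t n x) a ∧ ∃ k, InSlot (clo Ψ t n x) a k r}.Finite := by
    have hk := hku (fun x a => CellAt (clo Ψ t n x) a) (measurable_cellAt hZ)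
      (fun h x a => cellAt_tr hZ h x a)
    have hb : dens (fun x a => ((p + 1 : ℕ) : ℝ≥0∞) * ind (CellAt (clo Ψ t n x) a)) ≠ ∞ := by
      rw [dens_const_mul _ (cellAt_weight hZ).meas]
      exact ENNReal.mul_ne_top (ENNReal.natCast_ne_top _) hF'
    filter_upwards [ae_in_lt_top hk (ne_top_of_le_ne_top hb
      (dens_mono (houtP fun x a => CellAt (clo Ψ t n x) a)))] with x hx r
    refine (ENNReal.finite_const_le_of_tsum_ne_top (hx r).ne one_ne_zero).subset fun a ha => ?_
    exact (ind_pos (P := CellAt (clo Ψ t n x) a ∧ ∃ k, InSlot (clo Ψ t n x) a k r) ha).ge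
  -- the cells that remain for ever have density zero
  have hused := used_expansion hΨ hp hPm hPe (fun x a h => remains_cellAt (h 0)) (hPle.trans hF)
  have h2 : 2 * dens (fun x r => ind (∃ a k, Pinf x a ∧ InSlot (clo Ψ t n x) a k r)) ≤
      ((p + 1 : ℕ) : ℝ≥0∞) * dens (fun x a => ind (Pinf x a)) := by
    have hk := hku Pinf hPm hPe
    rw [← dens_const_mul _ hPw.meas, ← dens_const_mul _ fun r => Measurable.ind
      (Measurable.exists fun a => Measurable.exists fun k =>
        (hPm a).and (measurable_inSlot hZ a k r))]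
    refine dens_le_of_kernel_ae hk.symm ?_ (Eventually.of_forall fun x a => houtP Pinf x a)
    filter_upwards [hfinUsers] with x hfin r
    rcases em (∃ a k, Pinf x a ∧ InSlot (clo Ψ t n x) a k r) with h | h
    · rw [ind_pos h, mul_one]
      obtain ⟨a, k, ha, hr⟩ := h
      obtain ⟨a', hne, ha', k', hr'⟩ := two_users hr ha (hfin r)
      classical
      refine le_trans ?_ (ENNReal.sum_le_tsum {a, a'})
      rw [Finset.sum_pair (Ne.symm hne),
        ind_pos (P := Pinf x a ∧ ∃ k, InSlot (clo Ψ t n x) a k r) ⟨ha, k, hr⟩,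
        ind_pos (P := Pinf x a' ∧ ∃ k, InSlot (clo Ψ t n x) a' k r) ⟨ha', k', hr'⟩, one_add_one_eq_two]
    · rw [ind_neg h, mul_zero]
      exact zero_le
  have hD : dens (fun x a => ind (Pinf x a)) = 0 := by
    by_contra hne
    have hfinD : dens (fun x a => ind (Pinf x a)) ≠ ∞ := ne_top_of_le_ne_top hF' hPle
    have h3 : (2 * ENNReal.ofReal (9/10*p)) * dens (fun x a => ind (Pinf x a)) ≤
        ((p + 1 : ℕ) : ℝ≥0∞) * dens (fun x a => ind (Pinf x a)) := by
      rw [mul_assoc]
      exact le_trans (by gcongr) h2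
    have h4 := (ENNReal.mul_le_mul_iff_left hne hfinD).1 h3
    rw [show (2 : ℝ≥0∞) = ENNReal.ofReal 2 by simp, ← ENNReal.ofReal_mul two_pos.le,
      ← ENNReal.ofReal_natCast, ENNReal.ofReal_le_ofReal_iff (by positivity)] at h4
    have : (20 : ℝ) ≤ p := by exact_mod_cast hp
    push_cast at h4
    linarith
  have hnone : ∀ᵐ x ∂law (G p), ∀ a, ¬Pinf x a := by
    have hw : IsWeight fun x a => (∞ : ℝ≥0∞) * ind (Pinf x a) :=
      ⟨fun a => (Measurable.ind (hPm a)).const_mul _, fun h x a => by rw [ind_congr (hPe h x a)]⟩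
    filter_upwards [ae_forall_of_dens hw
      (by rw [dens_const_mul _ hPw.meas, hD, mul_zero]; exact ENNReal.zero_ne_top)] with x hx a ha
    refine (lt_of_le_of_lt (ENNReal.le_tsum a.2) (hx a.1)).ne ?_
    rw [ind_pos (P := Pinf x (a.1, a.2)) ha, mul_one]
  -- hence almost nothing is left
  have hL : Tendsto (fun K => dens (fun x e => ind (LeftOp (clo Ψ t n x) K e))) atTop (𝓝 0) := by
    refine tendsto_dens_zero (fun K e => measurable_leftOp hZ K e)
      (fun e => hZ.eW_weight.meas e)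
      (fun K x e => ind_mono fun ⟨a, ha, _⟩ => by obtain ⟨_, _, _, he, -⟩ := ha; exact he) hE ?_
    filter_upwards [hnone] with x hx s
    rcases em (∃ K, ¬LeftOp (clo Ψ t n x) K (1, s)) with ⟨K, hK⟩ | hall
    · exact eventually_atTop.2 ⟨K, fun L hL ⟨a, ha, hr⟩ => hK ⟨a, ha, remains_anti hL hr⟩⟩
    · obtain ⟨a, ha, -⟩ := not_not.1 fun h => hall ⟨0, h⟩
      refine absurd (fun K => ?_) (hx a)
      obtain ⟨a', ha', hr⟩ := not_not.1 fun h => hall ⟨K, h⟩
      rwa [OpOf.unique ha ha']
  have hRle : ∀ K, dens (fun x a => ind (remains (clo Ψ t n x) K a)) ≤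
      dens (fun x e => ind (LeftOp (clo Ψ t n x) K e)) := by
    intro K
    have hk : IsKernel fun x a e =>
        ind (remains (clo Ψ t n x) K a ∧ OpOf (clo Ψ t n x) a e) :=
      ⟨fun a e => Measurable.ind ((measurable_remains hZ K a).and (measurable_opOf hZ a e)),
        fun h x a e => ind_congr (and_congr (remains_tr hZ h x K a) (opOf_tr hZ h x a e))⟩
    refine dens_le_of_kernel hk (fun x a => ?_) fun x e => ?_
    · rcases em (remains (clo Ψ t n x) K a) with h | h
      · obtain ⟨e, he⟩ := remains_cellAt h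
        rw [ind_pos h]
        exact one_le_tsum_ind (a := e) ⟨h, he⟩
      · simp [ind_neg h]
    · rcases em (LeftOp (clo Ψ t n x) K e) with h | h
      · rw [ind_pos h]
        exact tsum_ind_le_one fun a a' ha ha' => OpOf.unique ha.2 ha'.2
      · exact (le_of_eq (ENNReal.tsum_eq_zero.2 fun a => ind_neg fun hh =>
          h ⟨a, hh.2, hh.1⟩)).trans zero_le
  obtain ⟨K, hK, hK1⟩ :=
    ((hL.eventually (eventually_le_nhds hε)).and (eventually_ge_atTop 1)).exists
  exact ⟨K, hK1, hK, (hRle K).trans hK⟩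

end Vale.Agent.P189
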