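import Vale.Agent.P189.State

/-!
Pruning: a state minus its edges at unmarked nodes of degree one is again a state of no larger
cost, and shorter by the density of those edges.
-/

namespace Vale.Agent.P189

open MeasureTheory Function Filter
open scoped ENNReal unitInterval

namespace Pruning

variable {H S : Type}

/-- The other end of the same edge. -/
def opp (a : End H S) : End H S := en (edge a) (!side a)

lemma edge_opp (a : End H S) : edge (opp a) = edge a := rfl

lemma opp_opp (a : End H S) : opp (opp a) = a := by simp [opp]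

lemma eq_or_eq_opp {a b : End H S} (h : edge a = edge b) : b = a ∨ b = opp a := by
  rcases Bool.eq_or_eq_not (side b) (side a) with hs | hs
  · left; rw [← en_edge_side a, ← en_edge_side b, h, hs]
  · right; rw [opp, ← en_edge_side b, h, hs]

/-- The graph without its leaf edges. -/
def pruneG (G : Gph H S) : Gph H S := ⟨{e | e ∈ G.E ∧ ¬G.LeafE e}, G.R, G.Mk⟩

lemma pres_pruneG {G : Gph H S} {a : End H S} (h : (pruneG G).Pres a) : G.Pres a := h.1

lemma leafEnd_unique {G : Gph H S} (hG : Equivalence G.R) {a b : End H S} (ha : G.LeafEnd a)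
    (hb : G.Pres b) (hab : G.R a b) : b = a := by
  classical
  by_contra hne
  have h2 : (2 : ℝ≥0∞) ≤ G.cnt a := by
    refine le_trans ?_ (ENNReal.sum_le_tsum {a, b})
    rw [Finset.sum_pair (Ne.symm hne), ind_pos ⟨ha.1, hG.refl a⟩, ind_pos ⟨hb, hab⟩, one_add_one_eq_two]
  rw [ha.2.2] at h2
  norm_num at h2

open Classical in
/-- The end whose node keeps an edge. -/
noncomputable def core (G : Gph H S) (a : End H S) : End H S :=
  if G.LeafEnd a then opp a else a

lemma core_leaf {G : Gph H S} {a : End H S} (h : G.LeafEnd a) : core G a = opp a := by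
  classical
  exact if_pos h

lemma core_not_leaf {G : Gph H S} {a : End H S} (h : ¬G.LeafEnd a) : core G a = a := by
  classical
  exact if_neg h

lemma link_step {G : Gph H S} {P : End H S → Prop}
    (hP : ∀ a b, G.Pres a → G.Pres b → (G.R a b ∨ edge a = edge b) → (P a ↔ P b))
    {a b : End H S} (h : G.Link a b) (ha : P a) : P b := by
  suffices key : P a ↔ P b from key.1 ha
  clear ha
  induction h with
  | rel u v huv => exact hP u v huv.1 huv.2.1 huv.2.2
  | refl => exact Iff.rfl
  | symm _ _ _ ih => exact ih.symm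
  | trans _ _ _ _ _ ih₁ ih₂ => exact ih₁.trans ih₂

variable {p : ℕ} {S0 : Type}

lemma ipos_ne (hp : 3 ≤ p) (y : G p × Fin p) : ipos y false ≠ ipos y true := by
  rw [ipos_false, ipos_true]
  intro h
  exact lamp_ne_one hp _ (mul_eq_left.1 h.symm)

variable {K : Gph (G p) (Fin p × S0)} (hR : Equivalence K.R)
  (hmkc : ∀ a b, K.R a b → K.Mk a → K.Mk b)
  (hpos : ∀ a b, K.Pres a → K.Pres b → K.R a b → pos a = pos b)
  (hconn : ∀ a b, K.Pres a → K.Pres b → K.Link a b)
  (hmarked : ∀ n : N p, ∃ a, K.Pres a ∧ K.Mk a ∧ pos a = n)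

include hR hconn hmarked in
/-- An edge has at most one leaf end. -/
lemma not_leaf_opp {a : End (G p) (Fin p × S0)} (ha : K.LeafEnd a) : ¬K.LeafEnd (opp a) := by
  intro hb
  obtain ⟨m, hm, hmk, -⟩ := hmarked 1
  have hP : ∀ u v, K.Pres u → K.Pres v → (K.R u v ∨ edge u = edge v) →
      ((u = a ∨ u = opp a) ↔ (v = a ∨ v = opp a)) := by
    have : ∀ u v, K.Pres v → (K.R u v ∨ edge u = edge v) → (u = a ∨ u = opp a) →
        (v = a ∨ v = opp a) := by
      rintro u v hv (huv | huv) (rfl | rfl)
      · exact Or.inl (leafEnd_unique hR ha hv huv)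
      · exact Or.inr (leafEnd_unique hR hb hv huv)
      · exact eq_or_eq_opp huv
      · rw [edge_opp] at huv; exact eq_or_eq_opp huv
    exact fun u v hu hv huv => ⟨this u v hv huv,
      this v u hu (huv.imp (fun h => hR.symm h) Eq.symm)⟩
  rcases link_step hP (hconn a m ha.1 hm) (Or.inl rfl) with rfl | rfl
  · exact ha.2.1 hmk
  · exact hb.2.1 hmk

include hR hpos hconn hmarked in
/-- A node with a present end that is not a leaf keeps an edge. -/
lemma exists_survivor (hp : 3 ≤ p) {a : End (G p) (Fin p × S0)} (ha : K.Pres a)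
    (hl : ¬K.LeafEnd a) : ∃ c, (pruneG K).Pres c ∧ K.R a c := by
  by_contra hno
  have hopp : ∀ c, K.Pres c → K.R a c → K.LeafEnd (opp c) := by
    intro c hc hac
    have hle : K.LeafE (edge c) := by
      by_contra hle
      exact hno ⟨c, ⟨hc, hle⟩, hac⟩
    obtain ⟨-, b, hb⟩ := hle
    rcases eq_or_eq_opp (a := c) (b := en (edge c) b) rfl with h | h
    · rw [h] at hb
      exact absurd (leafEnd_unique hR hb ha (hR.symm hac) ▸ hb) hl
    · rwa [h] at hb
  have hP : ∀ u v, K.Pres u → K.Pres v → (K.R u v ∨ edge u = edge v) →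
      ((K.R a u ∨ K.R a (opp u)) ↔ (K.R a v ∨ K.R a (opp v))) := by
    have : ∀ u v, K.Pres u → K.Pres v → (K.R u v ∨ edge u = edge v) →
        (K.R a u ∨ K.R a (opp u)) → (K.R a v ∨ K.R a (opp v)) := by
      intro u v hu hv huv hau
      rcases huv with huv | huv
      · rcases hau with hau | hau
        · exact Or.inl (hR.trans hau huv)
        · have hl' := hopp (opp u) (by unfold Gph.Pres; rw [edge_opp]; exact hu) hau
          rw [opp_opp] at hl'
          rw [leafEnd_unique hR hl' hv huv]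
          exact Or.inr hau
      · rcases eq_or_eq_opp huv with rfl | rfl
        · exact hau
        · rw [opp_opp]; exact hau.symm
    exact fun u v hu hv huv => ⟨this u v hu hv huv,
      this v u hv hu (huv.imp (fun h => hR.symm h) Eq.symm)⟩
  have hat : ∀ n : N p, n = pos a := by
    intro n
    obtain ⟨m, hm, hmk, rfl⟩ := hmarked n
    rcases link_step hP (hconn a m ha hm) (Or.inl (hR.refl a)) with h | h
    · exact (hpos a m ha hm h).symm
    · have := hopp (opp m) (by unfold Gph.Pres; rw [edge_opp]; exact hm) h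
      rw [opp_opp] at this
      exact absurd hmk this.2.1
  exact lamp_ne_one hp ((⟨0, by omega⟩ : Fin p), 1) ((hat _).trans (hat 1).symm)

include hR hconn hmarked in
lemma not_leaf_core {a : End (G p) (Fin p × S0)} : ¬K.LeafEnd (core K a) := by
  rcases em (K.LeafEnd a) with h | h
  · rw [core_leaf h]; exact not_leaf_opp hR hconn hmarked h
  · rwa [core_not_leaf h]

lemma pres_core {a : End (G p) (Fin p × S0)} (ha : K.Pres a) : K.Pres (core K a) := by
  rcases em (K.LeafEnd a) with h | h
  · rw [core_leaf h]; unfold Gph.Pres; rw [edge_opp]; exact ha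
  · rwa [core_not_leaf h]

include hR hpos hconn hmarked in
lemma exists_rep (hp : 3 ≤ p) {a : End (G p) (Fin p × S0)} (ha : K.Pres a) :
    ∃ c, (pruneG K).Pres c ∧ K.R (core K a) c :=
  exists_survivor hR hpos hconn hmarked hp (pres_core ha) (not_leaf_core hR hconn hmarked)

include hR hpos hconn hmarked in
/-- Walks descend to the pruned graph. -/
lemma link_prune (hp : 3 ≤ p) {a b : End (G p) (Fin p × S0)} (h : K.Link a b) :
    (K.Pres a ↔ K.Pres b) ∧ (K.Pres a → ∀ c d, (pruneG K).Pres c → K.R (core K a) c →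
      (pruneG K).Pres d → K.R (core K b) d → (pruneG K).Link c d) := by
  induction h with
  | rel u v huv =>
    obtain ⟨hu, hv, huv⟩ := huv
    refine ⟨iff_of_true hu hv, fun _ c d hc huc hd hvd => ?_⟩
    have same : K.R (core K u) (core K v) → (pruneG K).Link c d := fun hh =>
      Relation.EqvGen.rel _ _ ⟨hc, hd, Or.inl (hR.trans (hR.symm huc) (hR.trans hh hvd))⟩
    rcases huv with huv | huv
    · apply same
      rcases em (K.LeafEnd u) with hlu | hlu
      · rw [leafEnd_unique hR hlu hv huv]; exact hR.refl _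
      · rcases em (K.LeafEnd v) with hlv | hlv
        · exact absurd (leafEnd_unique hR hlv hu (hR.symm huv) ▸ hlv) hlu
        · rwa [core_not_leaf hlu, core_not_leaf hlv]
    · rcases eq_or_eq_opp huv with rfl | rfl
      · exact same (hR.refl _)
      rcases em (K.LeafEnd u) with hlu | hlu
      · apply same
        rw [core_leaf hlu, core_not_leaf (not_leaf_opp hR hconn hmarked hlu)]
        exact hR.refl _
      rcases em (K.LeafEnd (opp u)) with hlv | hlv
      · apply same
        rw [core_leaf hlv, core_not_leaf hlu, opp_opp]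
        exact hR.refl _
      · have hsurv : edge u ∈ (pruneG K).E := by
          refine ⟨hu, fun hle => ?_⟩
          obtain ⟨-, s, hs⟩ := hle
          rcases eq_or_eq_opp (a := u) (b := en (edge u) s) rfl with h | h <;> rw [h] at hs
          · exact hlu hs
          · exact hlv hs
        rw [core_not_leaf hlu] at huc
        rw [core_not_leaf hlv] at hvd
        refine Relation.EqvGen.trans _ u _ (Relation.EqvGen.rel _ _
          ⟨hc, hsurv, Or.inl (hR.symm huc)⟩) (Relation.EqvGen.trans _ (opp u) _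
            (Relation.EqvGen.rel _ _ ⟨hsurv, hsurv, Or.inr rfl⟩)
            (Relation.EqvGen.rel _ _ ⟨hsurv, hd, Or.inl hvd⟩))
  | refl u =>
    exact ⟨Iff.rfl, fun _ c d hc huc hd hud =>
      Relation.EqvGen.rel _ _ ⟨hc, hd, Or.inl (hR.trans (hR.symm huc) hud)⟩⟩
  | symm u v _ ih =>
    exact ⟨ih.1.symm, fun hv c d hc hvc hd hud =>
      Relation.EqvGen.symm _ _ (ih.2 (ih.1.2 hv) d c hd hud hc hvc)⟩
  | trans u v w _ _ ih₁ ih₂ =>
    refine ⟨ih₁.1.trans ih₂.1, fun hu c d hc huc hd hwd => ?_⟩
    obtain ⟨e, he, hve⟩ := exists_rep hR hpos hconn hmarked hp (ih₁.1.1 hu)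
    exact Relation.EqvGen.trans _ e _ (ih₁.2 hu c e hc huc he hve)
      (ih₂.2 (ih₁.1.1 hu) e d he hve hd hwd)

lemma core_of_survivor {a : End (G p) (Fin p × S0)} (ha : (pruneG K).Pres a) : core K a = a :=
  core_not_leaf fun hl => ha.2 ⟨ha.1, side a, by rw [en_edge_side]; exact hl⟩

end Pruning

open Pruning

section main

variable {p : ℕ} {S0 : Type} [Countable S0] {Γ : Lab (G p) → Gph (G p) (Fin p × S0)}

lemma measurable_leafEnd (hΓ : IsRG Γ) (a : End (G p) (Fin p × S0)) :
    Measurable fun x => (Γ x).LeafEnd a :=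
  (hΓ.measPres a).and ((hΓ.measMk a).not.and
    (measurableSet_setOfPred.1 (measurableSet_eq_fun (hΓ.measurable_cnt a) measurable_const)))

omit [Countable S0] in
lemma leafEnd_equiv (hΓ : IsRG Γ) (h : G p) (x : Lab (G p)) (a : End (G p) (Fin p × S0)) :
    (Γ (sh h x)).LeafEnd (tr h a) ↔ (Γ x).LeafEnd a :=
  and_congr (hΓ.equivPres h x a) (and_congr (not_congr (hΓ.equivMk h x a))
    (by rw [hΓ.cnt_equiv h x a]))

omit [Countable S0] in
lemma leafE_equiv (hΓ : IsRG Γ) (h : G p) (x : Lab (G p)) (e : G p × (Fin p × S0)) :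
    (Γ (sh h x)).LeafE (tr h e) ↔ (Γ x).LeafE e :=
  and_congr (hΓ.equivE h x e) (exists_congr fun b => by
    rw [← tr_en]; exact leafEnd_equiv hΓ h x _)

lemma isRG_prune (hΓ : IsRG Γ) : IsRG fun x => pruneG (Γ x) where
  measE e := (hΓ.measE e).and ((hΓ.measE e).and
    (Measurable.exists fun b => measurable_leafEnd hΓ _)).not
  measR := hΓ.measR
  measMk := hΓ.measMk
  equivE h x e := and_congr (hΓ.equivE h x e) (not_congr (leafE_equiv hΓ h x e))
  equivR := hΓ.equivR
  equivMk := hΓ.equivMk
  eqv := hΓ.eqv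
  mk_congr := hΓ.mk_congr

theorem isState_prune (hp : 3 ≤ p) (hΓ : IsState Γ) : IsState fun x => pruneG (Γ x) where
  rg := isRG_prune hΓ.rg
  pos_eq := hΓ.pos_eq.mono fun x hx a b ha hb => hx a b ha.1 hb.1
  mark_eq := hΓ.mark_eq.mono fun x hx a b ha hb => hx a b ha.1 hb.1
  conn := by
    filter_upwards [hΓ.pos_eq, hΓ.conn, hΓ.marked] with x hpos hconn hmk a b ha hb
    refine (link_prune (hΓ.rg.eqv x) hpos hconn hmk hp (hconn a b ha.1 hb.1)).2 ha.1 a b ha ?_ hb ?_
    · rw [core_of_survivor ha]; exact (hΓ.rg.eqv x).refl a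
    · rw [core_of_survivor hb]; exact (hΓ.rg.eqv x).refl b
  marked := by
    filter_upwards [hΓ.pos_eq, hΓ.conn, hΓ.marked] with x hpos hconn hmk n
    obtain ⟨a, ha, ham, rfl⟩ := hmk n
    obtain ⟨c, hc, hac⟩ :=
      exists_survivor (hΓ.rg.eqv x) hpos hconn hmk hp ha (fun hl => hl.2.1 ham)
    exact ⟨c, hc, hΓ.rg.mk_congr x a c hac ham, (hpos a c ha hc.1 hac).symm⟩

/-- A state without its leaf edges is shorter by their density at no higher cost. -/
theorem prune_le (hp : 3 ≤ p) {c : ℝ≥0∞} (hΓ : IsState Γ) (hfin : edens Γ ≠ ∞)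
    (hc : edens Γ ≤ c + vdens Γ) :
    mlen p c + dens (fun x e => ind ((Γ x).LeafE e)) ≤ edens Γ := by
  have hrg := hΓ.rg
  have hrg' := isRG_prune hrg
  have hLm : ∀ e, Measurable fun x => ind ((Γ x).LeafE e) := fun e => Measurable.ind
    ((hrg.measE e).and (Measurable.exists fun b => measurable_leafEnd hrg _))
  have hsplit : dens (fun x e => ind ((Γ x).LeafE e)) + edens (fun x => pruneG (Γ x)) =
      edens Γ := by
    rw [edens, edens, ← dens_add hLm]
    congr 1
    funext x e
    simp only [Gph.eW, pruneG, Set.mem_ofPred_eq]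
    rcases em ((Γ x).LeafE e) with h | h
    · rw [ind_pos h, ind_neg (P := e ∈ (Γ x).E ∧ ¬(Γ x).LeafE e) (fun hh => hh.2 h), ind_pos h.1,
        add_zero]
    · rw [ind_neg h, zero_add]
      exact ind_congr ⟨And.left, fun he => ⟨he, h⟩⟩
  have hLfin : dens (fun x e => ind ((Γ x).LeafE e)) ≠ ∞ :=
    ne_top_of_le_ne_top hfin (le_self_add.trans hsplit.le)
  let fL : Lab (G p) → End (G p) (Fin p × S0) → ℝ≥0∞ := fun x a => ind ((Γ x).LeafEnd a)
  let fN : Lab (G p) → End (G p) (Fin p × S0) → ℝ≥0∞ :=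
    fun x a => ind (¬(Γ x).LeafEnd a) * (Γ x).vW a
  have hfN : IsWeight fN :=
    ⟨fun a => (Measurable.ind (measurable_leafEnd hrg a).not).mul (hrg.vW_weight.meas a),
      fun h x a => congrArg₂ (· * ·) (ind_congr (not_congr (leafEnd_equiv hrg h x a)))
        (hrg.vW_weight.equiv h x a)⟩
  have h1 : dens fN ≤ vdens fun x => pruneG (Γ x) := by
    refine dens_le_vdens hfN hrg' (fun x a b => (Γ x).R a b) hrg.measR hrg.equivR
      (Eventually.of_forall fun x a b b' hab hbb => (hrg.eqv x).trans hab hbb) ?_ ?_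
    · refine Eventually.of_forall fun x b => le_trans (ENNReal.tsum_le_tsum fun a => ?_)
        (hrg.tsum_vW_le x (P := fun a => (Γ x).R a b)
          fun a a' ha ha' => (hrg.eqv x).trans ha ((hrg.eqv x).symm ha'))
      simp only [fN]
      calc ind ((Γ x).R a b) * (ind (¬(Γ x).LeafEnd a) * (Γ x).vW a)
          ≤ ind ((Γ x).R a b) * (1 * (Γ x).vW a) := by gcongr; exact ind_le_one _
        _ = _ := by rw [one_mul]
    · filter_upwards [hΓ.pos_eq, hΓ.conn, hΓ.marked] with x hpos hconn hmk a ha
      obtain ⟨hl, hv⟩ := mul_ne_zero_iff.1 ha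
      obtain ⟨hpr, hnm, hcnt⟩ := Gph.vW_ne_zero.1 hv
      obtain ⟨c', hc', hac⟩ :=
        exists_survivor (hrg.eqv x) hpos hconn hmk hp hpr (ind_ne_zero.1 hl)
      refine ⟨c', hac, Gph.vW_ne_zero.2 ⟨hc', fun hm => hnm
        (hrg.mk_congr x c' a ((hrg.eqv x).symm hac) hm), ?_⟩⟩
      refine ne_top_of_le_ne_top hcnt ?_
      rw [hrg.cnt_congr hac]
      exact ENNReal.tsum_le_tsum fun b => ind_mono fun hb => ⟨hb.1.1, hb.2⟩
  have h2 : dens fL ≤ dens (fun x e => ind ((Γ x).LeafE e)) := by
    have hk : IsKernel fun x (a : End (G p) (Fin p × S0)) (e : G p × (Fin p × S0)) =>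
        ind ((Γ x).LeafEnd a ∧ edge a = e) :=
      ⟨fun a e => Measurable.ind ((measurable_leafEnd hrg a).and measurable_const),
        fun h x a e => ind_congr (and_congr (leafEnd_equiv hrg h x a) (by simp [tr, edge, Prod.ext_iff]))⟩
    refine dens_le_of_kernel_ae hk (Eventually.of_forall fun x a => ?_) ?_
    · rcases em ((Γ x).LeafEnd a) with h | h
      · simp only [fL, ind_pos h]; exact one_le_tsum_ind (a := edge a) ⟨h, rfl⟩
      · simp [fL, ind_neg h]
    · filter_upwards [hΓ.conn, hΓ.marked] with x hconn hmk e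
      rcases em ((Γ x).LeafE e) with he | he
      · rw [ind_pos he]
        refine tsum_ind_le_one fun a a' ha ha' => ?_
        rcases eq_or_eq_opp (ha.2.trans ha'.2.symm) with h | h
        · exact h.symm
        · exact absurd (h ▸ ha'.1) (not_leaf_opp (hrg.eqv x) hconn hmk ha.1)
      · refine (le_of_eq (ENNReal.tsum_eq_zero.2 fun a => ind_neg fun hc => he ?_)).trans zero_le
        obtain ⟨hl, rfl⟩ := hc
        exact ⟨hl.1, side a, by rw [en_edge_side]; exact hl⟩
  have hvd : vdens Γ ≤
      vdens (fun x => pruneG (Γ x)) + dens (fun x e => ind ((Γ x).LeafE e)) := by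
    refine le_trans ?_ (add_le_add h1 h2)
    rw [← dens_add hfN.meas]
    refine dens_mono fun x a => ?_
    rcases em ((Γ x).LeafEnd a) with h | h
    · refine le_add_left (le_of_eq ?_)
      simp only [fL, ind_pos h, Gph.vW,
        ind_pos (P := (Γ x).Pres a ∧ ¬(Γ x).Mk a) ⟨h.1, h.2.1⟩, h.2.2, inv_one, mul_one]
    · refine le_add_right (le_of_eq ?_)
      simp only [fN, ind_pos h, one_mul]
  have hcost : edens (fun x => pruneG (Γ x)) ≤ c + vdens (fun x => pruneG (Γ x)) := by
    refine (ENNReal.add_le_add_iff_left hLfin).1 ?_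
    rw [hsplit]
    refine (hc.trans (add_le_add le_rfl hvd)).trans (le_of_eq ?_)
    ring
  calc mlen p c + dens (fun x e => ind ((Γ x).LeafE e))
      ≤ edens (fun x => pruneG (Γ x)) + dens (fun x e => ind ((Γ x).LeafE e)) :=
        add_le_add (mlen_le (isState_prune hp hΓ) hcost) le_rfl
    _ = edens Γ := by rw [add_comm]; exact hsplit

end main

end Vale.Agent.P189
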