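import Vale.Agent.P189.Lift
import Vale.Agent.P189.CollapsedState
import Vale.Agent.P189.Complete
import Vale.Agent.P189.Stop
import Vale.Agent.P189.Peel
import Vale.Agent.P189.Gain
import Vale.Agent.P189.Prune
import Vale.Agent.P189.Initial

/-!
The lower bound: for the large parameter every state of cost at most seven can be shortened by a
fixed amount at an arbitrarily small rise of cost, so no finite family of arcs of total measure at
most six connects the Bernoulli orbits.
-/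

namespace Vale.Agent.P189

open MeasureTheory
open scoped ENNReal

/-- The parameter of the counterexample. -/
noncomputable def bigP : ℕ := ⌈1000 * Real.exp 100⌉₊

lemma le_bigP : 1000 * Real.exp 100 ≤ (bigP : ℝ) := Nat.le_ceil _

lemma twenty_le_bigP : 20 ≤ bigP := by
  have h1 : (1 : ℝ) ≤ Real.exp 100 := Real.one_le_exp (by norm_num)
  have h2 := le_bigP
  exact_mod_cast show (20 : ℝ) ≤ bigP by linarith

lemma vdens_ne_top {p : ℕ} {S0 : Type} [Countable S0]
    {Ψ : Lab (G p) → Gph (G p) (Fin p × S0)} (hΨ : IsRG Ψ) (h : edens Ψ ≠ ∞) :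
    vdens Ψ ≠ ∞ := by
  have hle : vdens Ψ ≤ dens (fun x a => ind ((Ψ x).Pres a)) := by
    refine dens_mono fun x a => ?_
    rcases em ((Ψ x).Pres a) with ha | ha
    · rw [ind_pos ha, Gph.vW]
      exact mul_le_one' (ind_le_one _) (ENNReal.inv_le_one.2
        (one_le_tsum_ind (a := a) ⟨ha, (hΨ.eqv x).refl a⟩))
    · simp [Gph.vW, ind_neg (P := (Ψ x).Pres a ∧ ¬(Ψ x).Mk a) fun hc => ha hc.1]
  rw [dens_pres hΨ] at hle
  exact ne_top_of_le_ne_top (ENNReal.mul_ne_top ENNReal.ofNat_ne_top h) hle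

/-- The arithmetic of the gain. -/
lemma gain_numeric {p : ℕ} (hp : 20 ≤ p) (hbig : 1000 * Real.exp 100 ≤ (p : ℝ))
    {F LG c' : ℝ≥0∞} (hF : ENNReal.ofReal (Real.exp (-100) / 2) ≤ F)
    (hF1 : F ≤ ENNReal.ofReal (Real.exp (-100))) (hc : c' ≤ 9)
    (h : 2 * ENNReal.ofReal (9 / 10 * p) * F ≤
      ((p : ℝ≥0∞) + 1) * F + ((p : ℝ≥0∞) + 1) * LG + 3 * c') :
    ENNReal.ofReal (1 / (p + 1)) ≤ LG := by
  rcases eq_or_ne LG ∞ with hL | hL
  · simp [hL]
  have hFt : F ≠ ∞ := ne_top_of_le_ne_top ENNReal.ofReal_ne_top hF1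
  have hct : c' ≠ ∞ := ne_top_of_le_ne_top ENNReal.ofNat_ne_top hc
  rw [← ENNReal.ofReal_toReal hFt] at hF h
  rw [← ENNReal.ofReal_toReal hL] at h ⊢
  rw [← ENNReal.ofReal_toReal hct] at h hc
  rw [show (9 : ℝ≥0∞) = ENNReal.ofReal 9 by simp,
    ENNReal.ofReal_le_ofReal_iff (by norm_num)] at hc
  rw [show (2 : ℝ≥0∞) = ENNReal.ofReal 2 by simp, show (3 : ℝ≥0∞) = ENNReal.ofReal 3 by simp,
    show (p : ℝ≥0∞) + 1 = ENNReal.ofReal ((p : ℝ) + 1) by
      rw [ENNReal.ofReal_add (by positivity) zero_le_one, ENNReal.ofReal_natCast, ENNReal.ofReal_one],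
    ← ENNReal.ofReal_mul two_pos.le, ← ENNReal.ofReal_mul (by positivity),
    ← ENNReal.ofReal_mul (by positivity), ← ENNReal.ofReal_mul (by positivity),
    ← ENNReal.ofReal_mul (by positivity), ← ENNReal.ofReal_add (by positivity) (by positivity),
    ← ENNReal.ofReal_add (by positivity) (by positivity),
    ENNReal.ofReal_le_ofReal_iff (by positivity)] at h
  rw [ENNReal.ofReal_le_ofReal_iff ENNReal.toReal_nonneg] at hF ⊢
  have hd : 1000 ≤ (p : ℝ) * Real.exp (-100) := by
    have he : Real.exp 100 * Real.exp (-100) = 1 := by rw [← Real.exp_add]; simp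
    calc (1000 : ℝ) = 1000 * Real.exp 100 * Real.exp (-100) := by rw [mul_assoc, he, mul_one]
      _ ≤ (p : ℝ) * Real.exp (-100) := mul_le_mul_of_nonneg_right hbig (Real.exp_nonneg _)
  have hp' : (20 : ℝ) ≤ p := by exact_mod_cast hp
  rw [div_le_iff₀ (by positivity)]
  nlinarith [mul_le_mul_of_nonneg_left hF (show (0 : ℝ) ≤ 0.8 * p - 1 by linarith)]

/-- States of cost at most seven have a constant gain. -/
theorem hasStep_bigP : HasStep bigP (1 / ((bigP : ℝ) + 1)) := by
  intro S0 _ Ψ c ε hΨ hc0 hc7 hε hε1 hcost hLfin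
  have hp20 := twenty_le_bigP
  have hp3 : 3 ≤ bigP := by omega
  obtain ⟨t, n, hstop⟩ := exists_stop hΨ hLfin (δ := Real.exp (-100) / 2) (by positivity)
    (exists_marked_stage hp3 hΨ)
  have hhalf : 2 * ENNReal.ofReal (Real.exp (-100) / 2) = ENNReal.ofReal (Real.exp (-100)) := by
    rw [show (2 : ℝ≥0∞) = ENNReal.ofReal 2 by simp, ← ENNReal.ofReal_mul two_pos.le]
    congr 1; ring
  have hF : cellDens (clo Ψ t n) ≤ ENNReal.ofReal (Real.exp (-100)) := by
    rcases hstop with ⟨-, h⟩ | ⟨h, -⟩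
    · exact h.trans hhalf.le
    · exact h.trans (ENNReal.ofReal_le_ofReal (by linarith [Real.exp_pos (-100)]))
  have hFfin : cellDens (clo Ψ t n) ≠ ∞ := ne_top_of_le_ne_top ENNReal.ofReal_ne_top hF
  have hE := edens_clo_ne_top hΨ hLfin t n
  obtain ⟨K, hK1, hleft, hrem⟩ :=
    exists_rounds hΨ hp20 hE hF (ε := ENNReal.ofReal ε) (ENNReal.ofReal_pos.2 hε)
  set Γ := fun x => collapsed (clo Ψ t n x) K with hΓ
  set Q := fun x => quot (clo Ψ t n x) with hQ
  have hΓs : IsState Γ := isState_collapsed hΨ t n K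
  -- the cost of the collapsed state
  have hΓc : edens Γ ≤ ENNReal.ofReal (c + ε) + vdens Γ := by
    rw [ENNReal.ofReal_add hc0 hε.le]
    refine (ENNReal.add_le_add_iff_right (vdens_ne_top hΨ.rg hLfin)).1 ?_
    calc edens Γ + vdens Ψ
        ≤ edens Ψ + dens (fun x e => ind (LeftOp (clo Ψ t n x) K e)) + vdens Γ :=
          lift_inequality hΨ hLfin hE K
      _ ≤ (ENNReal.ofReal c + vdens Ψ) + ENNReal.ofReal ε + vdens Γ := by gcongr
      _ = ENNReal.ofReal c + ENNReal.ofReal ε + vdens Γ + vdens Ψ := by ring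
  -- its length
  have hΓlen : edens Γ ≤ edens Ψ + ENNReal.ofReal ε := by
    refine (ENNReal.add_le_add_iff_right hFfin).1 ?_
    calc edens Γ + cellDens (clo Ψ t n)
        ≤ edens Q + dens (fun x a => ind (remains (clo Ψ t n x) K a)) :=
          edens_collapsed_le hΨ K
      _ ≤ (edens Ψ + cellDens (clo Ψ t n)) + ENNReal.ofReal ε := by
          gcongr; exact edens_quot_clo_le hΨ
      _ = edens Ψ + ENNReal.ofReal ε + cellDens (clo Ψ t n) := by ring
  have hΓfin : edens Γ ≠ ∞ :=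
    ne_top_of_le_ne_top (ENNReal.add_ne_top.2 ⟨hLfin, ENNReal.ofReal_ne_top⟩) hΓlen
  -- the cost of the quotient
  set c' := ENNReal.ofReal (c + ε) + cellDens (clo Ψ t n) with hc'
  have hQc : edens Q ≤ c' + vdens Q := by
    calc edens Q ≤ edens Γ + cellDens (clo Ψ t n) := edens_quot_le hΨ K
      _ ≤ (ENNReal.ofReal (c + ε) + vdens Γ) + cellDens (clo Ψ t n) := by gcongr
      _ ≤ (ENNReal.ofReal (c + ε) + vdens Q) + cellDens (clo Ψ t n) := by
          gcongr; exact vdens_collapsed_le hΨ hE K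
      _ = c' + vdens Q := by rw [hc']; ring
  have he1 : Real.exp (-100) ≤ 1 := Real.exp_le_one_iff.2 (by norm_num)
  have hc9 : c' ≤ ENNReal.ofReal 9 := by
    calc c' ≤ ENNReal.ofReal (c + ε) + ENNReal.ofReal (Real.exp (-100)) := by
          rw [hc']; gcongr
      _ = ENNReal.ofReal (c + ε + Real.exp (-100)) :=
          (ENNReal.ofReal_add (by linarith) (Real.exp_nonneg _)).symm
      _ ≤ _ := ENNReal.ofReal_le_ofReal (by linarith)
  -- the gain
  have hgain : ENNReal.ofReal (1 / ((bigP : ℝ) + 1)) ≤ dens (fun x e => ind ((Γ x).LeafE e)) := by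
    rcases hstop with ⟨hlo, -⟩ | ⟨-, hmark⟩
    · exact gain_numeric hp20 le_bigP hlo.le hF (hc9.trans (by simp))
        (gain_cells hΨ hp20 hK1 hE hQc hF)
    · have h1 := hmark.trans (gain_marked (K := K) hΨ hE hQc)
      have h2 : ENNReal.ofReal 9 + ENNReal.ofReal (1 / ((bigP : ℝ) + 1)) ≤
          ENNReal.ofReal ((bigP : ℝ) - 1) := by
        rw [← ENNReal.ofReal_add (by norm_num) (by positivity)]
        refine ENNReal.ofReal_le_ofReal ?_
        have hp' : (20 : ℝ) ≤ bigP := by exact_mod_cast hp20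
        have : (1 : ℝ) / ((bigP : ℝ) + 1) ≤ 1 := by
          rw [div_le_one (by positivity)]; linarith
        linarith
      exact (ENNReal.add_le_add_iff_left ENNReal.ofReal_ne_top).1
        (h2.trans (h1.trans (add_le_add hc9 le_rfl)))
  calc mlen bigP (ENNReal.ofReal (c + ε)) + ENNReal.ofReal (1 / ((bigP : ℝ) + 1))
      ≤ mlen bigP (ENNReal.ofReal (c + ε)) + dens (fun x e => ind ((Γ x).LeafE e)) :=
        add_le_add le_rfl hgain
    _ ≤ edens Γ := prune_le hp3 hΓs hΓfin hΓc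
    _ ≤ _ := hΓlen

/-- No finite family of arcs of total measure at most six connects the Bernoulli orbits. -/
theorem no_small_family {ι : Type} [Fintype ι] (D : ι → Set (Lab (G bigP)))
    (hD : ∀ i, MeasurableSet (D i)) (k : ι → G bigP) (hc : ∑ i, law (G bigP) (D i) ≤ 6)
    (hgen : ∀ᵐ x ∂law (G bigP), ∀ g : G bigP,
      Relation.EqvGen (fun y z => ∃ i, y ∈ D i ∧ sh (k i) y = z) x (sh g x)) : False :=
  false_of_step (show (0 : ℝ) < 1 / ((bigP : ℝ) + 1) by positivity) hasStep_bigP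
    (mlen_six_ne_top (le_trans (by norm_num) twenty_le_bigP) D hD k hc hgen)

end Vale.Agent.P189
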