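import Vale.Agent.P189.Layers

/-!
Reduction to finite families: an action of finite cost below `c` of a finitely generated group has
finitely many translation arcs of total measure at most `c` that, together with any finite set of
extra arcs prescribed on small sets, connect every point to its translates by the generators.
-/

namespace Vale.Agent.P189

open MeasureTheory Filter
open scoped ENNReal Topology

section general

variable {H : Type*} [Group H] {Z : Type*} [MeasurableSpace Z] [MulAction H Z]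
variable {ι : Type*} (D : ι → Set Z) (k : ι → H)

/-- One step along an arc. -/
def ArcRel (y z : Z) : Prop := ∃ i, y ∈ D i ∧ k i • y = z

/-- The element carried by a signed arc. -/
def letterEl (a : ι × Bool) : H := cond a.2 (k a.1) (k a.1)⁻¹

/-- The points where a signed arc may be used. -/
def letterDom (a : ι × Bool) : Set Z :=
  cond a.2 (D a.1) {x | (k a.1)⁻¹ • x ∈ D a.1}

/-- The element carried by a chain. -/
def chainEl : List (ι × Bool) → H
  | [] => 1
  | a :: w => chainEl w * letterEl k a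

/-- The points where a chain may be used. -/
def chainDom : List (ι × Bool) → Set Z
  | [] => Set.univ
  | a :: w => letterDom D k a ∩ {x | letterEl k a • x ∈ chainDom w}

omit [MeasurableSpace Z] in
lemma eqvGen_of_chain (s : Set ι) : ∀ (w : List (ι × Bool)), (∀ a ∈ w, a.1 ∈ s) → ∀ x : Z,
    x ∈ chainDom D k w →
      Relation.EqvGen (fun y z => ∃ i ∈ s, y ∈ D i ∧ k i • y = z) x (chainEl k w • x)
  | [], _, x, _ => by rw [chainEl, one_smul]; exact Relation.EqvGen.refl _
  | (i, b) :: w, hs, x, ⟨hx, hx'⟩ => by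
    rw [chainEl, mul_smul]
    refine Relation.EqvGen.trans _ _ _ ?_
      (eqvGen_of_chain s w (fun a ha => hs a (List.mem_cons_of_mem _ ha)) _ hx')
    have hi : i ∈ s := hs (i, b) List.mem_cons_self
    cases b
    · exact Relation.EqvGen.symm _ _
        (Relation.EqvGen.rel _ _ ⟨i, hi, hx, by simp [letterEl]⟩)
    · exact Relation.EqvGen.rel _ _ ⟨i, hi, hx, rfl⟩

omit [MeasurableSpace Z] in
lemma exists_chain {x y : Z} (h : Relation.EqvGen (ArcRel D k) x y) :
    ∃ w, x ∈ chainDom D k w ∧ chainEl k w • x = y := by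
  let R : Z → Z → Prop := fun y z => ArcRel D k y z ∨ ArcRel D k z y
  have hR : Relation.ReflTransGen R x y := by
    induction h with
    | rel a b hab => exact Relation.ReflTransGen.single (Or.inl hab)
    | refl => exact Relation.ReflTransGen.refl
    | symm a b _ ih =>
      clear * - ih
      induction ih with
      | refl => exact Relation.ReflTransGen.refl
      | tail _ hbc ih => exact ih.head hbc.symm
    | trans a b c _ _ h₁ h₂ => exact h₁.trans h₂
  clear h
  induction hR using Relation.ReflTransGen.head_induction_on with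
  | refl => exact ⟨[], trivial, one_smul _ _⟩
  | head hab _ ih =>
    obtain ⟨w, hw, hwy⟩ := ih
    rcases hab with ⟨i, hi, rfl⟩ | ⟨i, hi, rfl⟩
    · refine ⟨(i, true) :: w, ⟨hi, hw⟩, ?_⟩
      rw [chainEl, mul_smul]; exact hwy
    · refine ⟨(i, false) :: w, ⟨?_, ?_⟩, ?_⟩
      · simp [letterDom, hi]
      · simpa [letterEl] using hw
      · rw [chainEl, mul_smul]; simpa [letterEl] using hwy

variable {μ : Measure Z} (hμ : IsPMP H μ) (hD : ∀ i, MeasurableSet (D i))

include hμ hD in
lemma measurableSet_chainDom : ∀ w, MeasurableSet (chainDom D k w)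
  | [] => MeasurableSet.univ
  | (i, b) :: w => by
    refine MeasurableSet.inter ?_ ((hμ _).measurable (measurableSet_chainDom w))
    cases b
    · exact (hμ _).measurable (hD i)
    · exact hD i

include hμ hD in
/-- If almost every point is chained to its `g`-translate, then finitely many arcs chain all
points outside a set of small measure. -/
lemma exists_finset_chain [StandardBorelSpace Z] [IsFiniteMeasure μ] [Countable ι] (g : H)
    (hgen : ∀ᵐ x ∂μ, Relation.EqvGen (ArcRel D k) x (g • x)) {ε : ℝ≥0∞} (hε : 0 < ε) :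
    ∃ (s : Finset ι) (B : Set Z), MeasurableSet B ∧ μ B ≤ ε ∧ ∀ x ∉ B,
      Relation.EqvGen (fun y z => ∃ i ∈ (s : Set ι), y ∈ D i ∧ k i • y = z) x (g • x) := by
  classical
  obtain ⟨e, he⟩ := exists_surjective_nat (List (ι × Bool))
  let good : ℕ → Set Z := fun n => chainDom D k (e n) ∩ {x | chainEl k (e n) • x = g • x}
  have hgood : ∀ n, MeasurableSet (good n) := fun n =>
    (measurableSet_chainDom D k hμ hD _).inter
      (measurableSet_eq_fun (hμ _).measurable (hμ _).measurable)
  let bad : ℕ → Set Z := fun n => (⋃ m ∈ Finset.range n, good m)ᶜ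
  have hbad : ∀ n, MeasurableSet (bad n) := fun n =>
    ((Finset.range n).measurableSet_biUnion fun m _ => hgood m).compl
  have hanti : Antitone bad := fun n m hnm =>
    Set.compl_subset_compl.2 (Set.biUnion_subset_biUnion_left
      (fun i hi => Finset.mem_range.2 ((Finset.mem_range.1 hi).trans_le hnm)))
  have hnull : μ (⋂ n, bad n) = 0 := by
    refine measure_mono_null (fun x hx => Set.mem_setOf.2 fun hlink => ?_) (ae_iff.1 hgen)
    obtain ⟨w, hw, hwx⟩ := exists_chain D k hlink
    obtain ⟨n, rfl⟩ := he w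
    exact Set.mem_iInter.1 hx (n + 1)
      (Set.mem_biUnion (Finset.mem_range.2 n.lt_succ_self) ⟨hw, hwx⟩)
  have hlim := tendsto_measure_iInter_atTop (μ := μ) (fun n => (hbad n).nullMeasurableSet) hanti
    ⟨0, measure_ne_top μ _⟩
  rw [hnull] at hlim
  obtain ⟨n, hn⟩ := (hlim.eventually (eventually_le_nhds hε)).exists
  refine ⟨(Finset.range n).biUnion fun m => ((e m).map Prod.fst).toFinset, bad n, hbad n, hn,
    fun x hx => ?_⟩
  obtain ⟨m, hm, hxm, hxe⟩ := Set.mem_iUnion₂.1 (Set.not_notMem.1 hx)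
  rw [← hxe]
  refine eqvGen_of_chain D k _ (e m) (fun a ha => ?_) x hxm
  exact Finset.mem_biUnion.2 ⟨m, hm, List.mem_toFinset.2 (List.mem_map_of_mem ha)⟩

end general

section split

variable {H : Type*} [Group H] [Countable H] {Z : Type*} [MeasurableSpace Z] [StandardBorelSpace Z]
variable [MulAction H Z] {μ : Measure Z}

/-- A graphing cut into arcs, on each of which a single group element acts. -/
lemma Graphing.exists_arcs (hμ : IsPMP H μ) (Φ : Graphing H μ) :
    ∃ (D : ℕ × ℕ → Set Z) (k : ℕ × ℕ → H), (∀ i, MeasurableSet (D i)) ∧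
      ∑' i, μ (D i) = ∑' n, μ (Φ.dom n) ∧
      ∀ᵐ x ∂μ, ∀ g : H, Relation.EqvGen (ArcRel D k) x (g • x) := by
  obtain ⟨e, he⟩ := exists_surjective_nat H
  let S : ℕ → ℕ → Set Z := fun i => disjointed fun n => {x | e n • x = Φ.toFun i x}
  have hS : ∀ i n, MeasurableSet (S i n) := fun i =>
    MeasurableSet.disjointed fun n =>
      measurableSet_eq_fun (hμ _).measurable (Φ.measurable_toFun i)
  refine ⟨fun i => Φ.dom i.1 ∩ S i.1 i.2, fun i => e i.2,
    fun i => (Φ.measurableSet_dom _).inter (hS _ _), ?_, ?_⟩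
  · rw [ENNReal.tsum_prod']
    refine tsum_congr fun i => ?_
    dsimp only
    rw [← measure_iUnion (fun n m hnm => ((disjoint_disjointed _) hnm).mono Set.inter_subset_right
      Set.inter_subset_right) fun n => (Φ.measurableSet_dom _).inter (hS _ _), ← Set.inter_iUnion,
      iUnion_disjointed]
    refine congrArg μ (Set.inter_eq_left.2 fun x hx => ?_)
    obtain ⟨g, hg⟩ := Φ.mem_orbit i x hx
    obtain ⟨n, rfl⟩ := he g
    exact Set.mem_iUnion.2 ⟨n, hg⟩
  · refine Φ.generates.mono fun x hx g => (hx g).mono fun y z hyz => ?_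
    obtain ⟨i, hi, rfl⟩ := hyz
    obtain ⟨g, hg⟩ := Φ.mem_orbit i y hi
    obtain ⟨n, rfl⟩ := he g
    have hy : y ∈ ⋃ m, S i m := by
      rw [iUnion_disjointed]
      exact Set.mem_iUnion.2 ⟨n, hg⟩
    obtain ⟨m, hm⟩ := Set.mem_iUnion.1 hy
    exact ⟨(i, m), ⟨hi, hm⟩, (disjointed_subset _ m hm : _)⟩

end split

variable {p : ℕ}

/-- A family connecting every point to its translates by the generators connects every orbit. -/
lemma eqvGen_smul_of_generators {Z : Type*} [MulAction (G p) Z] {r : Z → Z → Prop}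
    (hb : ∀ (c : Bool) (x : Z),
      Relation.EqvGen r x ((SemidirectProduct.inr (FreeGroup.of c) : G p) • x))
    (hT : ∀ (m : Fin p) (x : Z), Relation.EqvGen r x (T m • x)) (g : G p) (x : Z) :
    Relation.EqvGen r x (g • x) := by
  let K : Subgroup (G p) :=
    { carrier := {h | ∀ x : Z, Relation.EqvGen r x (h • x)}
      one_mem' := fun x => by rw [one_smul]; exact Relation.EqvGen.refl _
      mul_mem' := fun {h h'} hh hh' x => by
        rw [mul_smul]; exact Relation.EqvGen.trans _ _ _ (hh' x) (hh _)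
      inv_mem' := fun {h} hh x => by
        have := hh (h⁻¹ • x)
        rw [smul_inv_smul] at this
        exact Relation.EqvGen.symm _ _ this }
  have hr : ∀ f : F2, (SemidirectProduct.inr f : G p) ∈ K := fun f => by
    induction f using FreeGroup.induction_on with
    | C1 => rw [map_one]; exact K.one_mem
    | of c => exact fun x => hb c x
    | inv_of c ih => rw [map_inv]; exact K.inv_mem ih
    | mul f f' h h' => rw [map_mul]; exact K.mul_mem h h'
  have hl : ∀ n : N p, n ∈ K.comap SemidirectProduct.inl := fun n => by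
    refine PresentedGroup.generated_by _ _ (fun l => ?_) n
    show (SemidirectProduct.inl (lamp (l.1, l.2)) : G p) ∈ K
    rw [inl_lamp_eq_conj]
    exact K.mul_mem (K.mul_mem (hr _) fun x => hT _ x) (hr _)
  have : g ∈ K := by
    rw [← SemidirectProduct.inl_left_mul_inr_right g]
    exact K.mul_mem (hl _) (hr _)
  exact this x

/-- If the Bernoulli action costs less than `c`, then finitely many translation arcs of total
measure at most `c + 2`, two of them `a` and `b` on the whole space, connect every orbit. -/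
theorem exists_finite_arcs {c : ℝ≥0∞} (hc : cost (G p) (μX p) < c) :
    ∃ (n : ℕ) (D : Fin n → Set (X p)) (k : Fin n → G p),
      (∀ i, MeasurableSet (D i)) ∧ ∑ i, μX p (D i) ≤ c + 2 ∧
      (∀ b : Bool, ∃ i, D i = Set.univ ∧ k i = SemidirectProduct.inr (FreeGroup.of b)) ∧
      ∀ (x : X p) (g : G p),
        Relation.EqvGen (fun y z => ∃ i, y ∈ D i ∧ k i • y = z) x (g • x) := by
  classical
  obtain ⟨Φ, hΦ⟩ := iInf_lt_iff.1 hc
  obtain ⟨D₀, k₀, hD₀, hsum₀, hgen⟩ := Φ.exists_arcs (isPMP_X p)
  rw [← hsum₀] at hΦ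
  obtain ⟨ε, hε, hεsum⟩ :=
    ENNReal.exists_pos_sum_of_countable (tsub_pos_of_lt hΦ).ne' (Fin p)
  have hchain : ∀ m : Fin p, ∃ (s : Finset (ℕ × ℕ)) (B : Set (X p)), MeasurableSet B ∧
      μX p B ≤ (ε m : ℝ≥0∞) ∧ ∀ x ∉ B, Relation.EqvGen
        (fun y z => ∃ i ∈ (s : Set (ℕ × ℕ)), y ∈ D₀ i ∧ k₀ i • y = z) x (T m • x) :=
    fun m => exists_finset_chain D₀ k₀ (isPMP_X p) hD₀ (T m) (hgen.mono fun x hx => hx _)
      (ENNReal.coe_pos.2 (hε m))
  choose s B hBm hB hlink using hchain
  let κ : Type := Bool ⊕ Fin p ⊕ ↥(Finset.univ.biUnion s)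
  let D₁ : κ → Set (X p) :=
    Sum.elim (fun _ => Set.univ) (Sum.elim B fun i => D₀ i)
  let k₁ : κ → G p :=
    Sum.elim (fun b => SemidirectProduct.inr (FreeGroup.of b)) (Sum.elim T fun i => k₀ i)
  have hD₁ : ∀ i, MeasurableSet (D₁ i) := by
    rintro (b | m | i)
    · exact MeasurableSet.univ
    · exact hBm m
    · exact hD₀ _
  refine ⟨Fintype.card κ, D₁ ∘ (Fintype.equivFin κ).symm, k₁ ∘ (Fintype.equivFin κ).symm,
    fun i => hD₁ _, ?_, fun b => ⟨Fintype.equivFin κ (Sum.inl b), by simp [D₁, k₁]⟩, ?_⟩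
  · refine le_of_eq_of_le (Equiv.sum_comp (Fintype.equivFin κ).symm fun i => μX p (D₁ i)) ?_
    simp only [κ, D₁, Fintype.sum_sum_type, Sum.elim_inl, Sum.elim_inr, measure_univ,
      Fintype.sum_bool]
    rw [Finset.sum_coe_sort (Finset.univ.biUnion s) fun i => μX p (D₀ i), add_comm c,
      show (1 : ℝ≥0∞) + 1 = 2 by norm_num]
    gcongr
    calc ∑ m, μX p (B m) + ∑ i ∈ Finset.univ.biUnion s, μX p (D₀ i)
        ≤ ∑' m, (ε m : ℝ≥0∞) + ∑' i, μX p (D₀ i) := by
          rw [tsum_fintype]
          exact add_le_add (Finset.sum_le_sum fun m _ => hB m) (ENNReal.sum_le_tsum _)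
      _ ≤ (c - ∑' i, μX p (D₀ i)) + ∑' i, μX p (D₀ i) := by gcongr
      _ = c := tsub_add_cancel_of_le hΦ.le
  · intro x g
    have hstep : ∀ (i : κ) (y : X p), y ∈ D₁ i → Relation.EqvGen
        (fun y z => ∃ j, y ∈ (D₁ ∘ (Fintype.equivFin κ).symm) j ∧
          (k₁ ∘ (Fintype.equivFin κ).symm) j • y = z) y (k₁ i • y) := fun i y hy =>
      Relation.EqvGen.rel _ _ ⟨Fintype.equivFin κ i, by simp [hy]⟩
    refine eqvGen_smul_of_generators (fun b y => hstep (Sum.inl b) y trivial) (fun m y => ?_) g x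
    by_cases hy : y ∈ B m
    · exact hstep (Sum.inr (Sum.inl m)) y hy
    · refine (hlink m y hy).mono fun u v huv => ?_
      obtain ⟨i, hi, hu, rfl⟩ := huv
      refine ⟨Fintype.equivFin κ (Sum.inr (Sum.inr ⟨i, Finset.mem_biUnion.2 ⟨m, Finset.mem_univ _, hi⟩⟩)), ?_⟩
      simpa [D₁, k₁] using hu

end Vale.Agent.P189
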