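import Vale.Agent.P189.SparsePerm

/-!
The finite model of the Bernoulli shift: labels on `Fin n × H`, read along the permutations.  Away
from rare collisions, the pattern seen from one point, or from two points, has the product law.
-/

namespace Vale.Agent.P189.Sparse

open MeasureTheory Finset

/-- The product of uniform measures. -/
noncomputable abbrev unif (J : Type*) : Measure (J → unitInterval) :=
  Measure.infinitePi fun _ : J => (volume : Measure unitInterval)

lemma unif_map_comp {ι J : Type*} (f : J → ι) (hf : Function.Injective f) :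
    (unif ι).map (fun x j => x (f j)) = unif J := by
  refine Measure.eq_infinitePi _ fun s t ht => ?_
  classical
  set t' : ι → Set unitInterval := Function.extend f t fun _ => Set.univ
  have ht' : ∀ i, MeasurableSet (t' i) := fun i => by
    by_cases h : ∃ j, f j = i
    · obtain ⟨j, rfl⟩ := h; simp only [t', hf.extend_apply]; exact ht j
    · simp only [t', Function.extend_apply' _ _ _ h]; exact .univ
  have hpre : (fun (x : ι → unitInterval) j => x (f j)) ⁻¹' (Set.pi s t) =
      Set.pi (↑(s.map ⟨f, hf⟩)) t' := by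
    ext x
    simp [t', hf.extend_apply]
  have hm : Measurable fun (x : ι → unitInterval) j => x (f j) :=
    measurable_pi_lambda _ fun j => measurable_pi_apply _
  rw [Measure.map_apply hm (MeasurableSet.pi s.countable_toSet fun j _ => ht j), hpre,
    Measure.infinitePi_pi _ fun i _ => ht' i, prod_map]
  simp [t', hf.extend_apply]

lemma unif_map_pair {ι J : Type*} [Fintype J] (a b : J → ι)
    (hab : Function.Injective (Sum.elim a b)) :
    (unif ι).map (fun x => ((fun j => x (a j)), fun j => x (b j))) = (unif J).prod (unif J) := by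
  have h := unif_map_comp (Sum.elim a b) hab
  have hm : (fun x : ι → unitInterval => ((fun j => x (a j)), fun j => x (b j))) =
      (MeasurableEquiv.sumPiEquivProdPi fun _ : J ⊕ J => unitInterval) ∘
        fun x j => x (Sum.elim a b j) := rfl
  have hm' : Measurable fun (x : ι → unitInterval) j => x (Sum.elim a b j) :=
    measurable_pi_lambda _ fun j => measurable_pi_apply _
  rw [hm, ← Measure.map_map (MeasurableEquiv.measurable _) hm', h]
  simp only [unif, Measure.infinitePi_eq_pi]
  exact (measurePreserving_sumPiEquivProdPi fun _ : J ⊕ J =>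
    (volume : Measure unitInterval)).map_eq

variable {H : Type*} [Group H] {ι : Type*}

lemma exists_coords (q : ι → H) (hq : Function.Injective (FreeGroup.lift q)) :
    ∃ (k : H → FreeGroup ι) (r : H → H), (∀ h, FreeGroup.lift q (k h) * r h = h) ∧
      ∀ i h, k ((q i)⁻¹ * h) = (FreeGroup.of i)⁻¹ * k h ∧ r ((q i)⁻¹ * h) = r h := by
  set s := QuotientGroup.rightRel (FreeGroup.lift q).range
  set r : H → H := fun h => (Quotient.mk s h).out
  have hr : ∀ h, ∃ g, FreeGroup.lift q g = h * (r h)⁻¹ := fun h => by
    have := Quotient.mk_out (s := s) h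
    exact MonoidHom.mem_range.1 (QuotientGroup.rightRel_apply.1 this)
  choose k hk using hr
  have hmul : ∀ h, FreeGroup.lift q (k h) * r h = h := fun h => by
    rw [hk, inv_mul_cancel_right]
  refine ⟨k, r, hmul, fun i h => ?_⟩
  have hrr : r ((q i)⁻¹ * h) = r h := by
    refine congrArg Quotient.out (Quotient.sound (s := s) ?_)
    exact QuotientGroup.rightRel_apply.2 ⟨FreeGroup.of i, by simp⟩
  refine ⟨hq ?_, hrr⟩
  rw [map_mul, map_inv, FreeGroup.lift_apply_of]
  exact mul_right_cancel (b := r h) (by rw [← hrr, hmul, hrr, mul_assoc, hmul])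

variable {n : ℕ} (k : H → FreeGroup ι) (r : H → H)

/-- Where the coordinate `h` of the pattern seen from `v` is read. -/
def loc (σ : ι → Equiv.Perm (Fin n)) (v : Fin n) (h : H) : Fin n × H :=
  ((FreeGroup.lift σ (k h))⁻¹ v, r h)

/-- The pattern seen from `v`. -/
def pat (σ : ι → Equiv.Perm (Fin n)) (v : Fin n) (L : Fin n × H → unitInterval) :
    H → unitInterval :=
  fun h => L (loc k r σ v h)

/-- Two coordinates of `E`, seen from `v` and from `w`, may coincide. -/
def Coll (σ : ι → Equiv.Perm (Fin n)) (E : Finset H) (v w : Fin n) : Prop :=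
  ∃ h ∈ E, ∃ h' ∈ E, k h ≠ k h' ∧ FreeGroup.lift σ (k h' * (k h)⁻¹) v = w

variable {k r}

omit [Group H] in
lemma measurable_pat (σ : ι → Equiv.Perm (Fin n)) (v : Fin n) :
    Measurable (pat k r σ v) :=
  measurable_pi_lambda _ fun _ => measurable_pi_apply _

lemma pat_shift {q : ι → H}
    (heq : ∀ i h, k ((q i)⁻¹ * h) = (FreeGroup.of i)⁻¹ * k h ∧ r ((q i)⁻¹ * h) = r h)
    (σ : ι → Equiv.Perm (Fin n)) (v : Fin n) (i : ι) (L : Fin n × H → unitInterval) :
    (fun h => pat k r σ v L ((q i)⁻¹ * h)) = pat k r σ (σ i v) L := by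
  funext h
  simp [pat, loc, (heq i h).1, (heq i h).2]

variable {q : ι → H} (hmul : ∀ h, FreeGroup.lift q (k h) * r h = h)
include hmul

lemma eq_of_loc_eq {σ : ι → Equiv.Perm (Fin n)} {E : Finset H} {v w : Fin n}
    (hc : ¬ Coll k σ E v w) {h h' : H} (hh : h ∈ E) (hh' : h' ∈ E)
    (e : loc k r σ v h = loc k r σ w h') : v = w ∧ h = h' := by
  simp only [loc, Prod.mk.injEq] at e
  have hk : k h = k h' := by
    by_contra hne
    refine hc ⟨h, hh, h', hh', hne, ?_⟩
    rw [map_mul, map_inv, Equiv.Perm.mul_apply, e.1]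
    simp
  refine ⟨?_, by rw [← hmul h, ← hmul h', hk, e.2]⟩
  rw [hk] at e
  exact (FreeGroup.lift σ (k h'))⁻¹.injective e.1

/-- The pattern seen from one point. -/
lemma real_pat_eq {σ : ι → Equiv.Perm (Fin n)} {E : Finset H} {v : Fin n}
    (hc : ¬ Coll k σ E v v) {B : Set (E → unitInterval)} (hB : MeasurableSet B) :
    (unif (Fin n × H)).real (pat k r σ v ⁻¹' cylinder E B) = (unif H).real (cylinder E B) := by
  have h₁ : Function.Injective fun h : E => loc k r σ v h := fun a b e =>
    Subtype.ext (eq_of_loc_eq hmul hc a.2 b.2 e).2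
  have h₂ : Function.Injective fun h : E => (h : H) := Subtype.val_injective
  have hm₁ : Measurable fun (L : Fin n × H → unitInterval) (h : E) => L (loc k r σ v h) :=
    measurable_pi_lambda _ fun _ => measurable_pi_apply _
  have hm₂ : Measurable fun (x : H → unitInterval) (h : E) => x h :=
    measurable_pi_lambda _ fun _ => measurable_pi_apply _
  calc (unif (Fin n × H)).real (pat k r σ v ⁻¹' cylinder E B)
      = ((unif (Fin n × H)).map fun L (h : E) => L (loc k r σ v h)).real B :=
        (map_measureReal_apply hm₁ hB).symm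
    _ = ((unif H).map fun x (h : E) => x h).real B := by
        rw [unif_map_comp _ h₁, unif_map_comp _ h₂]
    _ = _ := map_measureReal_apply hm₂ hB

open Classical in
lemma abs_real_pat_sub_le (σ : ι → Equiv.Perm (Fin n)) (E : Finset H) (v : Fin n)
    {B : Set (E → unitInterval)}
    (hB : MeasurableSet B) :
    |(unif (Fin n × H)).real (pat k r σ v ⁻¹' cylinder E B) - (unif H).real (cylinder E B)| ≤
      if Coll k σ E v v then 1 else 0 := by
  split_ifs with hc
  · have h₁ : (unif (Fin n × H)).real (pat k r σ v ⁻¹' cylinder E B) ≤ 1 := measureReal_le_one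
    have h₂ : (unif H).real (cylinder E B) ≤ 1 := measureReal_le_one
    have h₃ : 0 ≤ (unif (Fin n × H)).real (pat k r σ v ⁻¹' cylinder E B) := measureReal_nonneg
    have h₄ : 0 ≤ (unif H).real (cylinder E B) := measureReal_nonneg
    exact abs_sub_le_iff.2 ⟨by linarith, by linarith⟩
  · simp [real_pat_eq hmul hc hB]

open Classical in
/-- The patterns seen from two points. -/
lemma real_pat_inter_le (σ : ι → Equiv.Perm (Fin n)) (E : Finset H) (v w : Fin n)
    {B C : Set (E → unitInterval)} (hB : MeasurableSet B) (hC : MeasurableSet C) :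
    (unif (Fin n × H)).real (pat k r σ v ⁻¹' cylinder E B ∩ pat k r σ w ⁻¹' cylinder E C) ≤
      (unif H).real (cylinder E B) * (unif H).real (cylinder E C) +
        ((if v = w then 1 else 0) + (if Coll k σ E v w then 1 else 0) +
          (if Coll k σ E v v then 1 else 0) + (if Coll k σ E w w then 1 else 0)) := by
  by_cases h : v ≠ w ∧ ¬ Coll k σ E v w ∧ ¬ Coll k σ E v v ∧ ¬ Coll k σ E w w
  · obtain ⟨hvw, hc, hv, hw⟩ := h
    have hinj : Function.Injective
        (Sum.elim (fun h : E => loc k r σ v h) fun h : E => loc k r σ w h) := by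
      rintro (a | a) (b | b) e <;> simp only [Sum.elim_inl, Sum.elim_inr] at e
      · exact congrArg Sum.inl (Subtype.ext (eq_of_loc_eq hmul hv a.2 b.2 e).2)
      · exact absurd (eq_of_loc_eq hmul hc a.2 b.2 e).1 hvw
      · exact absurd (eq_of_loc_eq hmul hc b.2 a.2 e.symm).1 hvw
      · exact congrArg Sum.inr (Subtype.ext (eq_of_loc_eq hmul hw a.2 b.2 e).2)
    have hm : Measurable fun L : Fin n × H → unitInterval =>
        ((fun h : E => L (loc k r σ v h)), fun h : E => L (loc k r σ w h)) :=
      (measurable_pi_lambda _ fun _ => measurable_pi_apply _).prodMk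
        (measurable_pi_lambda _ fun _ => measurable_pi_apply _)
    have hm₂ : Measurable fun (x : H → unitInterval) (h : E) => x h :=
      measurable_pi_lambda _ fun _ => measurable_pi_apply _
    simp only [if_neg hvw, if_neg hc, if_neg hv, if_neg hw, add_zero]
    refine le_of_eq ?_
    calc _ = ((unif (Fin n × H)).map fun L : Fin n × H → unitInterval =>
          ((fun h : E => L (loc k r σ v h)), fun h : E => L (loc k r σ w h))).real (B ×ˢ C) :=
          (map_measureReal_apply hm (hB.prod hC)).symm
      _ = ((unif H).map fun x (h : E) => x h).real B *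
            ((unif H).map fun x (h : E) => x h).real C := by
          rw [unif_map_pair _ _ hinj, measureReal_prod_prod,
            unif_map_comp _ Subtype.val_injective]
      _ = _ := by rw [map_measureReal_apply hm₂ hB, map_measureReal_apply hm₂ hC]; rfl
  · have h₁ : (unif (Fin n × H)).real
        (pat k r σ v ⁻¹' cylinder E B ∩ pat k r σ w ⁻¹' cylinder E C) ≤ 1 := measureReal_le_one
    have h₂ : 0 ≤ (unif H).real (cylinder E B) * (unif H).real (cylinder E C) :=
      mul_nonneg measureReal_nonneg measureReal_nonneg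
    split_ifs <;> first | linarith | (exfalso; tauto)

omit [Group H] hmul in
lemma eventually_coll_rare [Fintype ι] [DecidableEq ι] (E : Finset H) {ε : ℝ} (hε : 0 < ε) :
    ∀ᶠ n : ℕ in Filter.atTop, ∀ v w : Fin n,
      ({σ : ι → Equiv.Perm (Fin n) | Coll k σ E v w}.ncard : ℝ) ≤
        ε * Fintype.card (ι → Equiv.Perm (Fin n)) := by
  classical
  set P := (E ×ˢ E).filter fun x => k x.1 ≠ k x.2
  set ε' := ε / (P.card + 1)
  have hε' : 0 < ε' := by positivity
  have hall : ∀ x ∈ P, ∀ᶠ n : ℕ in Filter.atTop, ∀ v w : Fin n,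
      ({σ : ι → Equiv.Perm (Fin n) | FreeGroup.lift σ (k x.2 * (k x.1)⁻¹) v = w}.ncard : ℝ) ≤
        ε' * Fintype.card (ι → Equiv.Perm (Fin n)) := fun x hx =>
    eventually_word_rare _ (fun h => (Finset.mem_filter.1 hx).2 (mul_inv_eq_one.1 h).symm) hε'
  filter_upwards [(Filter.eventually_all_finset P).2 hall] with n hn v w
  have hsub : {σ : ι → Equiv.Perm (Fin n) | Coll k σ E v w} ⊆
      ⋃ x ∈ P, {σ | FreeGroup.lift σ (k x.2 * (k x.1)⁻¹) v = w} := by
    rintro σ ⟨h, hh, h', hh', hne, e⟩
    exact Set.mem_iUnion₂.2 ⟨(h, h'),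
      Finset.mem_filter.2 ⟨Finset.mem_product.2 ⟨hh, hh'⟩, hne⟩, e⟩
  set c := Fintype.card (ι → Equiv.Perm (Fin n))
  calc _ ≤ ∑ x ∈ P, ({σ : ι → Equiv.Perm (Fin n) |
        FreeGroup.lift σ (k x.2 * (k x.1)⁻¹) v = w}.ncard : ℝ) := by
        exact_mod_cast (Set.ncard_le_ncard hsub (Set.toFinite _)).trans
          (Finset.set_ncard_biUnion_le _ _)
    _ ≤ ∑ _x ∈ P, ε' * c := Finset.sum_le_sum fun x hx => hn x hx v w
    _ = (P.card : ℝ) * ε' * c := by rw [Finset.sum_const, nsmul_eq_mul]; ring
    _ ≤ ε * c := by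
        refine mul_le_mul_of_nonneg_right ?_ (Nat.cast_nonneg _)
        rw [← mul_div_assoc, div_le_iff₀ (by positivity)]
        nlinarith

end Vale.Agent.P189.Sparse
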