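import Mathlib

/-!
Independent uniform permutations of a finite set, one for each letter of a finite alphabet: a fixed
nontrivial reduced word rarely sends a given point to a given point, and a small family of sets is
rarely carried into a family of sets of less than `9/10 p` times its size.
-/

namespace Vale.Agent.P189.Sparse

open Finset
open scoped Nat

variable {n : ℕ}

section Maps

/-- The permutations carrying `S` into `T`. -/
def mapsInto (S T : Finset (Fin n)) : Finset (Equiv.Perm (Fin n)) :=
  univ.filter fun σ => ∀ a ∈ S, σ a ∈ T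

lemma card_mapsInto_step {S T : Finset (Fin n)} {a : Fin n} (ha : a ∉ S) :
    (mapsInto (insert a S) T).card * n ≤ (mapsInto S T).card * T.card := by
  classical
  have hsub : mapsInto (insert a S) T ⊆ mapsInto S T := fun σ hσ => by
    simp only [mapsInto, mem_filter, mem_univ, true_and] at hσ ⊢
    exact fun b hb => hσ b (mem_insert_of_mem hb)
  rcases (mapsInto (insert a S) T).eq_empty_or_nonempty with h0 | ⟨σ₀, hσ₀⟩
  · simp [h0]
  have hS : ∀ σ ∈ mapsInto S T, S.image σ ⊆ T := fun σ hσ => by
    simpa [mapsInto, image_subset_iff] using hσ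
  have hSn : S.card ≤ n := by simpa using card_le_univ S
  have hST : S.card ≤ T.card := by
    rw [← card_image_of_injective S σ₀.injective]
    exact card_le_card (hS _ (hsub hσ₀))
  have key : (mapsInto (insert a S) T).card * (n - S.card) ≤
      (mapsInto S T).card * (T.card - S.card) := by
    have e₁ : ((mapsInto (insert a S) T).sigma fun σ => (S.image σ)ᶜ).card =
        (mapsInto (insert a S) T).card * (n - S.card) := by
      rw [card_sigma, sum_const_nat fun σ _ => ?_]
      rw [card_compl, card_image_of_injective S σ.injective, Fintype.card_fin]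
    have e₂ : ((mapsInto S T).sigma fun σ => T \ S.image σ).card =
        (mapsInto S T).card * (T.card - S.card) := by
      rw [card_sigma, sum_const_nat fun σ hσ => ?_]
      rw [card_sdiff_of_subset (hS σ hσ), card_image_of_injective S σ.injective]
    rw [← e₁, ← e₂]
    refine card_le_card_of_injOn
      (fun x => (⟨Equiv.swap (x.1 a) x.2 * x.1, x.1 a⟩ : Sigma fun _ : Equiv.Perm (Fin n) => Fin n))
      ?_ ?_
    · rintro ⟨σ, z⟩ hx
      simp only [mem_coe, mem_sigma, mapsInto, mem_filter, mem_univ, true_and, mem_compl,
        mem_image, not_exists, not_and, mem_sdiff] at hx ⊢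
      have hfix : ∀ b ∈ S, (Equiv.swap (σ a) z * σ) b = σ b := fun b hb =>
        Equiv.swap_apply_of_ne_of_ne (fun h => ha (σ.injective h ▸ hb)) (hx.2 b hb)
      refine ⟨fun b hb => ?_, hx.1 a (mem_insert_self a S), fun b hb => ?_⟩
      · rw [hfix b hb]; exact hx.1 b (mem_insert_of_mem hb)
      · rw [hfix b hb]; exact fun h => ha (σ.injective h ▸ hb)
    · rintro ⟨σ, z⟩ - ⟨σ', z'⟩ - h
      simp only [Sigma.mk.injEq, heq_eq_eq] at h
      obtain ⟨h, hy⟩ := h
      have hz : z = z' := by
        have := congrArg (fun τ : Equiv.Perm (Fin n) => τ a) h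
        simpa [hy] using this
      subst hz
      rw [hy] at h
      exact Sigma.ext (mul_left_cancel h) HEq.rfl
  calc (mapsInto (insert a S) T).card * n
      = (mapsInto (insert a S) T).card * (n - S.card) +
          (mapsInto (insert a S) T).card * S.card := by rw [← mul_add]; congr 1; omega
    _ ≤ (mapsInto S T).card * (T.card - S.card) + (mapsInto S T).card * S.card :=
        add_le_add key (Nat.mul_le_mul_right _ (card_le_card hsub))
    _ = (mapsInto S T).card * T.card := by rw [← mul_add]; congr 1; omega

lemma card_mapsInto_le (S T : Finset (Fin n)) :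
    ((mapsInto S T).card : ℝ) ≤ (n ! : ℝ) * ((T.card : ℝ) / n) ^ S.card := by
  classical
  induction S using Finset.induction_on with
  | empty => simp [mapsInto, Fintype.card_perm]
  | insert a S ha ih =>
    have hn : (0 : ℝ) < n := by exact_mod_cast a.pos
    have h : ((mapsInto (insert a S) T).card : ℝ) * n ≤ (mapsInto S T).card * T.card := by
      exact_mod_cast card_mapsInto_step ha
    rw [card_insert_of_notMem ha, pow_succ, ← mul_assoc]
    calc ((mapsInto (insert a S) T).card : ℝ) ≤ (mapsInto S T).card * (T.card / n) := by
          rw [← mul_div_assoc, le_div_iff₀ hn]; exact h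
      _ ≤ _ := by gcongr

end Maps

section Walk

variable {ι : Type*}

/-- The permutation attached to a signed letter. -/
def act (σ : ι → Equiv.Perm (Fin n)) (a : ι × Bool) : Equiv.Perm (Fin n) :=
  cond a.2 (σ a.1) (σ a.1)⁻¹

/-- The image of `v` under a word. -/
def run (σ : ι → Equiv.Perm (Fin n)) : List (ι × Bool) → Fin n → Fin n
  | [], v => v
  | a :: L, v => act σ a (run σ L v)

lemma lift_mk_apply (σ : ι → Equiv.Perm (Fin n)) :
    ∀ (L : List (ι × Bool)) (v : Fin n), FreeGroup.lift σ (FreeGroup.mk L) v = run σ L v
  | [], v => by simp [FreeGroup.lift_mk, run]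
  | a :: L, v => by
    have h : FreeGroup.lift σ (FreeGroup.mk (a :: L)) = act σ a * FreeGroup.lift σ (FreeGroup.mk L) := by
      simp [FreeGroup.lift_mk, act]
    rw [h, Equiv.Perm.mul_apply, lift_mk_apply σ L v, run]

/-- The points met along the path of a word, latest first. -/
def visited (σ : ι → Equiv.Perm (Fin n)) : List (ι × Bool) → Fin n → Finset (Fin n)
  | [], v => {v}
  | a :: L, v => insert (act σ a (run σ L v)) (visited σ L v)

lemma run_mem_visited (σ : ι → Equiv.Perm (Fin n)) :
    ∀ L v, run σ L v ∈ visited σ L v
  | [], v => mem_singleton_self v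
  | _ :: _, _ => mem_insert_self _ _

lemma card_visited_le (σ : ι → Equiv.Perm (Fin n)) :
    ∀ L v, (visited σ L v).card ≤ L.length + 1
  | [], v => by simp [visited]
  | a :: L, v => (card_insert_le _ _).trans (by simpa using card_visited_le σ L v)

/-- Every step of the path reaches a new point, different from `w`. -/
def Good (σ : ι → Equiv.Perm (Fin n)) (v w : Fin n) : List (ι × Bool) → Prop
  | [] => True
  | a :: L => Good σ v w L ∧ act σ a (run σ L v) ∉ insert w (visited σ L v)

variable [DecidableEq ι]

/-- Replace the letter `a` by its composition with the transposition of `y` and `z`. -/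
def switch (σ : ι → Equiv.Perm (Fin n)) (a : ι × Bool) (y z : Fin n) : ι → Equiv.Perm (Fin n) :=
  Function.update σ a.1
    (cond a.2 (Equiv.swap y z * act σ a) (Equiv.swap y z * act σ a)⁻¹)

lemma act_switch_self (σ : ι → Equiv.Perm (Fin n)) (a : ι × Bool) (y z : Fin n) :
    act (switch σ a y z) a = Equiv.swap y z * act σ a := by
  obtain ⟨i, _ | _⟩ := a <;> simp [switch, act]

/-- A switch at a new source leaves an edge of the path unchanged. -/
lemma act_switch_of_edge {σ : ι → Equiv.Perm (Fin n)} {a b : ι × Bool} {x z u : Fin n}
    (hux : u ≠ x) (hbz : act σ b u ≠ z) (huz : u ≠ z)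
    (hsrc : b.1 = a.1 → b.2 ≠ a.2 → act σ b u ≠ x) :
    act (switch σ a (act σ a x) z) b u = act σ b u := by
  obtain ⟨i, e⟩ := a
  obtain ⟨k, e'⟩ := b
  by_cases hk : k = i
  · subst hk
    by_cases he : e' = e
    · subst he
      rw [act_switch_self, Equiv.Perm.mul_apply]
      exact Equiv.swap_apply_of_ne_of_ne (fun h => hux ((act σ (k, e')).injective h)) hbz
    · have he' : e' = !e := by cases e <;> cases e' <;> simp_all
      subst he'
      have hne : act σ (k, !e) u ≠ x := hsrc rfl (by simp)
      have hinv : ∀ τ : ι → Equiv.Perm (Fin n), act τ (k, !e) = (act τ (k, e))⁻¹ := fun τ => by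
        cases e <;> simp [act]
      rw [hinv, hinv, act_switch_self, mul_inv_rev, Equiv.swap_inv, Equiv.Perm.mul_apply]
      congr 1
      refine Equiv.swap_apply_of_ne_of_ne (fun h => hne ?_) huz
      rw [hinv, h]
      simp
  · simp [act, switch, Function.update_of_ne hk]

lemma switch_preserves {σ : ι → Equiv.Perm (Fin n)} {a : ι × Bool} {v w x z : Fin n} :
    ∀ {M : List (ι × Bool)}, Good σ v w M → x ∉ visited σ M v → z ∉ visited σ M v →
      run (switch σ a (act σ a x) z) M v = run σ M v ∧
        visited (switch σ a (act σ a x) z) M v = visited σ M v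
  | [], _, _, _ => ⟨rfl, rfl⟩
  | b :: M, hg, hx, hz => by
    simp only [visited, mem_insert, not_or] at hx hz
    obtain ⟨hr, hv⟩ := switch_preserves (a := a) hg.1 hx.2 hz.2
    have hstep : act (switch σ a (act σ a x) z) b (run σ M v) = act σ b (run σ M v) :=
      act_switch_of_edge (fun h => hx.2 (h ▸ run_mem_visited σ M v)) (Ne.symm hz.1)
        (fun h => hz.2 (h ▸ run_mem_visited σ M v)) fun _ _ => Ne.symm hx.1
    exact ⟨by simp only [run, hr, hstep], by simp only [visited, hr, hv, hstep]⟩

/-- A switch at the end of a good path leaves the path unchanged. -/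
lemma switch_preserves_end {σ : ι → Equiv.Perm (Fin n)} {a : ι × Bool} {v w z : Fin n} :
    ∀ {L : List (ι × Bool)}, FreeGroup.IsReduced (a :: L) → Good σ v w L →
      z ∉ visited σ L v →
      run (switch σ a (act σ a (run σ L v)) z) L v = run σ L v ∧
        visited (switch σ a (act σ a (run σ L v)) z) L v = visited σ L v
  | [], _, _, _ => ⟨rfl, rfl⟩
  | b :: M, hred, hg, hz => by
    simp only [visited, mem_insert, not_or] at hz
    have hred' : a.1 = b.1 → a.2 = b.2 := (FreeGroup.isReduced_cons_cons.1 hred).1
    have hnew : act σ b (run σ M v) ∉ visited σ M v := fun h => hg.2 (mem_insert_of_mem h)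
    obtain ⟨hr, hv⟩ := switch_preserves (a := a) (x := act σ b (run σ M v)) hg.1 hnew hz.2
    have hstep : act (switch σ a (act σ a (act σ b (run σ M v))) z) b (run σ M v) =
        act σ b (run σ M v) :=
      act_switch_of_edge (fun h => hnew (h ▸ run_mem_visited σ M v)) (Ne.symm hz.1)
        (fun h => hz.2 (h ▸ run_mem_visited σ M v))
        fun h₁ h₂ => absurd (hred' h₁.symm).symm h₂
    exact ⟨by simp only [run, hr, hstep], by simp only [visited, run, hr, hv, hstep]⟩

variable [Fintype ι]

lemma card_not_good_le (v w : Fin n) : ∀ (L : List (ι × Bool)), FreeGroup.IsReduced L →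
    ∀ K, L.length + 2 ≤ K →
    {σ : ι → Equiv.Perm (Fin n) | ¬ Good σ v w L}.ncard * (n - K) ≤
      L.length * K * Fintype.card (ι → Equiv.Perm (Fin n))
  | [], _, K, _ => by simp [Good]
  | a :: L, hred, K, hK => by
    classical
    simp only [List.length_cons] at hK ⊢
    have ih := card_not_good_le v w L (by
      rcases L with _ | ⟨b, L⟩
      · exact FreeGroup.IsReduced.nil
      · exact (FreeGroup.isReduced_cons_cons.1 hred).2) K (by omega)
    set B : Finset (ι → Equiv.Perm (Fin n)) := univ.filter fun σ =>
      Good σ v w L ∧ act σ a (run σ L v) ∈ insert w (visited σ L v) with hB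
    have hsplit : {σ : ι → Equiv.Perm (Fin n) | ¬ Good σ v w (a :: L)}.ncard ≤
        {σ : ι → Equiv.Perm (Fin n) | ¬ Good σ v w L}.ncard + B.card := by
      rw [← Set.ncard_coe_finset B]
      refine le_trans (Set.ncard_le_ncard ?_ (Set.toFinite _)) (Set.ncard_union_le _ _)
      intro σ hσ
      by_cases hg : Good σ v w L
      · right
        simp only [hB, coe_filter, mem_univ, true_and, Set.mem_ofPred_eq]
        exact ⟨hg, by_contra fun h => hσ ⟨hg, h⟩⟩
      · exact Or.inl hg
    have hstep : B.card * (n - K) ≤ K * Fintype.card (ι → Equiv.Perm (Fin n)) := by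
      calc B.card * (n - K)
          ≤ (B.sigma fun σ => (insert w (visited σ L v))ᶜ).card := by
            rw [card_sigma, ← smul_eq_mul, ← sum_const]
            refine sum_le_sum fun σ _ => ?_
            rw [card_compl, Fintype.card_fin]
            have := card_visited_le σ L v
            have := card_insert_le w (visited σ L v)
            omega
        _ ≤ ((univ : Finset (ι → Equiv.Perm (Fin n))).sigma fun σ =>
              insert w (visited σ L v)).card := by
            refine card_le_card_of_injOn (fun x =>
              (⟨switch x.1 a (act x.1 a (run x.1 L v)) x.2, act x.1 a (run x.1 L v)⟩ :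
                Sigma fun _ : ι → Equiv.Perm (Fin n) => Fin n)) ?_ ?_
            · rintro ⟨σ, z⟩ hx
              simp only [mem_coe, mem_sigma, hB, mem_filter, mem_univ, true_and, mem_compl] at hx ⊢
              rw [(switch_preserves_end hred hx.1.1 fun h => hx.2 (mem_insert_of_mem h)).2]
              exact hx.1.2
            · rintro ⟨σ, z⟩ hx ⟨σ', z'⟩ hx' h
              simp only [mem_coe, mem_sigma, hB, mem_filter, mem_univ, true_and, mem_compl] at hx hx'
              simp only [Sigma.mk.injEq, heq_eq_eq] at h
              obtain ⟨h, hy⟩ := h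
              have hr := (switch_preserves_end hred hx.1.1 fun h => hx.2 (mem_insert_of_mem h)).1
              have hr' :=
                (switch_preserves_end hred hx'.1.1 fun h => hx'.2 (mem_insert_of_mem h)).1
              have hxx : run σ L v = run σ' L v := by rw [← hr, ← hr', h]
              have ha := congrArg (fun τ => act τ a) h
              simp only [act_switch_self] at ha
              have hz : z = z' := by
                have := congrArg (fun τ : Equiv.Perm (Fin n) => τ (run σ L v)) ha
                simp only [Equiv.Perm.mul_apply, Equiv.swap_apply_left] at this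
                rw [hxx] at this
                simpa using this
              subst hz
              rw [hy] at ha
              have hact : act σ a = act σ' a := mul_left_cancel ha
              have hσ : σ = σ' := by
                funext k
                by_cases hk : k = a.1
                · subst hk
                  obtain ⟨i, _ | _⟩ := a <;> simpa [act] using hact
                · have := congrFun h k
                  simpa [switch, Function.update_of_ne hk] using this
              exact Sigma.ext hσ HEq.rfl
        _ ≤ K * Fintype.card (ι → Equiv.Perm (Fin n)) := by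
            rw [card_sigma, mul_comm K, ← smul_eq_mul, ← card_univ, ← sum_const]
            refine sum_le_sum fun σ _ => ?_
            have := card_visited_le σ L v
            have := card_insert_le w (visited σ L v)
            omega
    calc _ ≤ ({σ : ι → Equiv.Perm (Fin n) | ¬ Good σ v w L}.ncard + B.card) * (n - K) :=
          Nat.mul_le_mul_right _ hsplit
      _ = _ := add_mul _ _ _
      _ ≤ L.length * K * Fintype.card (ι → Equiv.Perm (Fin n)) +
            K * Fintype.card (ι → Equiv.Perm (Fin n)) := add_le_add ih hstep
      _ = _ := by ring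

/-- A nontrivial word rarely carries a given point to a given point. -/
lemma eventually_word_rare (g : FreeGroup ι) (hg : g ≠ 1) {ε : ℝ} (hε : 0 < ε) :
    ∀ᶠ n : ℕ in Filter.atTop, ∀ v w : Fin n,
      ({σ : ι → Equiv.Perm (Fin n) | FreeGroup.lift σ g v = w}.ncard : ℝ) ≤
        ε * Fintype.card (ι → Equiv.Perm (Fin n)) := by
  set L := g.toWord with hL
  set K := L.length + 2 with hK
  obtain ⟨N, hN⟩ := exists_nat_gt ((K : ℝ) * K / ε + K)
  refine Filter.eventually_atTop.2 ⟨N, fun n hn v w => ?_⟩
  have hnR : (K : ℝ) * K / ε + K < n := hN.trans_le (by exact_mod_cast hn)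
  have hKn : K ≤ n := by
    have : (K : ℝ) ≤ n := le_trans (le_add_of_nonneg_left (by positivity)) hnR.le
    exact_mod_cast this
  have hsub : {σ : ι → Equiv.Perm (Fin n) | FreeGroup.lift σ g v = w} ⊆
      {σ : ι → Equiv.Perm (Fin n) | ¬ Good σ v w L} := by
    intro σ hσ hgood
    have hne : L ≠ [] := fun h => hg (FreeGroup.toWord_eq_nil_iff.1 (hL ▸ h))
    obtain ⟨a, M, hLaM⟩ := List.exists_cons_of_ne_nil hne
    rw [Set.mem_ofPred_eq, ← FreeGroup.mk_toWord (x := g), ← hL, lift_mk_apply, hLaM] at hσ
    rw [hLaM] at hgood
    exact hgood.2 (by simp only [run] at hσ; rw [hσ]; exact mem_insert_self _ _)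
  set c := Fintype.card (ι → Equiv.Perm (Fin n))
  set b := {σ : ι → Equiv.Perm (Fin n) | FreeGroup.lift σ g v = w}.ncard
  have h : b * (n - K) ≤ K * K * c :=
    (Nat.mul_le_mul_right _ (Set.ncard_le_ncard hsub (Set.toFinite _))).trans
      ((card_not_good_le v w L FreeGroup.isReduced_toWord K (by omega)).trans (by gcongr; omega))
  have hR : (b : ℝ) * ((n : ℝ) - K) ≤ K * K * c := by
    rw [← Nat.cast_sub hKn]; exact_mod_cast h
  have hKK : (K : ℝ) * K ≤ ε * ((n : ℝ) - K) := by
    rw [← div_le_iff₀' hε]; linarith
  have hpos : (0 : ℝ) < (n : ℝ) - K := by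
    linarith [show (0 : ℝ) ≤ (K : ℝ) * K / ε by positivity]
  refine le_of_mul_le_mul_right ?_ hpos
  calc (b : ℝ) * ((n : ℝ) - K) ≤ K * K * c := hR
    _ ≤ ε * ((n : ℝ) - K) * c := by gcongr
    _ = _ := by ring

end Walk

end Vale.Agent.P189.Sparse
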