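import Vale.Agent.P189.Closure

/-!
Pointwise properties of the stages of the closure.
-/

namespace Vale.Agent.P189

open Function

variable {p : ℕ} {S0 : Type}

/-- Two edges lie over the same edge and start at the same node. -/
def Same {S : Type} (Z : Gph (G p) (Fin p × S)) (e e' : EdgeId p S) : Prop :=
  img e = img e' ∧ Z.R (en e false) (en e' false)

/-- The least edge among the edges the same as it. -/
def IsRep {S : Type} [Countable S] (Z : Gph (G p) (Fin p × S)) (e : EdgeId p S) : Prop :=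
  e ∈ Z.E ∧ ∀ e' ∈ Z.E, Same Z e e' → code e.2 ≤ code e'.2

/-- The cell of a fresh edge with head `hd`. -/
def opCell (e : CEdge p S0) (hd : Fin p × Fin (p + 1)) : G p × Fin p := cellBase e.1 hd

/-- The hypotheses on the old graph used pointwise. -/
structure OldOK (Ψ : Gph (G p) (Fin p × S0)) : Prop where
  eqv : Equivalence Ψ.R
  pos_eq : ∀ a b, Ψ.Pres a → Ψ.Pres b → Ψ.R a b → pos a = pos b

lemma oldRel_eqvGen {Ψ : Gph (G p) (Fin p × S0)} (hΨ : Equivalence Ψ.R) {a b : CEnd p S0}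
    (h : Relation.EqvGen (oldRel Ψ) a b) : a = b ∨ oldRel Ψ a b := by
  induction h with
  | rel _ _ h => exact Or.inr h
  | refl _ => exact Or.inl rfl
  | symm _ _ _ ih =>
    rcases ih with rfl | ⟨a', b', rfl, rfl, ha, hb, hr⟩
    · exact Or.inl rfl
    · exact Or.inr ⟨b', a', rfl, rfl, hb, ha, hΨ.symm hr⟩
  | trans _ _ _ _ _ ih₁ ih₂ =>
    rcases ih₁ with rfl | ⟨a', b', rfl, rfl, ha, hb, hr⟩
    · exact ih₂
    rcases ih₂ with h | ⟨b'', c', hbb, rfl, -, hc, hr'⟩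
    · exact Or.inr ⟨a', b', rfl, h.symm, ha, hb, hr⟩
    · obtain rfl := embEnd_injective hbb
      exact Or.inr ⟨a', c', rfl, rfl, ha, hc, hΨ.trans hr hr'⟩

lemma end_eq_exit {H S : Type} {k : Fin (p + 1)} {a : End H S} (h : side a = orient k) :
    a = exitEnd k (edge a) := by rw [exitEnd, ← h]; rfl

lemma end_eq_enter {H S : Type} {k : Fin (p + 1)} {a : End H S} (h : side a = !orient k) :
    a = enterEnd k (edge a) := by rw [enterEnd, ← h]; rfl

variable [Countable S0] {Ψ : Gph (G p) (Fin p × S0)} {x : Lab (G p)} {t : ℕ → ℝ}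

lemma stage_succ (n : ℕ) :
    (stage Ψ x t (n + 1)).Z = folded Ψ ((stage Ψ x t n).Z.E ∪ fresh (stage Ψ x t n).Z x (t n))
      (attRel (stage Ψ x t n).Z x (t n)) := rfl

lemma stage_eqv (n : ℕ) : Equivalence (stage Ψ x t n).Z.R := by
  cases n <;> exact foldRel_equivalence (Relation.EqvGen.is_equivalence _)

lemma stage_fold (n : ℕ) {e e' : CEdge p S0} {b : Bool} (he : e ∈ (stage Ψ x t n).Z.E)
    (he' : e' ∈ (stage Ψ x t n).Z.E) (hi : img e = img e')
    (h : (stage Ψ x t n).Z.R (en e b) (en e' b)) :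
    (stage Ψ x t n).Z.R (en e (!b)) (en e' (!b)) := by
  cases n <;> exact FoldRel.fold he he' hi h

lemma stage_E_succ {n : ℕ} {e : CEdge p S0} :
    e ∈ (stage Ψ x t (n + 1)).Z.E ↔
      e ∈ (stage Ψ x t n).Z.E ∨ e ∈ fresh (stage Ψ x t n).Z x (t n) := Iff.rfl

lemma stage_R_succ {n : ℕ} {a b : CEnd p S0} (h : (stage Ψ x t n).Z.R a b) :
    (stage Ψ x t (n + 1)).Z.R a b :=
  FoldRel.base (Relation.EqvGen.rel _ _ (Or.inl h))

lemma stage_att {n : ℕ} {a c : CEnd p S0} (ha : edge a ∈ fresh (stage Ψ x t n).Z x (t n))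
    (h : AttachTo (stage Ψ x t n).Z a c) : (stage Ψ x t (n + 1)).Z.R a c :=
  FoldRel.base (Relation.EqvGen.rel _ _ (Or.inr ⟨ha, h⟩))

lemma stage_E_mono {n m : ℕ} (h : n ≤ m) :
    (stage Ψ x t n).Z.E ⊆ (stage Ψ x t m).Z.E := by
  induction h with
  | refl => exact subset_rfl
  | step _ ih => exact fun e he => Or.inl (ih he)

lemma stage_R_mono {n m : ℕ} (h : n ≤ m) {a b : CEnd p S0} (hab : (stage Ψ x t n).Z.R a b) :
    (stage Ψ x t m).Z.R a b := by
  induction h with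
  | refl => exact hab
  | step _ ih => exact stage_R_succ ih

lemma stage_rt_mono {n m : ℕ} (h : n ≤ m) {a : CEnd p S0} {o : End (G p) (Fin p × S0)}
    (ha : (stage Ψ x t n).rt a o) : (stage Ψ x t m).rt a o := by
  induction h with
  | refl => exact ha
  | step _ ih => exact Or.inl ih

lemma stage_zero_E {e : CEdge p S0} :
    e ∈ (stage Ψ x t 0).Z.E ↔ ∃ e' ∈ Ψ.E, emb e' = e := Iff.rfl

lemma mem_of_emb {n : ℕ} {e' : EdgeId p S0} (h : e' ∈ Ψ.E) :
    emb e' ∈ (stage Ψ x t n).Z.E := stage_E_mono (Nat.zero_le n) ⟨e', h, rfl⟩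

lemma emb_or_cons : ∀ {n : ℕ} {e : CEdge p S0}, e ∈ (stage Ψ x t n).Z.E →
    (∃ e' ∈ Ψ.E, emb e' = e) ∨ ∃ hd l, e.2.2.1 = hd :: l
  | 0, _, h => Or.inl h
  | _ + 1, _, Or.inl h => emb_or_cons h
  | _ + 1, _, Or.inr ⟨_, ⟨_, m, k₀, l, hl, _⟩, _⟩ => Or.inr ⟨(m, k₀), l, hl⟩

omit [Countable S0] in
lemma fin_add_one_ne [Fintype (Fin p)] (C : G p × Fin p) (k : Fin (p + 1)) : k + 1 ≠ k := by
  have := C.2.pos
  intro h
  have h1 : ((1 : Fin (p + 1)) : ℕ) = 0 := by rw [add_eq_left.1 h]; rfl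
  simp [Nat.mod_eq_of_lt (show 1 < p + 1 by omega)] at h1

omit [Countable S0] in
lemma fin_sub_one_ne (C : G p × Fin p) (k : Fin (p + 1)) : k - 1 ≠ k := fun h => by
  have := fin_add_one_ne C (k - 1)
  rw [sub_add_cancel] at this
  exact this h.symm

lemma attach_pres {Z : Gph (G p) (Fin p × Lbl p S0)} {a c : CEnd p S0} (h : AttachTo Z a c) :
    Z.Pres c := by
  obtain ⟨lab, m, k₀, l, hl, ⟨⟨m', k', l', hl', he, hp, -⟩, -⟩, h⟩ := h
  rw [hl] at hl'
  simp only [List.cons.injEq, Prod.mk.injEq] at hl'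
  obtain ⟨⟨rfl, rfl⟩, rfl⟩ := hl'
  rcases h with ⟨-, rfl⟩ | ⟨-, rfl⟩
  · exact (hp _ (fin_add_one_ne (cellBase a.1 (m, k₀)) k₀)).1
  · exact (hp _ (fin_sub_one_ne (cellBase a.1 (m, k₀)) k₀)).1

lemma stage_R_pres (hΨ : Equivalence Ψ.R) : ∀ (n : ℕ) {a b : CEnd p S0},
    (stage Ψ x t n).Z.R a b → a = b ∨ ((stage Ψ x t n).Z.Pres a ∧ (stage Ψ x t n).Z.Pres b) := by
  intro n
  induction n with
  | zero =>
    intro a b h
    induction h with
    | base h =>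
      rcases oldRel_eqvGen hΨ h with rfl | ⟨a', b', rfl, rfl, ha, hb, -⟩
      · exact Or.inl rfl
      · exact Or.inr ⟨⟨_, ha, rfl⟩, ⟨_, hb, rfl⟩⟩
    | symm _ ih => exact ih.imp Eq.symm And.symm
    | trans _ _ ih₁ ih₂ =>
      rcases ih₁ with rfl | h₁
      · exact ih₂
      rcases ih₂ with rfl | h₂
      · exact Or.inr h₁
      exact Or.inr ⟨h₁.1, h₂.2⟩
    | fold he he' _ _ _ => exact Or.inr ⟨he, he'⟩
  | succ n ih =>
    intro a b h
    induction h with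
    | base h =>
      induction h with
      | rel u v h =>
        rcases h with h | ⟨hu, h⟩
        · exact (ih h).imp id fun hp => ⟨Or.inl hp.1, Or.inl hp.2⟩
        · exact Or.inr ⟨Or.inr hu, Or.inl (attach_pres h)⟩
      | refl _ => exact Or.inl rfl
      | symm _ _ _ ih => exact ih.imp Eq.symm And.symm
      | trans _ _ _ _ _ ih₁ ih₂ =>
        rcases ih₁ with rfl | h₁
        · exact ih₂
        rcases ih₂ with rfl | h₂
        · exact Or.inr h₁
        exact Or.inr ⟨h₁.1, h₂.2⟩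
    | symm _ ih => exact ih.imp Eq.symm And.symm
    | trans _ _ ih₁ ih₂ =>
      rcases ih₁ with rfl | h₁
      · exact ih₂
      rcases ih₂ with rfl | h₂
      · exact Or.inr h₁
      exact Or.inr ⟨h₁.1, h₂.2⟩
    | fold he he' _ _ _ => exact Or.inr ⟨he, he'⟩

lemma attach_pos {Z : Gph (G p) (Fin p × Lbl p S0)} {a c : CEnd p S0} (h : AttachTo Z a c) :
    pos a = pos c := by
  obtain ⟨lab, m, k₀, l, hl, ⟨⟨m', k', l', hl', he, hp, -⟩, -⟩, h⟩ := h
  rw [hl] at hl'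
  simp only [List.cons.injEq, Prod.mk.injEq] at hl'
  obtain ⟨⟨rfl, rfl⟩, rfl⟩ := hl'
  rcases h with ⟨hs, rfl⟩ | ⟨hs, rfl⟩
  · show ipos (img (edge a)) (side a) = _
    rw [hs, ← he, img_liftE]
    exact ipos_slot_succ _ k₀
  · show ipos (img (edge a)) (side a) = _
    rw [hs, ← he, img_liftE]
    have := ipos_slot_succ (cellBase a.1 (m, k₀)) (k₀ - 1)
    rw [sub_add_cancel] at this
    exact this.symm

lemma stage_R_pos (hΨ : OldOK Ψ) : ∀ (n : ℕ) {a b : CEnd p S0},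
    (stage Ψ x t n).Z.R a b → pos a = pos b := by
  intro n
  induction n with
  | zero =>
    intro a b h
    induction h with
    | base h =>
      rcases oldRel_eqvGen hΨ.eqv h with rfl | ⟨a', b', rfl, rfl, ha, hb, hr⟩
      · rfl
      · exact hΨ.pos_eq a' b' ha hb hr
    | symm _ ih => exact ih.symm
    | trans _ _ ih₁ ih₂ => exact ih₁.trans ih₂
    | fold _ _ hi _ _ => simp only [pos_en, hi]
  | succ n ih =>
    intro a b h
    induction h with
    | base h =>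
      induction h with
      | rel u v h => exact h.elim (fun h => ih h) fun h => attach_pos h.2
      | refl _ => rfl
      | symm _ _ _ ih => exact ih.symm
      | trans _ _ _ _ _ ih₁ ih₂ => exact ih₁.trans ih₂
    | symm _ ih => exact ih.symm
    | trans _ _ ih₁ ih₂ => exact ih₁.trans ih₂
    | fold _ _ hi _ _ => simp only [pos_en, hi]

lemma rt_spec : ∀ {n : ℕ} {a : CEnd p S0} {o : End (G p) (Fin p × S0)},
    (stage Ψ x t n).rt a o →
      (stage Ψ x t n).Z.Pres a ∧ Ψ.Pres o ∧ (stage Ψ x t n).Z.R a (embEnd o)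
  | 0, a, o, ⟨ho, he⟩ => ⟨⟨edge o, ho, by rw [← he]; rfl⟩, ho, he ▸ (stage_eqv 0).refl _⟩
  | n + 1, a, o, Or.inl h =>
    ⟨Or.inl (rt_spec h).1, (rt_spec h).2.1, stage_R_succ (rt_spec h).2.2⟩
  | n + 1, a, o, Or.inr ⟨ha, c, hc, h⟩ =>
    ⟨Or.inr ha, (rt_spec h).2.1,
      (stage_eqv (n + 1)).trans (stage_att ha hc) (stage_R_succ (rt_spec h).2.2)⟩

lemma exists_chosen {Z : Gph (G p) (Fin p × Lbl p S0)} {e : CEdge p S0}
    (h : ∃ lab, Cand Z e lab) : ∃ lab, Chosen Z e lab := by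
  classical
  have hex : ∃ n, ∃ lab, Cand Z e lab ∧ code lab = n := by
    obtain ⟨lab, h⟩ := h
    exact ⟨_, lab, h, rfl⟩
  obtain ⟨lab, h1, h2⟩ := Nat.find_spec hex
  exact ⟨lab, h1, fun lab' h' => h2.le.trans (Nat.find_min' hex ⟨lab', h', rfl⟩)⟩

lemma exists_attach {Z : Gph (G p) (Fin p × Lbl p S0)} {a : CEnd p S0}
    (h : ∃ lab, Cand Z (edge a) lab) : ∃ c, AttachTo Z a c := by
  obtain ⟨lab, hlab⟩ := exists_chosen h
  obtain ⟨⟨m, k₀, l, hl, -⟩, -⟩ := id hlab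
  by_cases hs : side a = orient k₀
  · exact ⟨_, lab, m, k₀, l, hl, hlab, Or.inl ⟨hs, rfl⟩⟩
  · exact ⟨_, lab, m, k₀, l, hl, hlab, Or.inr ⟨Bool.eq_not.2 hs, rfl⟩⟩

lemma exists_rt : ∀ {n : ℕ} {a : CEnd p S0}, (stage Ψ x t n).Z.Pres a →
    ∃ o, (stage Ψ x t n).rt a o
  | 0, a, ⟨e', he', hee⟩ => ⟨en e' (side a), he', by simp [embEnd, hee]⟩
  | _ + 1, _, Or.inl h => (exists_rt h).imp fun _ => Or.inl
  | n + 1, a, Or.inr ha => by
    obtain ⟨c, hc⟩ := exists_attach ha.2.1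
    obtain ⟨o, ho⟩ := exists_rt (attach_pres hc)
    exact ⟨o, Or.inr ⟨ha, c, hc, ho⟩⟩

lemma attach_unique {Z : Gph (G p) (Fin p × Lbl p S0)} {a c c' : CEnd p S0}
    (h : AttachTo Z a c) (h' : AttachTo Z a c') : c = c' := by
  obtain ⟨lab, m, k₀, l, hl, hc, h⟩ := h
  obtain ⟨lab', m', k', l', hl', hc', h'⟩ := h'
  rw [hl] at hl'
  simp only [List.cons.injEq, Prod.mk.injEq] at hl'
  obtain ⟨⟨rfl, rfl⟩, rfl⟩ := hl'
  obtain rfl := code_injective (le_antisymm (hc.2 lab' hc'.1) (hc'.2 lab hc.1))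
  rcases h with ⟨hs, rfl⟩ | ⟨hs, rfl⟩ <;> rcases h' with ⟨hs', rfl⟩ | ⟨hs', rfl⟩
  all_goals first | rfl | (rw [hs] at hs'; simp at hs')

lemma rt_unique : ∀ {n : ℕ} {a : CEnd p S0} {o o' : End (G p) (Fin p × S0)},
    (stage Ψ x t n).rt a o → (stage Ψ x t n).rt a o' → o = o'
  | 0, _, _, _, ⟨_, h⟩, ⟨_, h'⟩ => embEnd_injective (h.trans h'.symm)
  | _ + 1, _, _, _, Or.inl h, Or.inl h' => rt_unique h h'
  | _ + 1, _, _, _, Or.inl h, Or.inr ⟨ha, _⟩ => absurd (rt_spec h).1 ha.1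
  | _ + 1, _, _, _, Or.inr ⟨ha, _⟩, Or.inl h => absurd (rt_spec h).1 ha.1
  | _ + 1, _, _, _, Or.inr ⟨_, _, hc, h⟩, Or.inr ⟨_, _, hc', h'⟩ =>
    rt_unique h (attach_unique hc hc' ▸ h')

/-- A fresh edge closes its cell. -/
lemma fresh_closed {n : ℕ} {e : CEdge p S0} (he : e ∈ fresh (stage Ψ x t n).Z x (t n))
    {lab : Fin (p + 1) → Lbl p S0} (hlab : Chosen (stage Ψ x t n).Z e lab)
    {m : Fin p} {k₀ : Fin (p + 1)} {l : List (Fin p × Fin (p + 1))}
    (hl : e.2.2.1 = (m, k₀) :: l) :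
    IsClosed (stage Ψ x t (n + 1)).Z (cellBase e.1 (m, k₀)) lab ∧
      liftE (cellBase e.1 (m, k₀)) lab k₀ = e := by
  obtain ⟨⟨m', k', l', hl', hle, hp, -⟩, -⟩ := id hlab
  rw [hl] at hl'
  simp only [List.cons.injEq, Prod.mk.injEq] at hl'
  obtain ⟨⟨rfl, rfl⟩, rfl⟩ := hl'
  refine ⟨fun k => ?_, hle⟩
  rcases eq_or_ne k k₀ with rfl | hk
  · refine ⟨by rw [hle]; exact Or.inr he, ?_⟩
    rw [Cons, hle]
    exact stage_att (a := exitEnd k e) he
      ⟨lab, m, k, l, hl, hlab, Or.inl ⟨rfl, rfl⟩⟩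
  · refine ⟨Or.inl (hp k hk).1, ?_⟩
    rcases eq_or_ne (k + 1) k₀ with h1 | h1
    · have hatt : AttachTo (stage Ψ x t n).Z (enterEnd k₀ e)
          (exitEnd (k₀ - 1) (liftE (cellBase e.1 (m, k₀)) lab (k₀ - 1))) :=
        ⟨lab, m, k₀, l, hl, hlab, Or.inr ⟨rfl, rfl⟩⟩
      rw [← h1, add_sub_cancel_right] at hatt
      rw [Cons, h1, hle]
      exact (stage_eqv (n + 1)).symm (stage_att (a := enterEnd k₀ e) he (h1 ▸ hatt))
    · exact stage_R_succ ((hp k hk).2 h1)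

lemma IsClosed.mono {n n' : ℕ} (h : n ≤ n') {C : G p × Fin p} {lab : Fin (p + 1) → Lbl p S0}
    (hc : IsClosed (stage Ψ x t n).Z C lab) : IsClosed (stage Ψ x t n').Z C lab :=
  fun k => ⟨stage_E_mono h (hc k).1, stage_R_mono h (hc k).2⟩

/-- Every fresh edge lies in a lift of its cell. -/
lemma exists_opCell {m : Fin p} {k₀ : Fin (p + 1)} {l : List (Fin p × Fin (p + 1))} :
    ∀ {n : ℕ} {e : CEdge p S0}, e ∈ (stage Ψ x t n).Z.E → e.2.2.1 = (m, k₀) :: l →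
      ∃ lab, IsClosed (stage Ψ x t n).Z (opCell e (m, k₀)) lab ∧
        liftE (opCell e (m, k₀)) lab k₀ = e
  | 0, _, ⟨e', _, hee⟩, hl => by simp [← hee, emb] at hl
  | n + 1, e, Or.inl h, hl =>
    (exists_opCell h hl).imp fun _ h' => ⟨h'.1.mono (Nat.le_succ n), h'.2⟩
  | _ + 1, _, Or.inr h, hl => (exists_chosen h.2.1).imp fun _ hlab => fresh_closed h hlab hl

lemma same_symm {n : ℕ} {e e' : CEdge p S0} (h : Same (stage Ψ x t n).Z e e') :
    Same (stage Ψ x t n).Z e' e := ⟨h.1.symm, (stage_eqv n).symm h.2⟩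

lemma same_trans {n : ℕ} {e e' e'' : CEdge p S0} (h : Same (stage Ψ x t n).Z e e')
    (h' : Same (stage Ψ x t n).Z e' e'') : Same (stage Ψ x t n).Z e e'' :=
  ⟨h.1.trans h'.1, (stage_eqv n).trans h.2 h'.2⟩

lemma same_refl (n : ℕ) (e : CEdge p S0) : Same (stage Ψ x t n).Z e e :=
  ⟨rfl, (stage_eqv n).refl _⟩

lemma same_mono {n m : ℕ} (h : n ≤ m) {e e' : CEdge p S0} (hs : Same (stage Ψ x t n).Z e e') :
    Same (stage Ψ x t m).Z e e' := ⟨hs.1, stage_R_mono h hs.2⟩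

lemma same_of_end {n : ℕ} {e e' : CEdge p S0} {b : Bool} (he : e ∈ (stage Ψ x t n).Z.E)
    (he' : e' ∈ (stage Ψ x t n).Z.E) (hi : img e = img e')
    (h : (stage Ψ x t n).Z.R (en e b) (en e' b)) : Same (stage Ψ x t n).Z e e' := by
  cases b
  · exact ⟨hi, h⟩
  · exact ⟨hi, stage_fold n he he' hi h⟩

lemma Same.ends {n : ℕ} {e e' : CEdge p S0} (he : e ∈ (stage Ψ x t n).Z.E)
    (he' : e' ∈ (stage Ψ x t n).Z.E) (h : Same (stage Ψ x t n).Z e e') (b : Bool) :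
    (stage Ψ x t n).Z.R (en e b) (en e' b) := by
  cases b
  · exact h.2
  · exact stage_fold n he he' h.1 h.2

open Fin.NatCast in
/-- A lift of a cell is determined by any one of its edge classes. -/
lemma closed_unique {n : ℕ} {C : G p × Fin p} {lab lab' : Fin (p + 1) → Lbl p S0}
    (h : IsClosed (stage Ψ x t n).Z C lab) (h' : IsClosed (stage Ψ x t n).Z C lab')
    {k : Fin (p + 1)} (hk : Same (stage Ψ x t n).Z (liftE C lab k) (liftE C lab' k))
    (l : Fin (p + 1)) : Same (stage Ψ x t n).Z (liftE C lab l) (liftE C lab' l) := by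
  suffices ∀ i : ℕ, Same (stage Ψ x t n).Z (liftE C lab (k + (i : Fin (p + 1))))
      (liftE C lab' (k + (i : Fin (p + 1)))) by
    have := this (l - k : Fin (p + 1)).val
    simpa using this
  intro i
  induction i with
  | zero => simpa using hk
  | succ i ih =>
    rw [Nat.cast_succ, ← add_assoc]
    set j := k + (i : Fin (p + 1))
    refine same_of_end (b := !orient (j + 1)) (h (j + 1)).1 (h' (j + 1)).1 (by simp) ?_
    exact (stage_eqv n).trans ((stage_eqv n).symm (h j).2)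
      ((stage_eqv n).trans (ih.ends (h j).1 (h' j).1 (orient j)) (h' j).2)

lemma exists_rep {n : ℕ} {e : CEdge p S0} (he : e ∈ (stage Ψ x t n).Z.E) :
    ∃ r, IsRep (stage Ψ x t n).Z r ∧ Same (stage Ψ x t n).Z e r := by
  classical
  have hex : ∃ c, ∃ r ∈ (stage Ψ x t n).Z.E, Same (stage Ψ x t n).Z e r ∧ code r.2 = c :=
    ⟨_, e, he, same_refl n e, rfl⟩
  obtain ⟨r, hr, hs, hc⟩ := Nat.find_spec hex
  exact ⟨r, ⟨hr, fun e' he' h => hc.le.trans
    (Nat.find_min' hex ⟨e', he', same_trans hs h, rfl⟩)⟩, hs⟩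

lemma rep_unique {n : ℕ} {r r' : CEdge p S0} (hr : IsRep (stage Ψ x t n).Z r)
    (hr' : IsRep (stage Ψ x t n).Z r') (h : Same (stage Ψ x t n).Z r r') : r = r' :=
  Prod.ext (congrArg Prod.fst h.1 :)
    (code_injective (le_antisymm (hr.2 r' hr'.1 h) (hr'.2 r hr.1 (same_symm h))))

end Vale.Agent.P189
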