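import Vale.Agent.P189.Graph
import Vale.Agent.P189.Group

/-!
States: invariant random graphs over the Cayley graph of the lamp group, with a marked node at
every position, and the least length of a state of given cost.
-/

namespace Vale.Agent.P189

open MeasureTheory Function
open scoped ENNReal unitInterval

variable {p : ℕ} {S0 : Type}

/-- The labels of the edges of a graph over the Cayley graph: a lamp type and a further label. -/
abbrev EdgeId (p : ℕ) (S0 : Type) : Type := G p × (Fin p × S0)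

/-- The edge of the Cayley graph under an edge. -/
def img (e : EdgeId p S0) : G p × Fin p := (e.1, e.2.1)

/-- The position of the end of an edge of the Cayley graph. -/
def ipos (y : G p × Fin p) (b : Bool) : N p :=
  if b then (y.1 * T y.2).left else y.1.left

/-- The position of an end. -/
def pos (a : End (G p) (Fin p × S0)) : N p := ipos (img (edge a)) (side a)

@[simp] lemma img_tr (h : G p) (e : EdgeId p S0) : img (tr h e) = tr h (img e) := rfl

@[simp] lemma pos_en (e : EdgeId p S0) (b : Bool) : pos (en e b) = ipos (img e) b := rfl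

/-- The action of the group on positions. -/
def posMove (h : G p) (n : N p) : N p := h.left * translate p h.right n

lemma posMove_left (h g : G p) : posMove h g.left = (h * g).left :=
  (SemidirectProduct.mul_left h g).symm

lemma posMove_injective (h : G p) : Injective (posMove h) := fun a b hab =>
  (translate p h.right).injective (mul_left_cancel hab)

lemma ipos_tr (h : G p) (y : G p × Fin p) (b : Bool) :
    ipos (tr h y) b = posMove h (ipos y b) := by
  cases b <;> simp [ipos, tr, posMove, mul_assoc]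

lemma pos_tr (h : G p) (a : End (G p) (Fin p × S0)) : pos (tr h a) = posMove h (pos a) :=
  ipos_tr h (img (edge a)) (side a)

lemma ipos_false (y : G p × Fin p) : ipos y false = y.1.left := rfl

lemma ipos_true (y : G p × Fin p) :
    ipos y true = y.1.left * lamp (y.2, y.1.right) := by
  show (y.1 * T y.2).left = _
  rw [SemidirectProduct.mul_left]
  show y.1.left * translateHom p y.1.right (lamp (y.2, 1)) = _
  rw [translateHom_lamp, mul_one]

/-- No lamp is trivial. -/
lemma lamp_ne_one (hp : 3 ≤ p) (l : Lamp p) : lamp l ≠ 1 := by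
  let f : Lamp p → Multiplicative (ZMod (p - 1)) := fun _ => Multiplicative.ofAdd 1
  have hf : ∀ r ∈ Set.range (relator (p := p)), FreeGroup.lift f r = 1 := by
    rintro _ ⟨l, rfl⟩
    have h1 : ((rhs l).map FreeGroup.of).map (FreeGroup.lift f) =
        List.replicate p (Multiplicative.ofAdd (1 : ZMod (p - 1))) := by
      rw [List.eq_replicate_iff]
      simp [rhs, f]
    have h2 : ((p : ℕ) : ZMod (p - 1)) = 1 := by
      have e : ((p : ℕ) : ZMod (p - 1)) = (((p - 1) + 1 : ℕ) : ZMod (p - 1)) := by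
        rw [show p - 1 + 1 = p by omega]
      rw [e, Nat.cast_add, ZMod.natCast_self]
      simp
    rw [relator, map_mul, map_inv, map_list_prod, h1, List.prod_replicate, ← ofAdd_nsmul]
    simp [f, h2]
  intro h
  have hl : PresentedGroup.toGroup hf (lamp l) = f l := PresentedGroup.toGroup.of hf
  rw [h, map_one] at hl
  have : Fact (1 < p - 1) := ⟨by omega⟩
  exact one_ne_zero (α := ZMod (p - 1)) (Multiplicative.ofAdd.injective hl.symm)

/-- Being joined by a walk among present ends. -/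
def Gph.Link {H S : Type} (Γ : Gph H S) : End H S → End H S → Prop :=
  Relation.EqvGen fun a b => Γ.Pres a ∧ Γ.Pres b ∧ (Γ.R a b ∨ edge a = edge b)

/-- An unmarked node with a single end. -/
def Gph.LeafEnd {H S : Type} (Γ : Gph H S) (a : End H S) : Prop :=
  Γ.Pres a ∧ ¬Γ.Mk a ∧ Γ.cnt a = 1

/-- An edge with an end at an unmarked node of degree one. -/
def Gph.LeafE {H S : Type} (Γ : Gph H S) (e : H × S) : Prop :=
  e ∈ Γ.E ∧ ∃ b, Γ.LeafEnd (en e b)

/-- A state. -/
structure IsState (Ψ : Lab (G p) → Gph (G p) (Fin p × S0)) : Prop where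
  rg : IsRG Ψ
  pos_eq : ∀ᵐ x ∂law (G p), ∀ a b, (Ψ x).Pres a → (Ψ x).Pres b → (Ψ x).R a b → pos a = pos b
  mark_eq : ∀ᵐ x ∂law (G p), ∀ a b, (Ψ x).Pres a → (Ψ x).Pres b → (Ψ x).Mk a → (Ψ x).Mk b →
    pos a = pos b → (Ψ x).R a b
  conn : ∀ᵐ x ∂law (G p), ∀ a b, (Ψ x).Pres a → (Ψ x).Pres b → (Ψ x).Link a b
  marked : ∀ᵐ x ∂law (G p), ∀ n : N p, ∃ a, (Ψ x).Pres a ∧ (Ψ x).Mk a ∧ pos a = n

/-- The least length of a state of cost at most `c`. -/
noncomputable def mlen (p : ℕ) (c : ℝ≥0∞) : ℝ≥0∞ :=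
  ⨅ (S0 : Type) (_ : Countable S0) (Ψ : Lab (G p) → Gph (G p) (Fin p × S0)) (_ : IsState Ψ)
    (_ : edens Ψ ≤ c + vdens Ψ), edens Ψ

lemma mlen_le [Countable S0] {Ψ : Lab (G p) → Gph (G p) (Fin p × S0)} {c : ℝ≥0∞} (h : IsState Ψ)
    (hc : edens Ψ ≤ c + vdens Ψ) : mlen p c ≤ edens Ψ :=
  iInf_le_of_le S0 <| iInf_le_of_le ‹_› <| iInf_le_of_le Ψ <| iInf_le_of_le h <|
    iInf_le_of_le hc le_rfl

lemma exists_of_mlen_lt {c r : ℝ≥0∞} (h : mlen p c < r) :
    ∃ (S0 : Type) (_ : Countable S0) (Ψ : Lab (G p) → Gph (G p) (Fin p × S0)),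
      IsState Ψ ∧ edens Ψ ≤ c + vdens Ψ ∧ edens Ψ < r := by
  simp only [mlen, iInf_lt_iff] at h
  obtain ⟨S0, h0, Ψ, h1, h2, h3⟩ := h
  exact ⟨S0, h0, Ψ, h1, h2, h3⟩

lemma mlen_anti {c c' : ℝ≥0∞} (h : c ≤ c') : mlen p c' ≤ mlen p c :=
  le_iInf fun S0 => le_iInf fun h0 => le_iInf fun Ψ => le_iInf fun h1 => le_iInf fun h2 =>
    have := h0
    mlen_le h1 (h2.trans (by gcongr))

/-- The gain: a constant drop of length at an arbitrarily small rise of cost. -/
def HasStep (p : ℕ) (κ : ℝ) : Prop :=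
  ∀ (S0 : Type) [Countable S0] (Ψ : Lab (G p) → Gph (G p) (Fin p × S0)) (c ε : ℝ),
    IsState Ψ → 0 ≤ c → c ≤ 7 → 0 < ε → ε ≤ 1 → edens Ψ ≤ ENNReal.ofReal c + vdens Ψ →
    edens Ψ ≠ ∞ → mlen p (ENNReal.ofReal (c + ε)) + ENNReal.ofReal κ ≤ edens Ψ + ENNReal.ofReal ε

/-- A gain is impossible once some state of cost six has finite length. -/
theorem false_of_step {κ : ℝ} (hκ : 0 < κ) (hstep : HasStep p κ) (h6 : mlen p 6 ≠ ∞) : False := by
  let f : ℝ → ℝ≥0∞ := fun r => mlen p (ENNReal.ofReal r)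
  have hf : Antitone f := fun a b hab => mlen_anti (ENNReal.ofReal_le_ofReal hab)
  obtain ⟨c, hc, hcont⟩ : ∃ c ∈ Set.Ioo (6 : ℝ) 7, ContinuousAt f c := by
    by_contra hno
    push Not at hno
    have hsub : Set.Ioo (6 : ℝ) 7 ⊆ {r | ¬ContinuousAt f r} := fun r hr => hno r hr
    have hcnt := (hf.countable_not_continuousAt).mono hsub
    exact absurd hcnt (fun h => by
      have := h.le_aleph0
      rw [Cardinal.mk_Ioo_real (by norm_num : (6 : ℝ) < 7)] at this
      exact absurd this (not_le.2 Cardinal.aleph0_lt_continuum))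
  have hfin : f c ≠ ∞ := ne_top_of_le_ne_top h6 <| mlen_anti <| by
    rw [show (6 : ℝ≥0∞) = ENNReal.ofReal 6 by norm_num]
    exact ENNReal.ofReal_le_ofReal hc.1.le
  set η := ENNReal.ofReal (κ / 4) with hη
  have hη0 : η ≠ 0 := by simp [hη, hκ]
  obtain ⟨d, hd, hball⟩ : ∃ d > (0 : ℝ), ∀ r, c ≤ r → r < c + d → f c ≤ f r + η := by
    rcases eq_or_ne (f c) 0 with h0 | h0
    · exact ⟨1, one_pos, fun r _ _ => by simp [h0]⟩
    have hlt : f c - η < f c := ENNReal.sub_lt_self hfin h0 hη0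
    have := hcont.eventually_const_le (show f c - η < f c from hlt)
    obtain ⟨d, hd, hd'⟩ := Metric.eventually_nhds_iff.1 this
    exact ⟨d, hd, fun r h1 h2 => tsub_le_iff_right.1 (hd' (by
      rw [Real.dist_eq, abs_of_nonneg] <;> linarith))⟩
  set ε := min (min (d / 2) 1) (κ / 4) with hε
  have hε0 : 0 < ε := lt_min (lt_min (half_pos hd) one_pos) (by linarith)
  have hε1 : ε ≤ 1 := (min_le_left _ _).trans (min_le_right _ _)
  have hεd : ε ≤ d / 2 := (min_le_left _ _).trans (min_le_left _ _)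
  obtain ⟨S0, h0, Ψ, hs, hcost, hlen⟩ :=
    exists_of_mlen_lt (show mlen p (ENNReal.ofReal c) < f c + η from ENNReal.lt_add_right hfin hη0)
  have hLfin : edens Ψ ≠ ∞ := (hlen.trans_le le_top).ne
  have h1 := hstep S0 Ψ c ε hs (by linarith [hc.1]) hc.2.le hε0 hε1 hcost hLfin
  have h2 : f c ≤ f (c + ε) + η := hball _ (by linarith) (by linarith)
  have hεη : ENNReal.ofReal ε ≤ η := ENNReal.ofReal_le_ofReal (min_le_right _ _)
  have h3 : f (c + ε) + ENNReal.ofReal κ ≤ f (c + ε) + η + η + η := by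
    calc f (c + ε) + ENNReal.ofReal κ ≤ edens Ψ + ENNReal.ofReal ε := h1
      _ ≤ (f c + η) + η := by gcongr
      _ ≤ (f (c + ε) + η + η) + η := by gcongr
  have hfin' : f (c + ε) ≠ ∞ := ne_top_of_le_ne_top hfin (hf (by linarith))
  rw [add_assoc, add_assoc] at h3
  have h4 : ENNReal.ofReal κ ≤ η + (η + η) := (ENNReal.add_le_add_iff_left hfin').1 h3
  rw [hη, ← ENNReal.ofReal_add (by linarith) (by linarith),
    ← ENNReal.ofReal_add (by linarith) (by linarith),
    ENNReal.ofReal_le_ofReal_iff (by linarith)] at h4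
  linarith

end Vale.Agent.P189
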