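import Vale.Agent.P189.Expansion

/-!
The graph that folds onto the collapse: the old edges and the fresh edges of the remaining cells,
each cut into pieces along the expansion of its class. Every new node of an attached edge is
identified with the old node below it.
-/

namespace Vale.Agent.P189

open MeasureTheory Function

variable {p : ℕ} {S0 : Type} [Countable S0]

/-- The labels of pieces: an edge label, an index and a letter relative to the edge. -/
abbrev PLbl (p : ℕ) (S0 : Type) : Type :=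
  (Fin p × Lbl p S0) × ℕ × (CEdge p S0 × Bool)

/-- A piece. -/
abbrev Piece (p : ℕ) (S0 : Type) : Type := G p × PLbl p S0

/-- The edge cut by a piece. -/
def srcE (u : Piece p S0) : CEdge p S0 := (u.1, u.2.1)

/-- The position of a piece in its edge. -/
def idx (u : Piece p S0) : ℕ := u.2.2.1

/-- The class under a piece. -/
def pieceMap (u : Piece p S0) : CEdge p S0 := tr u.1 u.2.2.2.1

/-- The direction in which the expansion crosses a piece. -/
def pieceDir (u : Piece p S0) : Bool := u.2.2.2.2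

/-- The piece with given edge, position and letter. -/
def piece (e : CEdge p S0) (i : ℕ) (z : CEdge p S0 × Bool) : Piece p S0 :=
  (e.1, (e.2, i, (tr e.1⁻¹ z.1, z.2)))

/-- The number of the junction at an end of a piece. -/
def jIdx (a : End (G p) (PLbl p S0)) : ℕ :=
  if side a = pieceDir (edge a) then idx (edge a) + 1 else idx (edge a)

/-- The edges to be cut. -/
def Kept (Z : Gph (G p) (Fin p × Lbl p S0)) (K : ℕ) (e : CEdge p S0) : Prop :=
  e ∈ Z.E ∧ (e.2.2.1 = [] ∨ LeftOp Z K e)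

/-- The present pieces. -/
def PieceAt (Z : Gph (G p) (Fin p × Lbl p S0)) (K : ℕ) (u : Piece p S0) : Prop :=
  Kept Z K (srcE u) ∧ ∃ w, ExpTop Z K (srcE u) w ∧ w[idx u]? = some (pieceMap u, pieceDir u)

/-- An end of a piece lies at the old node of `o`. -/
def AtEnd (s : Stg p S0) (K : ℕ) (a : End (G p) (PLbl p S0)) (o : End (G p) (Fin p × S0)) :
    Prop :=
  PieceAt s.Z K (edge a) ∧ ∃ w, ExpTop s.Z K (srcE (edge a)) w ∧
    ((jIdx a = 0 ∧ s.rt (en (srcE (edge a)) false) o) ∨
      (jIdx a = w.length ∧ s.rt (en (srcE (edge a)) true) o))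

/-- An end of a piece lies inside its edge. -/
def InnerAt (Z : Gph (G p) (Fin p × Lbl p S0)) (K : ℕ) (a : End (G p) (PLbl p S0)) : Prop :=
  PieceAt Z K (edge a) ∧ ∃ w, ExpTop Z K (srcE (edge a)) w ∧ 0 < jIdx a ∧ jIdx a < w.length

/-- The subdivided graph. -/
def sub (Ψ : Gph (G p) (Fin p × S0)) (x : Lab (G p)) (t : ℕ → ℝ) (n K : ℕ) :
    Gph (G p) (PLbl p S0) where
  E := {u | PieceAt (stage Ψ x t n).Z K u}
  R a b := a = b ∨ (∃ o o', AtEnd (stage Ψ x t n) K a o ∧ AtEnd (stage Ψ x t n) K b o' ∧ Ψ.R o o') ∨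
    (InnerAt (stage Ψ x t n).Z K a ∧ InnerAt (stage Ψ x t n).Z K b ∧
      srcE (edge a) = srcE (edge b) ∧ jIdx a = jIdx b)
  Mk a := ∃ o, AtEnd (stage Ψ x t n) K a o ∧ Ψ.Mk o

omit [Countable S0] in
lemma tr_tr {H S : Type} [Group H] (h h' : H) (a : H × S) : tr h (tr h' a) = tr (h * h') a := by
  simp [tr, mul_assoc]

omit [Countable S0] in
@[simp] lemma srcE_piece (e : CEdge p S0) (i : ℕ) (z : CEdge p S0 × Bool) :
    srcE (piece e i z) = e := rfl

omit [Countable S0] in
@[simp] lemma idx_piece (e : CEdge p S0) (i : ℕ) (z : CEdge p S0 × Bool) :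
    idx (piece e i z) = i := rfl

omit [Countable S0] in
@[simp] lemma pieceMap_piece (e : CEdge p S0) (i : ℕ) (z : CEdge p S0 × Bool) :
    pieceMap (piece e i z) = z.1 := by
  simp [pieceMap, piece, tr]

omit [Countable S0] in
@[simp] lemma pieceDir_piece (e : CEdge p S0) (i : ℕ) (z : CEdge p S0 × Bool) :
    pieceDir (piece e i z) = z.2 := rfl

omit [Countable S0] in
lemma piece_eta (u : Piece p S0) :
    piece (srcE u) (idx u) (pieceMap u, pieceDir u) = u := by
  simp [piece, srcE, idx, pieceMap, pieceDir, tr]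

omit [Countable S0] in
lemma srcE_tr (h : G p) (u : Piece p S0) : srcE (tr h u) = tr h (srcE u) := rfl

omit [Countable S0] in
lemma pieceMap_tr (h : G p) (u : Piece p S0) : pieceMap (tr h u) = tr h (pieceMap u) :=
  (tr_tr h u.1 u.2.2.2.1).symm

omit [Countable S0] in
lemma jIdx_tr (h : G p) (a : End (G p) (PLbl p S0)) : jIdx (tr h a) = jIdx a := rfl

section

variable {Ψ : Lab (G p) → Gph (G p) (Fin p × S0)} {t : ℕ → ℝ} {n K : ℕ}
  {Z : Lab (G p) → Gph (G p) (Fin p × Lbl p S0)}

lemma measurable_exp (hZ : IsRG Z) :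
    ∀ d r w, Measurable fun x => Exp (Z x) K d r w
  | 0, _, _ => measurable_const
  | d + 1, r, _ => by
    refine Measurable.or ((Measurable.not (Measurable.exists fun a => Measurable.exists fun k =>
      (measurable_delSlot hZ _ a k).and (measurable_inSlot hZ a k r))).and
        (measurable_exp hZ d r _)) ?_
    exact Measurable.exists fun a => Measurable.exists fun k =>
      (measurable_delSlot hZ _ a k).and <| (measurable_inSlot hZ a k r).and <|
        Measurable.exists fun f => Measurable.exists fun g =>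
          (Measurable.forall fun l => measurable_inSlot hZ a l (f l)).and <|
            (Measurable.forall fun l => measurable_const.imp (measurable_exp hZ d (f l) (g l))).and
              measurable_const

lemma measurable_expTop (hZ : IsRG Z) (e : CEdge p S0) (w : List (CEdge p S0 × Bool)) :
    Measurable fun x => ExpTop (Z x) K e w :=
  Measurable.exists fun r => (measurable_isRep hZ r).and <|
    (measurable_same hZ e r).and (measurable_exp hZ K r w)

/-- The translation of a list of directed edges. -/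
def trW {S : Type} (h : G p) (w : List ((G p × S) × Bool)) : List ((G p × S) × Bool) :=
  w.map fun z => (tr h z.1, z.2)

omit [Countable S0] in
lemma trW_dirW {S : Type} (h : G p) (d : Bool) (w : List ((G p × S) × Bool)) :
    trW h (dirW d w) = dirW d (trW h w) := by
  cases d <;> simp [trW, dirW, invW, List.map_reverse, Function.comp_def]

omit [Countable S0] in
lemma trW_arcW {S : Type} (h : G p) (g : Fin (p + 1) → List ((G p × S) × Bool)) :
    ∀ n k, trW h (arcW g k n) = arcW (fun l => trW h (g l)) k n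
  | 0, _ => rfl
  | n + 1, k => by
    simp only [arcW]
    rw [← trW_dirW, ← trW_arcW h g n]
    exact List.map_append

omit [Countable S0] in
lemma trW_inv {S : Type} (h : G p) (w : List ((G p × S) × Bool)) : trW h⁻¹ (trW h w) = w := by
  simp [trW, Function.comp_def, tr]

lemma exp_tr_imp (hZ : IsRG Z) (h : G p) (x : Lab (G p)) :
    ∀ {d r w}, Exp (Z x) K d r w → Exp (Z (sh h x)) K d (tr h r) (trW h w)
  | 0, _, _, hw => by rw [hw.trans rfl]; rfl
  | d + 1, r, w, Or.inl ⟨h1, h2⟩ => by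
    refine Or.inl ⟨fun hx => h1 ?_, exp_tr_imp hZ h x h2⟩
    refine ((exists_tr h _).symm.trans (exists_congr fun a => exists_congr fun k => ?_)).1 hx
    exact and_congr (delSlot_tr hZ h x _ a k) (inSlot_tr hZ h x a k r)
  | d + 1, r, w, Or.inr ⟨a, k, h1, h2, f, g, hf, hg, hw⟩ =>
    Or.inr ⟨tr h a, k, (delSlot_tr hZ h x _ a k).2 h1, (inSlot_tr hZ h x a k r).2 h2,
      fun l => tr h (f l), fun l => trW h (g l), fun l => (inSlot_tr hZ h x a l _).2 (hf l),
      fun l hl => exp_tr_imp hZ h x (hg l hl), by rw [hw, trW_dirW, trW_arcW]⟩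

lemma expTop_tr (hZ : IsRG Z) (h : G p) (x : Lab (G p)) (e : CEdge p S0)
    (w : List (CEdge p S0 × Bool)) :
    ExpTop (Z (sh h x)) K (tr h e) (trW h w) ↔ ExpTop (Z x) K e w := by
  have himp : ∀ (h : G p) (x : Lab (G p)) e w, ExpTop (Z x) K e w →
      ExpTop (Z (sh h x)) K (tr h e) (trW h w) := fun h x e w ⟨r, hr, hs, hw⟩ =>
    ⟨tr h r, (isRep_tr hZ h x r).2 hr, (same_tr hZ h x e r).2 hs, exp_tr_imp hZ h x hw⟩
  refine ⟨fun hw => ?_, himp h x e w⟩
  have := himp h⁻¹ _ _ _ hw
  rwa [trW_inv, tr_tr, inv_mul_cancel, ← sh_mul, inv_mul_cancel, sh_one,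
    show tr (1 : G p) e = e by simp [tr]] at this

lemma measurable_pieceAt (hZ : IsRG Z) (u : Piece p S0) :
    Measurable fun x => PieceAt (Z x) K u :=
  ((hZ.measE _).and (measurable_const.or (measurable_leftOp hZ K _))).and <|
    Measurable.exists fun w => (measurable_expTop hZ _ w).and measurable_const

omit [Countable S0] in
lemma getElem?_trW {S : Type} (h : G p) (w : List ((G p × S) × Bool)) (i : ℕ)
    (y : G p × S) (d : Bool) : (trW h w)[i]? = some (tr h y, d) ↔ w[i]? = some (y, d) := by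
  rw [trW, List.getElem?_map]
  cases w[i]? with
  | none => simp
  | some z =>
    obtain ⟨z1, z2⟩ := z
    refine Option.some_inj.trans (Iff.trans ?_ Option.some_inj.symm)
    exact ⟨fun e => Prod.ext (tr_injective h (congrArg Prod.fst e :)) (congrArg Prod.snd e :),
      fun e => by cases e; rfl⟩

omit [Countable S0] in
lemma exists_trW {S : Type} (h : G p) (P : List ((G p × S) × Bool) → Prop) :
    (∃ w, P (trW h w)) ↔ ∃ w, P w :=
  ⟨fun ⟨w, hw⟩ => ⟨_, hw⟩, fun ⟨w, hw⟩ => ⟨trW h⁻¹ w, by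
    rwa [show trW h (trW h⁻¹ w) = w by simpa using trW_inv h⁻¹ w]⟩⟩

lemma pieceAt_tr (hZ : IsRG Z) (h : G p) (x : Lab (G p)) (u : Piece p S0) :
    PieceAt (Z (sh h x)) K (tr h u) ↔ PieceAt (Z x) K u := by
  simp only [PieceAt, Kept, srcE_tr]
  refine and_congr (and_congr (hZ.equivE h x _) (or_congr Iff.rfl (leftOp_tr hZ h x K _))) ?_
  rw [← exists_trW h]
  refine exists_congr fun w => and_congr (expTop_tr hZ h x _ w) ?_
  rw [pieceMap_tr]
  exact getElem?_trW h w _ _ _

lemma measurable_atEnd (hΨ : IsRG Ψ) (a : End (G p) (PLbl p S0))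
    (o : End (G p) (Fin p × S0)) : Measurable fun x => AtEnd (stage (Ψ x) x t n) K a o :=
  (measurable_pieceAt (stage_rg hΨ t n) _).and <| Measurable.exists fun w =>
    (measurable_expTop (stage_rg hΨ t n) _ w).and <|
      (measurable_const.and (measurable_rt hΨ t n _ o)).or
        (measurable_const.and (measurable_rt hΨ t n _ o))

lemma atEnd_tr (hΨ : IsRG Ψ) (h : G p) (x : Lab (G p)) (a : End (G p) (PLbl p S0))
    (o : End (G p) (Fin p × S0)) :
    AtEnd (stage (Ψ (sh h x)) (sh h x) t n) K (tr h a) (tr h o) ↔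
      AtEnd (stage (Ψ x) x t n) K a o := by
  simp only [AtEnd, edge_tr, srcE_tr]
  refine and_congr (pieceAt_tr (stage_rg hΨ t n) h x _) ?_
  rw [← exists_trW h]
  refine exists_congr fun w => and_congr (expTop_tr (stage_rg hΨ t n) h x _ w) ?_
  rw [jIdx_tr, trW, List.length_map]
  exact or_congr (and_congr Iff.rfl (rt_tr hΨ t h x n (en (srcE (edge a)) _) o))
    (and_congr Iff.rfl (rt_tr hΨ t h x n (en (srcE (edge a)) _) o))

lemma measurable_innerAt (hZ : IsRG Z) (a : End (G p) (PLbl p S0)) :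
    Measurable fun x => InnerAt (Z x) K a :=
  (measurable_pieceAt hZ _).and <| Measurable.exists fun w =>
    (measurable_expTop hZ _ w).and measurable_const

lemma innerAt_tr (hZ : IsRG Z) (h : G p) (x : Lab (G p)) (a : End (G p) (PLbl p S0)) :
    InnerAt (Z (sh h x)) K (tr h a) ↔ InnerAt (Z x) K a := by
  simp only [InnerAt, edge_tr, srcE_tr]
  refine and_congr (pieceAt_tr hZ h x _) ?_
  rw [← exists_trW h]
  refine exists_congr fun w => and_congr (expTop_tr hZ h x _ w) ?_
  rw [jIdx_tr, trW, List.length_map]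

end

section

variable {Ψ : Gph (G p) (Fin p × S0)} {x : Lab (G p)} {t : ℕ → ℝ} {n K : ℕ}

lemma PieceAt.length {u : Piece p S0} (h : PieceAt (stage Ψ x t n).Z K u)
    {w : List (CEdge p S0 × Bool)} (hw : ExpTop (stage Ψ x t n).Z K (srcE u) w) :
    w[idx u]? = some (pieceMap u, pieceDir u) ∧ idx u < w.length := by
  obtain ⟨w', hw', hi⟩ := h.2
  obtain rfl := expTop_unique hw hw'
  exact ⟨hi, (List.getElem?_eq_some_iff.1 hi).1⟩

lemma AtEnd.unique {a : End (G p) (PLbl p S0)} {o o' : End (G p) (Fin p × S0)}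
    (h : AtEnd (stage Ψ x t n) K a o) (h' : AtEnd (stage Ψ x t n) K a o') : o = o' := by
  obtain ⟨hp, w, hw, h⟩ := h
  obtain ⟨-, w', hw', h'⟩ := h'
  obtain rfl := expTop_unique hw hw'
  have := (hp.length hw).2
  rcases h with ⟨h0, hr⟩ | ⟨h0, hr⟩ <;> rcases h' with ⟨h0', hr'⟩ | ⟨h0', hr'⟩
  · exact rt_unique hr hr'
  · omega
  · omega
  · exact rt_unique hr hr'

lemma AtEnd.not_inner {a : End (G p) (PLbl p S0)} {o : End (G p) (Fin p × S0)}
    (h : AtEnd (stage Ψ x t n) K a o) : ¬InnerAt (stage Ψ x t n).Z K a := by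
  rintro ⟨-, w', hw', h1, h2⟩
  obtain ⟨-, w, hw, h⟩ := h
  obtain rfl := expTop_unique hw hw'
  omega

/-- Each end of a piece is at an old node or inside its edge. -/
lemma atEnd_or_inner {a : End (G p) (PLbl p S0)} (h : PieceAt (stage Ψ x t n).Z K (edge a)) :
    (∃ o, AtEnd (stage Ψ x t n) K a o) ∨ InnerAt (stage Ψ x t n).Z K a := by
  obtain ⟨w, hw, -⟩ := h.2
  have hlen := (h.length hw).2
  have hj : jIdx a ≤ w.length := by
    unfold jIdx
    split <;> omega
  rcases Nat.eq_zero_or_pos (jIdx a) with h0 | h0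
  · obtain ⟨o, ho⟩ := exists_rt (a := en (srcE (edge a)) false) h.1.1
    exact Or.inl ⟨o, h, w, hw, Or.inl ⟨h0, ho⟩⟩
  rcases hj.lt_or_eq with h1 | h1
  · exact Or.inr ⟨h, w, hw, h0, h1⟩
  · obtain ⟨o, ho⟩ := exists_rt (a := en (srcE (edge a)) true) h.1.1
    exact Or.inl ⟨o, h, w, hw, Or.inr ⟨h1, ho⟩⟩

lemma sub_eqv (hΨ : Equivalence Ψ.R) : Equivalence (sub Ψ x t n K).R := by
  refine ⟨fun a => Or.inl rfl, ?_, ?_⟩
  · rintro a b (rfl | ⟨o, o', h1, h2, h3⟩ | ⟨h1, h2, h3, h4⟩)
    · exact Or.inl rfl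
    · exact Or.inr (Or.inl ⟨o', o, h2, h1, hΨ.symm h3⟩)
    · exact Or.inr (Or.inr ⟨h2, h1, h3.symm, h4.symm⟩)
  · rintro a b c (rfl | ⟨o, o', h1, h2, h3⟩ | ⟨h1, h2, h3, h4⟩) hbc
    · exact hbc
    · rcases hbc with rfl | ⟨o₂, o₂', h1', h2', h3'⟩ | ⟨h1', -⟩
      · exact Or.inr (Or.inl ⟨o, o', h1, h2, h3⟩)
      · obtain rfl := h2.unique h1'
        exact Or.inr (Or.inl ⟨o, o₂', h1, h2', hΨ.trans h3 h3'⟩)
      · exact absurd h1' h2.not_inner
    · rcases hbc with rfl | ⟨o₂, o₂', h1', -⟩ | ⟨h1', h2', h3', h4'⟩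
      · exact Or.inr (Or.inr ⟨h1, h2, h3, h4⟩)
      · exact absurd h2 h1'.not_inner
      · exact Or.inr (Or.inr ⟨h1, h2', h3.trans h3', h4.trans h4'⟩)

end

theorem sub_rg {Ψ : Lab (G p) → Gph (G p) (Fin p × S0)} (hΨ : IsRG Ψ) (t : ℕ → ℝ) (n K : ℕ) :
    IsRG fun x => sub (Ψ x) x t n K where
  measE u := measurable_pieceAt (stage_rg hΨ t n) u
  measR a b := measurable_const.or <| (Measurable.exists fun o => Measurable.exists fun o' =>
    (measurable_atEnd hΨ a o).and <| (measurable_atEnd hΨ b o').and (hΨ.measR o o')).or <|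
      (measurable_innerAt (stage_rg hΨ t n) a).and <|
        (measurable_innerAt (stage_rg hΨ t n) b).and measurable_const
  measMk a := Measurable.exists fun o => (measurable_atEnd hΨ a o).and (hΨ.measMk o)
  equivE h x u := pieceAt_tr (stage_rg hΨ t n) h x u
  equivR h x a b := by
    refine or_congr (tr_injective h).eq_iff (or_congr ?_ (and_congr
      (innerAt_tr (stage_rg hΨ t n) h x a) (and_congr (innerAt_tr (stage_rg hΨ t n) h x b)
        (and_congr ?_ Iff.rfl))))
    · rw [← exists_tr h]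
      refine exists_congr fun o => ?_
      rw [← exists_tr h]
      exact exists_congr fun o' => and_congr (atEnd_tr hΨ h x a o)
        (and_congr (atEnd_tr hΨ h x b o') (hΨ.equivR h x o o'))
    · rw [edge_tr, edge_tr, srcE_tr, srcE_tr]
      exact (tr_injective h).eq_iff
  equivMk h x a := by
    show (∃ o, _) ↔ ∃ o, _
    rw [← exists_tr h]
    exact exists_congr fun o => and_congr (atEnd_tr hΨ h x a o) (hΨ.equivMk h x o)
  eqv x := sub_eqv (hΨ.eqv x)
  mk_congr x a b hab := by
    rintro ⟨o, ho, hm⟩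
    rcases hab with rfl | ⟨o₁, o₂, h1, h2, h3⟩ | ⟨h1, -⟩
    · exact ⟨o, ho, hm⟩
    · obtain rfl := ho.unique h1
      exact ⟨o₂, h2, hΨ.mk_congr x o o₂ h3 hm⟩
    · exact absurd h1 ho.not_inner

end Vale.Agent.P189
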